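import Vale.Agent.P257.V4.O.Final

/-!
# P257, part K: iterated cofibres of `p, v_1, …, v_{n-1}`

* `Chp p v n X u` : `X` (with `u : 𝟙 ⟶ X`) is an iterated cofibre: the first step is the cofibre of
  `p : 𝟙 ⟶ 𝟙`, the later steps are cofibres of `f : X_k⟦d k⟧ ⟶ X_k` such that the restriction of `f`
  to the bottom cell has Hurewicz class `v k · u`.
* `exists_V'` : the theorem `exists_V` of part O with an additional predicate.
-/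

open CategoryTheory MonoidalCategory Limits Pretriangulated MonObj

set_option linter.unusedSectionVars false

universe v u

namespace Vale.Agent.P257.V4.K

open Vale.Agent.P251.T Vale.Agent.P251.M Vale.Agent.P251.S Vale.Agent.P257.V4.A
  Vale.Agent.P257.V4.E Vale.Agent.P257.V4.O

section chp

variable {T : Type u} [Category.{v} T] [Preadditive T] [HasZeroObject T]
    [HasShift T ℤ] [∀ n : ℤ, (shiftFunctor T n).Additive] [Pretriangulated T]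
    [MonoidalCategory T] [SymmetricCategory T] [TensorTriangulated T]
    {B : T} [MonObj B] {d : ℕ → ℤ} (p : ℕ) (v : ∀ k, (𝟙_ T)⟦d k⟧ ⟶ B)

/-- Iterated cofibres of `p, v_1, …, v_{n-1}`, for `n ≥ 1`. -/
inductive Chp : ℕ → ∀ X : T, (𝟙_ T ⟶ X) → Prop
  | base {X : T} (u : 𝟙_ T ⟶ X) (δ : X ⟶ (𝟙_ T)⟦(1 : ℤ)⟧)
      (hd : Triangle.mk ((p : ℤ) • 𝟙 (𝟙_ T)) u δ ∈ distTriang T) : Chp 1 X u
  | step {n : ℕ} {X : T} {u : 𝟙_ T ⟶ X} (hn : 1 ≤ n) (h : Chp n X u) (f : X⟦d n⟧ ⟶ X) {X' : T}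
      (q : X ⟶ X') (δ : X' ⟶ X⟦d n⟧⟦(1 : ℤ)⟧) (hd : Triangle.mk f q δ ∈ distTriang T)
      (hf : u⟦d n⟧' ≫ f ≫ unitMap B X = hur (v n) u) : Chp (n + 1) X' (u ≫ q)

variable {p v}

theorem Chp.one_le {n : ℕ} {X : T} {u : 𝟙_ T ⟶ X} (h : Chp p v n X u) : 1 ≤ n := by
  cases h with
  | base => exact le_rfl
  | step => omega

end chp

section tower

variable {T : Type u} [Category.{v} T] [Preadditive T] [HasZeroObject T]
    [HasShift T ℤ] [∀ n : ℤ, (shiftFunctor T n).Additive] [Pretriangulated T]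
    [MonoidalCategory T] [SymmetricCategory T] [TensorTriangulated T] [HasCoproducts.{0} T]
    {K : CosR} {R : T} [MonObj R] [IsCommMonObj R] (E : RMod K R)
variable {I : ℕ → ∀ (s : ℕ) (w : ℤ), AddSubgroup (K.wt s w)} {w : ℕ → ℤ} {z : ∀ k, K.wt 0 (w k)}
  {q : ℤ}

/-- **`V(0), …, V(3)` exist with left unital pairings**, with an additional predicate `Q`. -/
theorem exists_V' (U : UnitCof R) {p : ℕ} [Fact p.Prime] (hp : 11 ≤ p)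
    (hw : ∀ k, 2 * w k = ((2 * p - 2 : ℕ) : ℤ) * Ch.N p k) {N : ℕ} (hN : 4 ≤ N)
    (hK : KTow K N I w z) (Q : ℕ → ∀ X : T, (𝟙_ T ⟶ X) → Prop)
    (h1 : ∃ (X : T) (u : 𝟙_ T ⟶ X), IV E ((2 * p - 2 : ℕ) : ℤ) I z 1 u ∧ Q 1 X u)
    (hQ : ∀ (n : ℕ) (X : T) (u : 𝟙_ T ⟶ X), 1 ≤ n → n < 4 →
      IV E ((2 * p - 2 : ℕ) : ℤ) I z n u → Q n X u → ∀ (f : X⟦2 * w n⟧ ⟶ X) (X' : T)
      (r : X ⟶ X') (δ : X' ⟶ X⟦2 * w n⟧⟦(1 : ℤ)⟧), Triangle.mk f r δ ∈ distTriang T →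
      u⟦2 * w n⟧' ≫ f ≫ unitMap R X = hur (cls E (z n)) u → Q (n + 1) X' (u ≫ r))
    (hcon : ∀ (n : ℕ) (X : T) (u : 𝟙_ T ⟶ X), 1 ≤ n → n ≤ 4 →
      IV E ((2 * p - 2 : ℕ) : ℤ) I z n u → Q n X u → Conn U X)
    (hcmp : ∀ (n : ℕ) (X : T) (u : 𝟙_ T ⟶ X), 1 ≤ n → n ≤ 4 →
      IV E ((2 * p - 2 : ℕ) : ℤ) I z n u → Q n X u → Cmp U p n X)
    (hV : OutV p) (hM : OutMu p) :
    ∀ n, 1 ≤ n → n ≤ 4 → ∃ (X : T) (u : 𝟙_ T ⟶ X) (m : X ⊗ X ⟶ X),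
      IV E ((2 * p - 2 : ℕ) : ℤ) I z n u ∧ Q n X u ∧ (u ▷ X) ≫ m = (λ_ X).hom := by
  have hqw : ∀ k, ((2 * p - 2 : ℕ) : ℤ) ∣ 2 * w k := fun k => by
    rw [hw k]; exact Dvd.intro _ rfl
  have hq2 : (2 : ℤ) ∣ ((2 * p - 2 : ℕ) : ℤ) := by
    exact Int.natCast_dvd_natCast.2 ⟨p - 1, by rw [Nat.mul_sub]⟩
  intro n hn1 hn4
  obtain ⟨X, u, m, -, h, hm⟩ := exists_tower' (v := fun k => cls E (z k)) (N := 4) U hqw
    (by push_cast; omega) (fun n X u => IV E ((2 * p - 2 : ℕ) : ℤ) I z n u ∧ Q n X u)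
    (by obtain ⟨X, u, h, hq⟩ := h1; exact ⟨X, u, h.ch, h, hq⟩)
    (fun n X u _ _ h t ht => XM.zr E h.1.xm ht)
    (fun n X u hn hn' h => hcon n X u hn hn' h.1 h.2)
    (fun n X u hn hn' h k hk => hur_cls_eq_zero E
      (by rw [h.1.ker]; exact hK.zero n k hn (by omega) hk))
    (fun n X u hn hn' h => exists_lift_cls E U (by rw [h.1.ker]; exact hK.coc n hn (by omega))
      (hcon n X u hn (by omega) h.1 h.2)
      fun s hs => (hcmp n X u hn (by omega) h.1 h.2).vanL hp hV hn (by omega) (by rw [hw n]) s hs)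
    (fun n X u hn hn' h k hk a ha b hb =>
      (hcmp n X u hn hn' h.1 h.2).vanP hp hM hn' hw hk ha hb)
    (fun n X u hn hn' _ h f X' r δ hd hf => ⟨h.1.step E hK hq2 hqw hn (by omega) hd hf,
      hQ n X u hn hn' h.1 h.2 f X' r δ hd hf⟩) n hn1 hn4
  exact ⟨X, u, m, h.1, h.2, hm⟩

end tower

end Vale.Agent.P257.V4.K
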