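import Vale.Agent.P257.V4.K.MURegA
import Vale.Agent.P251.X.OrConv
import Vale.Agent.P251.M.BGlueD
import Vale.Agent.P251.M.MUFinal

/-!
# P257, part K: `MU` is an oriented ring spectrum for which `p, v_1, v_2, …` is regular

`exists_regular` : for every stable homotopy category with a suspension spectrum functor and every
odd prime `p` there are `R` (`MU`), an orientation `o` of `R` and `v` with `IsPSeries S o p N v` for
all `N` and `IsRegular p n v` for all `n`.
-/

open CategoryTheory MonoidalCategory OnePoint Topology Limits Pretriangulated Matrix MonObj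

set_option linter.unusedSectionVars false

noncomputable section

namespace Vale.Agent.P257.V4.K

open Vale.Agent.P251 Vale.Agent.P251.St Vale.Agent.P251.G Vale.Agent.P251.G.LC
open Vale.Agent.P251.I Vale.Agent.P251.M Vale.Agent.P251.M.EvenSpheres Vale.Agent.P251.F
  Vale.Agent.P217 Vale.Agent.P251.S Vale.Agent.P251.X

section reg

variable {T : SHCat} {S : Susp T} (e : S.toSpaceFunctor.S.obj CCF ≅ (stdEven T.C).L)
  (D : MUData T.C) {p : ℕ} [Fact p.Prime]

/-- `MU` as a ring spectrum of the statement layer -/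
abbrev RD : RingSp T := ⟨D.R⟩

variable {n : ℕ} {v : ∀ k : ℕ, SHCat.Hom (S.obj (St.Cn k)) (RD D).obj}

theorem hI_eq (hv : ∀ i, 0 < i → i ≤ n → vh e (v (p ^ i - 1)) = phiD D (Laz.v p i)) {i : ℕ}
    (hi : 0 < i) (hin : i ≤ n) : hI e p i v = (Laz.I p i).map (phiD D) := by
  have h1 : (Laz.I p i).map (phiD D) =
      Ideal.span {b : HRing (stdEven T.C) D.R | ∃ k < i, phiD D (Laz.v p k) = b} := by
    rw [Laz.I, Ih, Ideal.map_span]
    congr 1
    ext x
    constructor
    · rintro ⟨_, ⟨k, hk, rfl⟩, rfl⟩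
      exact ⟨k, hk, rfl⟩
    · rintro ⟨k, hk, rfl⟩
      exact ⟨_, ⟨k, hk, rfl⟩, rfl⟩
  have h0 : phiD D (Laz.v p 0) = (p : HRing (stdEven T.C) D.R) := by
    rw [phiD_v, vv_zero]
  rw [h1, hI]
  congr 1
  ext x
  constructor
  · rintro (hx | ⟨k, hk, hk', rfl⟩)
    · exact ⟨0, hi, h0.trans (Set.mem_singleton_iff.mp hx).symm⟩
    · exact ⟨k, hk', (hv k hk (by omega)).symm⟩
  · rintro ⟨k, hk, rfl⟩
    rcases Nat.eq_zero_or_pos k with rfl | hk0
    · exact Or.inl h0
    · exact Or.inr ⟨k, hk0, hk, (hv k hk0 (by omega)).symm⟩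

variable (hp : p ≠ 2)

include hp

/-- **Regularity for `MU`.** -/
theorem isRegular_mu (hv : ∀ i, 0 < i → i ≤ n → vh e (v (p ^ i - 1)) = phiD D (Laz.v p i)) :
    IsRegular (S := S) (R := RD D) p n v := by
  obtain ⟨M, iM, δM, hM⟩ := distinguished_cocone_triangle ((p : ℤ) • 𝟙 (𝟙_ T.C))
  refine ⟨fun d a ha => mu_torsionFree D hp hM d a ha, fun i hi hin d a h => ?_⟩
  rcases Int.even_or_odd' d with ⟨w, rfl | rfl⟩
  · let g : (stdEven T.C).S w ≅ sphere T (2 * w) := E.sphE T.C w
    rw [inI_iff (e := e) g]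
    let g' : (stdEven T.C).S (w + ((p ^ i - 1 : ℕ) : ℤ)) ≅
        SHCat.ten (sphere T (2 * w)) (S.obj (St.Cn (p ^ i - 1))) :=
      ((stdEven T.C).mu w ((p ^ i - 1 : ℕ) : ℤ) _ rfl).symm ≪≫
        (g ⊗ᵢ (sgS e (p ^ i - 1)).symm)
    rw [inI_iff (e := e) g'] at h
    have h1 : HRing.of (stdEven T.C) (RD D).obj (w + ((p ^ i - 1 : ℕ) : ℤ))
        (g'.hom ≫ prod a (v (p ^ i - 1))) =
        HRing.of (stdEven T.C) (RD D).obj w (g.hom ≫ a) * vh e (v (p ^ i - 1)) := by
      rw [vh, of_mul_of rfl]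
      congr 1
      change (((stdEven T.C).mu w ((p ^ i - 1 : ℕ) : ℤ) _ rfl).inv ≫
        (g.hom ⊗ₘ (sgS e (p ^ i - 1)).inv)) ≫ (a ⊗ₘ v (p ^ i - 1)) ≫ μ[D.R] = _
      rw [Category.assoc, tensorHom_comp_tensorHom_assoc, gmul, EvenSpheres.ext, Category.assoc]
    rw [h1, hI_eq e D hv hi hin, hv i hi hin] at h
    rw [hI_eq e D hv hi hin]
    exact mem_of_mul_mem (phiD D) (phiD_surj D hp hM) (phiD_ker D hp hM) hi h
  · obtain ⟨b, hb⟩ := mu_odd_div D hp hM w a
    refine ⟨b, fun _ => 0, ?_⟩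
    rw [hb]
    simp

end reg

/-! ### The orientation -/

section fam

universe v' u'

variable {T : Type u'} [Category.{v'} T] [Preadditive T] [HasZeroObject T]
    [HasShift T ℤ] [∀ n : ℤ, (shiftFunctor T n).Additive] [Pretriangulated T]
    [MonoidalCategory T] [SymmetricCategory T] [Vale.Agent.P251.T.TensorTriangulated T]
  {F : SpaceFunctor T} {E : EvenSpheres T} (e : F.S.obj CCF ≅ E.L)
  {K : T} [MonObj K] [IsCommMonObj K]

theorem thomFam_ext {s : F.S.obj CCF ⟶ (RSys K E).obj 0 1} {W W' : ThomFam (RSys K E) F s}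
    (h : ∀ n N, W.w n N = W'.w n N) : W = W' := by
  cases W
  cases W'
  congr
  funext n N
  exact h n N

/-- The family of the orientation of a family of Thom classes. -/
theorem famK_oriOf (W : ThomFam (RSys K E) F (lineCls e (SeqMonoid.const K))) :
    Z.famK e (oriOf e W) = W := by
  apply thomFam_ext
  intro n N
  apply hq_inj
  rw [Z.isFam_famK e (oriOf e W) n N, isFam_oriOf e W n N]

end fam

section ori

variable {T : SHCat} {S : Susp T}

theorem oriented_ext {R : RingSp T} {o o' : Z.Oriented S.toSpaceFunctor R.obj}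
    (h : ∀ (n : ℕ) (A : Type) [Fintype A], o.θ n A = o'.θ n A) : o = o' := by
  cases o
  cases o'
  congr
  funext n A inst
  exact h n A

theorem zOriented_sOriented {R : RingSp T} (o : Z.Oriented S.toSpaceFunctor R.obj) :
    zOriented (sOriented (S := S) (R := R) o) = o := by
  apply oriented_ext (R := R)
  intro n A _
  have hA := Z.Cells.th n A
  have hA' := (fc_iff _).mp (fc_th n A)
  have h1 : S.mapL (thIso n A).inv ≫ S.mapL (thIso n A).hom ≫ rθ o n A = rθ o n A := by
    rw [← Category.assoc, S.mapL_inv_hom hA' hA, Category.id_comp]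
  exact h1

variable (S) (e : S.toSpaceFunctor.S.obj CCF ≅ (stdEven T.C).L)

theorem lawOf_fam (M : MUMon S.toSpaceFunctor (stdEven T.C) e) (b : MUBasis M.V) :
    lawOf e (zOriented (sOriented (S := S) (R := RD (M.data b)) (oriOf e M.fam))) =
      (M.data b).law := by
  have h1 := zOriented_sOriented (S := S) (R := RD (M.data b)) (oriOf e M.fam)
  rw [h1, lawOf, M.data_law b, M.ori_eq, M.orient_eq]
  have h2 : Z.famK e (oriOf e M.fam) = M.fam := famK_oriOf e M.fam
  change ((Z.famK e (oriOf e M.fam)).orientation _ _).law.map _ = _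
  rw [h2]
  rfl

/-- **There are oriented ring spectra for which the sequence `p, v_1, …` is regular.** -/
theorem exists_regular (p : ℕ) [Fact p.Prime] (hp : p ≠ 2) :
    ∃ (R : RingSp T) (o : St.Oriented S R) (v : ∀ k : ℕ, SHCat.Hom (S.obj (St.Cn k)) R.obj),
      (∀ N, IsPSeries S o p N v) ∧ ∀ n, IsRegular p n v := by
  let e : S.toSpaceFunctor.S.obj CCF ≅ (stdEven T.C).L := M.lineIso S.toSpaceFunctor
  obtain ⟨M⟩ := nonempty_MUMon S.toSpaceFunctor (stdEven T.C) e
  obtain ⟨b⟩ := M.nonempty_muBasis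
  let D : MUData T.C := M.data b
  let v : ∀ k : ℕ, SHCat.Hom (S.obj (St.Cn k)) (RD D).obj :=
    fun k => (sgS e k).hom ≫ mcoef D p k
  have hv : ∀ k, vh e (v k) = PowerSeries.coeff (k + 1) (multSeries D.law.toFG p) := by
    intro k
    rw [mcoef_spec, vh]
    congr 1
    exact (sgS e k).inv_hom_id_assoc _
  refine ⟨RD D, sOriented (S := S) (R := RD D) (oriOf e M.fam), v, fun N => ?_, fun n => ?_⟩
  · rw [isPSeries_iff_coeff e, lawOf_fam S e M b]
    intro k _
    exact (hv k).symm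
  · refine isRegular_mu e D hp fun i hi hin => ?_
    have h1 : 0 < p ^ i := pow_pos (Fact.out : p.Prime).pos i
    rw [hv, phiD_v, vv, Nat.sub_add_cancel h1]

end ori

end Vale.Agent.P257.V4.K
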