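import Vale.Agent.P257.V4.B.Start
import Vale.Agent.P257.V4.K.Chp

/-!
# P257, part K: from the Hurewicz images in `B` to the Hurewicz images in `MU`

* `hur_toMU` : if the classes of `v_j ∈ π_* MU`, `j < n`, kill `u : 𝟙 ⟶ X`, `X` is `p`-local and the
`B`-Hurewicz image of `x : 𝟙⟦2w⟧ ⟶ X` is `v_n u`, then its `MU`-Hurewicz image is `v_n u`.
* `chp_toMU` : an iterated cofibre of `p, v_1, …, v_{n-1}` for `B` is an iterated cofibre of
`p, v_1, …, v_{n-1}` for every `g : MU ⟶ N`.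
-/

open CategoryTheory MonoidalCategory MonObj Limits Pretriangulated

universe v u

set_option linter.unusedSectionVars false

noncomputable section

namespace Vale.Agent.P257.V4.K

open Vale.Agent.P251.S Vale.Agent.P251.T Vale.Agent.P251.M Vale.Agent.P251.F Vale.Agent.P251.I
  Vale.Agent.P251.X EvenSpheres Vale.Agent.P093.PLoc Vale.Agent.P257.V4.B

open Vale.Agent.P257.V4.E (CosR RMod ux ux_nat ux_comp sphE)
open Vale.Agent.P257.V4.O (hur cls hur_comp comp_hur)

section ann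

variable {T : Type u} [Category.{v} T] [Preadditive T] [MonoidalCategory T]
  [MonoidalPreadditive T] [SymmetricCategory T] {E : EvenSpheres T} {N X : T} [MonObj N]

theorem gsmul_unit (u : 𝟙_ T ⟶ X) {w : ℤ} (h : w + 0 = w) (a : E.S w ⟶ N) :
    gsmul ((ModStr.self N).tensorRight X) h a (E.zero.inv ≫ u ≫ unitMap N X) = hur a u := by
  unfold gsmul
  rw [ext_one, hur]
  change (a ≫ (ρ_ N).inv ≫ N ◁ (u ≫ unitMap N X)) ≫ mulMap N X = _
  rw [MonoidalCategory.whiskerLeft_comp, Category.assoc, Category.assoc, Category.assoc,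
    whiskerLeft_unitMap_mulMap, Category.comp_id]

variable [IsCommMonObj N]

/-- The classes which are congruent modulo elements which kill `u` have the same product with
`u`. -/
theorem hur_eq_of_mem (u : 𝟙_ T ⟶ X) (S : Set (HRing E N))
    (hS : ∀ s ∈ S, ∃ (n : ℤ) (a : E.S n ⟶ N), s = HRing.of E N n a ∧ hur a u = 0) {w : ℤ}
    (a a' : E.S w ⟶ N) (h : HRing.of E N w a - HRing.of E N w a' ∈ Ideal.span S) :
    hur a u = hur a' u := by
  let M : ModStr N (N ⊗ X) := (ModStr.self N).tensorRight X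
  let _ : Module (HRing E N) (HMod E (N ⊗ X)) := hModule (E := E) M
  set g : HMod E (N ⊗ X) :=
    DirectSum.of (E.Gr (N ⊗ X)) 0 (E.zero.inv ≫ u ≫ unitMap N X) with hg
  have h1 : ∀ (n : ℤ) (c : E.S n ⟶ N),
      HRing.of E N n c • g = DirectSum.of (E.Gr (N ⊗ X)) n (hur c u) := by
    intro n c
    rw [hg, of_smul_of (E := E) M (add_zero n), gsmul_unit]
  have h2 : Ideal.span S ≤ LinearMap.ker (LinearMap.toSpanSingleton (HRing E N) _ g) := by
    rw [Ideal.span_le]
    intro s hs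
    obtain ⟨n, c, rfl, hc⟩ := hS s hs
    change HRing.of E N n c • g = 0
    rw [h1, hc, map_zero]
  have h3 : (HRing.of E N w a - HRing.of E N w a') • g = 0 := h2 h
  rw [sub_smul, h1, h1, sub_eq_zero] at h3
  exact DirectSum.of_injective (β := E.Gr (N ⊗ X)) w h3

end ann

variable {T : Type u} [Category.{v} T] [Preadditive T] [HasZeroObject T]
    [HasShift T ℤ] [∀ n : ℤ, (shiftFunctor T n).Additive] [Pretriangulated T] [IsTriangulated T]
    [MonoidalCategory T] [SymmetricCategory T] [TensorTriangulated T] [MonoidalClosed T]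
    [HasCoproducts.{0} T] [HasProducts.{0} T] [StableCat T] {D : MUData T}

section cls

variable {N : T} [MonObj N] [IsCommMonObj N] (g : D.R ⟶ N) [IsMonHom g]

/-- `v_n` of the law of `g` as a homogeneous element -/
theorem of_evw_v {p n : ℕ} {w : ℤ} (z : cobK.wt 0 w)
    (hz : z.1 = MvPolynomial.C (Laz.v p n)) :
    HRing.of (stdEven T) N w ((rmodOf g).evw 0 w z ≫ amOne N) = vv p n (lawOf g) := by
  have h1 : (HRing.map (E := stdEven T) (amOne N)).comp (HRing.map (amHom g 1)) =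
      (HRing.map (E := stdEven T) g).comp (HRing.map (amOne D.R)) := by
    rw [← HRing.map_comp, ← HRing.map_comp]
    refine HRing_map_congr ?_
    apply Am.hom_ext
    intro i
    obtain rfl : i = 0 := Subsingleton.elim _ _
    rw [v_amHom_assoc, v_amOne, Category.comp_id, ← Category.assoc, v_amOne, Category.id_comp]
  have h2 := (rmodOf g).of_evw z
  rw [← HRing.map_of]
  rw [h2, rmodOf_ev, hz, lawOf, MUData.law, MUData.law1, Law.map_map, Law.map_map, vv_map]
  exact congrArg (fun φ => φ (D.ev 0 (MvPolynomial.C (Laz.v p n)))) h1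

theorem cls_eq {w : ℤ} (z : cobK.wt 0 w) :
    cls (rmodOf g) z = (sphE T w).inv ≫ (rmodOf g).evw 0 w z ≫ amOne N := rfl

/-- naturality of the classes -/
theorem cls_comp {N' : T} [MonObj N'] [IsCommMonObj N'] (h : N ⟶ N') [IsMonHom h] {w : ℤ}
    (z : cobK.wt 0 w) : cls (rmodOf g) z ≫ h = cls (rmodOf (g ≫ h)) z := by
  have h1 : (rmodOf (g ≫ h)).evw 0 w z = (rmodOf g).evw 0 w z ≫ amHom h 1 := by
    obtain ⟨a, ha⟩ := D.ev_wt 0 w z.1 z.2
    rw [rmodOf_evw g z ha, rmodOf_evw (g ≫ h) z ha, Category.assoc, amHom_comp]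
  have h2 : amHom h 1 ≫ amOne N' = amOne N ≫ h := by
    apply Am.hom_ext
    intro i
    obtain rfl : i = 0 := Subsingleton.elim _ _
    rw [v_amHom_assoc, v_amOne, Category.comp_id, ← Category.assoc, v_amOne, Category.id_comp]
  rw [cls_eq, cls_eq, h1, Category.assoc, Category.assoc, Category.assoc, h2]

theorem hur_cls_map {N' : T} [MonObj N'] [IsCommMonObj N'] (h : N ⟶ N') [IsMonHom h] {X : T}
    (u : 𝟙_ T ⟶ X) {w : ℤ} (z : cobK.wt 0 w) :
    hur (cls (rmodOf g) z) u ≫ h ▷ X = hur (cls (rmodOf (g ≫ h)) z) u := by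
  rw [← cls_comp, hur, hur, Category.assoc, Category.assoc, Category.assoc,
    whisker_exchange, ← rightUnitor_inv_naturality_assoc h]

omit [IsCommMonObj N] in
theorem unitMap_map {N' : T} [MonObj N'] (h : N ⟶ N') [IsMonHom h] (X : T) :
    unitMap N X ≫ h ▷ X = unitMap N' X := by
  rw [unitMap, unitMap, Category.assoc, ← comp_whiskerRight, IsMonHom.one_hom]

end cls

variable {p : ℕ} [hp : Fact p.Prime]

/-- `X ⟶ Sp p ⊗ X` is an isomorphism for `p`-local `X` -/
theorem isIso_locM_whiskerRight {X : T} (hX : IsPLocal p X) (Y : T) : IsIso (locM p Y ▷ X) := by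
  have h1 := hX.isIso_etaX hp.out.ne_one
  have h2 : locM p Y ▷ X = Y ◁ etaX p X ≫ (α_ Y (Sp T p) X).inv := by
    rw [locM_eq]
    unfold etaR etaX
    monoidal
  rw [h2]
  infer_instance

/-- **From `B` to `MU`.** -/
theorem hur_toMU (b : BData D p) {X : T} (hX : IsPLocal p X) {u : 𝟙_ T ⟶ X} {n : ℕ}
    (hlow : ∀ j < n, ∃ (w : ℤ) (z : cobK.wt 0 w), z.1 = MvPolynomial.C (Laz.v p j) ∧
      hur (cls (rmodOf (𝟙 D.R)) z) u = 0)
    {w : ℤ} (z : cobK.wt 0 w) (hz : z.1 = MvPolynomial.C (Laz.v p n)) {x : (𝟙_ T)⟦2 * w⟧ ⟶ X}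
    (hx : x ≫ unitMap b.obj X = hur (cls b.rmod z) u) :
    x ≫ unitMap D.R X = hur (cls (rmodOf (𝟙 D.R)) z) u := by
  have hL := pLoc_HRing (E := stdEven T) (isPLocal_Kp D p)
  have hiso := isIso_locM_whiskerRight hX D.R
  have h1 : x ≫ unitMap (Kp D p) X = hur (cls (rmodOf (b.u ≫ b.i)) z) u := by
    have h2 : (x ≫ unitMap b.obj X) ≫ b.i ▷ X = hur (cls b.rmod z) u ≫ b.i ▷ X := by rw [hx]
    rw [Category.assoc, unitMap_map] at h2
    rw [h2]
    exact hur_cls_map b.u b.i u z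
  have h3 : hur (cls (rmodOf (b.u ≫ b.i)) z) u = hur (cls (rmodOf (locM p D.R)) z) u := by
    rw [cls_eq, cls_eq, ← comp_hur (sphE T w).inv ((rmodOf (b.u ≫ b.i)).evw 0 w z ≫ _) u,
      ← comp_hur (sphE T w).inv ((rmodOf (locM p D.R)).evw 0 w z ≫ _) u]
    refine congrArg (fun y => (sphE T w).inv ≫ y) ?_
    refine hur_eq_of_mem u {s | ∃ i < n, vv p i (lawOf (locM p D.R)) = s} ?_ _ _ ?_
    · rintro _ ⟨j, hj, rfl⟩
      obtain ⟨w', z', hz', h4⟩ := hlow j hj
      refine ⟨w', _, (of_evw_v (locM p D.R) z' hz').symm, ?_⟩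
      have h5 : hur (cls (rmodOf (𝟙 D.R)) z') u ≫ locM p D.R ▷ X = 0 := by rw [h4, zero_comp]
      rw [hur_cls_map (𝟙 D.R) (locM p D.R) u z'] at h5
      have h6 : rmodOf (𝟙 D.R ≫ locM p D.R) = rmodOf (locM p D.R) := by
        simp only [Category.id_comp]
      rw [h6, cls_eq, ← comp_hur (sphE T w').inv ((rmodOf (locM p D.R)).evw 0 w' z' ≫ _) u] at h5
      rwa [← cancel_epi (sphE T w').inv, comp_zero]
    · rw [of_evw_v _ z hz, of_evw_v _ z hz]
      have h4 : lawOf (b.u ≫ b.i) = nf p (lawOf (locM p D.R)) • lawOf (locM p D.R) := by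
        rw [← b.ser_eq, ser_smul]
        exact lawOf_congr b.u_i
      have h5 := vv_smul_sub_mem p n (lawOf (locM p D.R)) (nf p (lawOf (locM p D.R)))
      have h6 : (nf p (lawOf (locM p D.R))).c 0 = 1 := nf_mem _
      rw [h6, one_pow, _root_.mul_one, _root_.one_mul, ← h4] at h5
      exact h5
  rw [← cancel_mono (locM p D.R ▷ X), Category.assoc, unitMap_map, h1, h3,
    hur_cls_map (𝟙 D.R) (locM p D.R) u z]
  simp only [Category.id_comp]

/-! ### Iterated cofibres -/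

section chp

theorem hur_zsmul {N X Z : T} [MonObj N] (m : ℤ) (a : Z ⟶ N) (u : 𝟙_ T ⟶ X) :
    hur (m • a) u = hur a (m • u) := by
  rw [hur, hur, Preadditive.zsmul_comp, whiskerLeft_zsmul, Preadditive.comp_zsmul,
    Preadditive.comp_zsmul]

theorem hur_zero {N X Z : T} [MonObj N] (a : Z ⟶ N) : hur a (0 : 𝟙_ T ⟶ X) = 0 := by
  rw [hur, MonoidalPreadditive.whiskerLeft_zero, comp_zero, comp_zero]

variable (b : BData D p) {w : ℕ → ℤ} {z : ∀ k, cobK.wt 0 (w k)} {N : ℕ}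
  (hz : ∀ k, 1 ≤ k → k < N → (z k).1 = MvPolynomial.C (Laz.v p k))

include hz in
theorem chp_toMU_aux {n : ℕ} {X : T} {u : 𝟙_ T ⟶ X}
    (h : Chp p (fun k => cls b.rmod (z k)) n X u) (hn : n ≤ N) :
    IsPLocal p X ∧ (∀ j < n, ∃ (w : ℤ) (z : cobK.wt 0 w), z.1 = MvPolynomial.C (Laz.v p j) ∧
      hur (cls (rmodOf (𝟙 D.R)) z) u = 0) ∧
    Chp p (fun k => cls (rmodOf (𝟙 D.R)) (z k)) n X u := by
  induction h with
  | base u δ hd =>
    refine ⟨isPLocal_cone hd, fun j hj => ?_, Chp.base u δ hd⟩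
    obtain rfl : j = 0 := by omega
    have h1 : (MvPolynomial.C (Laz.v p 0) : Cob Laz 0) = (p : Cob Laz 0) := by
      rw [show Laz.v p 0 = (p : Laz) from vv_zero p _]
      exact map_natCast _ p
    have h2 : Cob.IsWt 0 (MvPolynomial.C (Laz.v p 0) : Cob Laz 0) := by
      have h3 : Cob.IsWt _ (MvPolynomial.C (Laz.v p 0) : Cob Laz 0) :=
        Laz.isWt_C_v hp.out.ne_zero 0
      simpa using h3
    refine ⟨0, ⟨(MvPolynomial.C (Laz.v p 0) : Cob Laz 0), h2⟩, rfl, ?_⟩
    rw [cls_natCast (rmodOf (𝟙 D.R)) p _ h1, hur_zsmul]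
    have h4 : (p : ℤ) • u = 0 := by
      have h5 := comp_distTriang_mor_zero₁₂ _ hd
      change ((p : ℤ) • 𝟙 (𝟙_ T)) ≫ u = 0 at h5
      rwa [Preadditive.zsmul_comp, Category.id_comp] at h5
    rw [h4, hur_zero]
  | @step n X u hn1 h f X' q δ hd hf ih =>
    obtain ⟨h1, h2, h3⟩ := ih (by omega)
    have h4 : (u⟦2 * w n⟧' ≫ f) ≫ unitMap D.R X = hur (cls (rmodOf (𝟙 D.R)) (z n)) u :=
      hur_toMU b h1 h2 (z n) (hz n hn1 (by omega)) (by rw [Category.assoc]; exact hf)
    rw [Category.assoc] at h4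
    refine ⟨IsPLocal.ext₃ hd (h1.shift _) h1, fun j hj => ?_, Chp.step hn1 h3 f q δ hd h4⟩
    rcases Nat.lt_succ_iff_lt_or_eq.1 hj with hj | rfl
    · obtain ⟨w', z', hz', h5⟩ := h2 j hj
      refine ⟨w', z', hz', ?_⟩
      rw [← hur_comp, h5, zero_comp]
    · refine ⟨w j, z j, hz j hn1 (by omega), ?_⟩
      have h5 : f ≫ q = 0 := comp_distTriang_mor_zero₁₂ _ hd
      rw [← hur_comp, ← h4, Category.assoc, Category.assoc, ← unitMap_nat, reassoc_of% h5,
        zero_comp, comp_zero]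

include hz in
/-- **The iterated cofibres for `B` are iterated cofibres for `MU` and for every ring spectrum
under `MU`.** -/
theorem chp_toMU {n : ℕ} {X : T} {u : 𝟙_ T ⟶ X}
    (h : Chp p (fun k => cls b.rmod (z k)) n X u) (hn : n ≤ N) :
    Chp p (fun k => cls (rmodOf (𝟙 D.R)) (z k)) n X u :=
  (chp_toMU_aux b hz h hn).2.2

/-- the iterated cofibres are `p`-local -/
theorem Chp.isPLocal {B : T} [MonObj B] {d : ℕ → ℤ} {v : ∀ k, (𝟙_ T)⟦d k⟧ ⟶ B} {n : ℕ} {X : T}
    {u : 𝟙_ T ⟶ X} (h : Chp p v n X u) : IsPLocal p X := by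
  induction h with
  | base u δ hd => exact isPLocal_cone hd
  | step _ _ f q δ hd _ ih => exact IsPLocal.ext₃ hd (ih.shift _) ih

/-- change of rings -/
theorem Chp.push {N N' : T} [MonObj N] [IsCommMonObj N] [MonObj N'] [IsCommMonObj N']
    (g : D.R ⟶ N) [IsMonHom g] (g' : N ⟶ N') [IsMonHom g'] {w : ℕ → ℤ}
    {z : ∀ k, cobK.wt 0 (w k)} {n : ℕ} {X : T} {u : 𝟙_ T ⟶ X}
    (h : Chp p (fun k => cls (rmodOf g) (z k)) n X u) :
    Chp p (fun k => cls (rmodOf (g ≫ g')) (z k)) n X u := by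
  induction h with
  | base u δ hd => exact Chp.base u δ hd
  | @step n X u hn h f X' q δ hd hf ih =>
    refine Chp.step hn ih f q δ hd ?_
    rw [← hur_cls_map g g' u (z n), ← hf, Category.assoc, Category.assoc, unitMap_map]

include hz in
/-- **The iterated cofibres for `B` are iterated cofibres for every `g : MU ⟶ N`.** -/
theorem chp_toN {N' : T} [MonObj N'] [IsCommMonObj N'] (g : D.R ⟶ N') [IsMonHom g] {n : ℕ}
    {X : T} {u : 𝟙_ T ⟶ X} (h : Chp p (fun k => cls b.rmod (z k)) n X u) (hn : n ≤ N) :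
    Chp p (fun k => cls (rmodOf g) (z k)) n X u := by
  have h1 := (chp_toMU b hz h hn).push (𝟙 D.R) g
  simpa only [Category.id_comp] using h1

end chp

end Vale.Agent.P257.V4.K
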