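import Vale.Agent.P257.V4.K.Bridge
import Vale.Agent.P257.V4.K.MUReg
import Vale.Agent.P257.V4.K.ToMU
import Vale.Agent.P257.V4.E.KTow
import Vale.Agent.P251.St.Result
import Vale.Agent.P251.M.BGlueD

/-!
# P257, part K: the final statement from the library version

* `zV p k` : the element `v_k` of `Cob Laz 0`.
* `v4Statement_of` : the final statement from the existence of an iterated cofibre.
-/

open CategoryTheory MonoidalCategory OnePoint Topology Limits Pretriangulated Matrix MonObj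

set_option linter.unusedSectionVars false

noncomputable section

namespace Vale.Agent.P257.V4.K

open Vale.Agent.P251 Vale.Agent.P251.St Vale.Agent.P251.G Vale.Agent.P251.G.LC
open Vale.Agent.P251.I Vale.Agent.P251.M Vale.Agent.P251.F Vale.Agent.P217 Vale.Agent.P251.S
open Vale.Agent.P257.V4.E Vale.Agent.P257.V4.O Vale.Agent.P257.V4.B

/-- the element `v_k`, of weight `p^k - 1` -/
def zV (p : ℕ) [hp : Fact p.Prime] (k : ℕ) : cobK.wt 0 ((p ^ k - 1 : ℕ) : ℤ) :=
  ⟨MvPolynomial.C (Laz.v p k), Laz.isWt_C_v hp.out.ne_zero k⟩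

/-- The input: an iterated cofibre of `p, v_1, …, v_4`. -/
def HasV4 (T : SHCat) (D : MUData T.C) (p : ℕ) [Fact p.Prime] : Prop :=
  ∃ (X : T.C) (u : 𝟙_ T.C ⟶ X), ∀ (K : T.C) [MonObj K] [IsCommMonObj K] (g : D.R ⟶ K)
    [IsMonHom g], Chp p (fun k => cls (rmodOf g) (zV p k)) 5 X u

/-- The input from a chain over the retract `B` of `MU_(p)`. -/
theorem hasV4_of {T : SHCat} {D : MUData T.C} {p : ℕ} [Fact p.Prime] (b : BData D p) {X : T.C}
    {u : 𝟙_ T.C ⟶ X} (h : Chp p (fun k => cls b.rmod (zV p k)) 5 X u) : HasV4 T D p :=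
  ⟨X, u, fun _ _ _ g _ => chp_toN (N := 5) b (fun _ _ _ => rfl) g h le_rfl⟩

theorem chp_congr {T : SHCat} {B : T.C} [MonObj B] [IsCommMonObj B] {E : RMod cobK B} {p n : ℕ}
    {w w' : ℕ → ℤ} (hw : w = w') {z : ∀ k, cobK.wt 0 (w k)} {z' : ∀ k, cobK.wt 0 (w' k)}
    (hz : ∀ k, (z k).1 = (z' k).1) {X : T.C} {u : 𝟙_ T.C ⟶ X}
    (h : Chp p (fun k => cls E (z k)) n X u) : Chp p (fun k => cls E (z' k)) n X u := by
  subst hw
  obtain rfl : z = z' := funext fun k => Subtype.ext (hz k)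
  exact h

/-- The same for the elements of `E/KTow.lean`. -/
theorem hasV4_of_zv {T : SHCat} {D : MUData T.C} {p : ℕ} [Fact p.Prime] (b : BData D p) {X : T.C}
    {u : 𝟙_ T.C ⟶ X} (h : Chp p (fun k => cls b.rmod (zv p k)) 5 X u) : HasV4 T D p :=
  hasV4_of b (chp_congr (funext (wv_eq p)) (fun _ => rfl) h)

/-- **The final statement from the library version.** Here `M.data b` is the spectrum `MU` with its
orientation `M.ori` and the basis `b` of `R ⊗ R`. -/
theorem v4Statement_of (h : ∀ (T : SHCat) (S : Susp T) (p : ℕ) [Fact p.Prime], 11 ≤ p →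
    ∀ (e : S.toSpaceFunctor.S.obj CCF ≅ (stdEven T.C).L)
      (M : MUMon S.toSpaceFunctor (stdEven T.C) e) (b : MUBasis M.V), HasV4 T (M.data b) p) :
    V4Statement := by
  refine ⟨nonempty_susp, fun T S p hp hp11 => ?_⟩
  have : Fact p.Prime := ⟨hp⟩
  obtain ⟨R, o, v, hv, hreg⟩ := exists_regular S p (by omega)
  refine ⟨⟨R, o, v, hv _, hreg 4⟩, ?_⟩
  let e : S.toSpaceFunctor.S.obj CCF ≅ (stdEven T.C).L := M.lineIso S.toSpaceFunctor
  obtain ⟨M⟩ := nonempty_MUMon S.toSpaceFunctor (stdEven T.C) e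
  obtain ⟨b⟩ := M.nonempty_muBasis
  have H : MUUniv e (M.data b) := M.muUniv b
  obtain ⟨X, u, hX⟩ := h T S p hp11 e M b
  exact ⟨X, fun R o v hv hreg => isSmithToda_of_chp H hp.pos 4 (fun k _ => rfl) hX o v hv hreg⟩

end Vale.Agent.P257.V4.K
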