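import Vale.Agent.P251.St.Chrom
import Vale.Agent.P217.Defs

/-!
# P257, statement layer: Smith-Toda complexes

The definitions of this file, of `P251/T/Axioms.lean`, `P251/St/Base.lean`, `P251/St/Chrom.lean`
and `P217/Defs.lean` (the series `[p]_F(x)`) are the only ones which enter the final statement.
`T : SHCat` is a stable homotopy category, `S : Susp T` the functor `X ↦ Σ^∞ X⁺`, `R : RingSp T` a
homotopy commutative ring spectrum with a complex orientation `o : Oriented S R` (for example `MU`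
or `BP`).

* `IsFinite`, `IsPLocal`, `IsPLoc`, `IsFinitePLocal` : finite `p`-local spectra.
* `IsPSeries` : the coefficients `v k ∈ π_{2k} R` of the `p`-series `[p](x) = ∑ v_k x^{k+1}` of the
  formal group law of `(R, o)`; the element `v_i` of chromatic homotopy theory is `v (p ^ i - 1)`.
* `InI` : the ideal `(p, v_1, …, v_{n-1})` of `π_* R`; `IsRegular`.
* `IsSmithToda` : `X` is a Smith-Toda complex `V(n)`: a finite `p`-local spectrum with an isomorphism
  of comodules `R_* X ≅ R_* / (p, v_1, …, v_n)`.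
* `V4Statement` : `V(4)` exists at all primes `p ≥ 11`.
* `HazStatement` : Hazewinkel's generators and the coefficients of `x^{p^i}` in the `p`-series generate
  the same ideals `(p, v_1, …, v_{n-1})`.
-/

open CategoryTheory MonoidalCategory OnePoint Matrix

noncomputable section

namespace Vale.Agent.P257.V4.K

open Vale.Agent.P251.St Vale.Agent.P251.St.SHCat

variable {T : SHCat}

/-! ### Finite and `p`-local spectra -/

/-- Finite spectra: the smallest class of spectra which contains the spheres and is closed under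
cofibres. -/
inductive IsFinite : T.C → Prop
  | sphere (n : ℤ) : IsFinite (sphere T n)
  | cofibre {A B D : T.C} (f : Hom A B) (g : Hom B D) (h : Hom D (sus A)) :
      Dist f g h → IsFinite A → IsFinite B → IsFinite D

/-- `X` is `p`-local: all integers prime to `p` are invertible on `X`. -/
def IsPLocal (p : ℕ) (X : T.C) : Prop := ∀ m : ℤ, IsCoprime m p → IsIso (zmul m (ident X))

/-- `f : X ⟶ Y` is the `p`-localization of `X`. -/
def IsPLoc (p : ℕ) {X Y : T.C} (f : Hom X Y) : Prop :=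
  IsPLocal p Y ∧ ∀ Z : T.C, IsPLocal p Z → ∀ g : Hom X Z, ∃! h : Hom Y Z, comp f h = g

/-- A finite `p`-local spectrum: a retract of the `p`-localization of a finite spectrum. -/
def IsFinitePLocal (p : ℕ) (X : T.C) : Prop :=
  ∃ (Y Z : T.C) (f : Hom Y Z) (i : Hom X Z) (r : Hom Z X),
    IsFinite Y ∧ IsPLoc p f ∧ comp i r = ident X

/-! ### The homotopy of a ring spectrum -/

variable (S : Susp T) (R : RingSp T)

/-- The inverse `A ⊗ (B ⊗ D) ⟶ (A ⊗ B) ⊗ D` of the associativity. -/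
abbrev assocInv (A B D : T.C) : Hom (ten A (ten B D)) (ten (ten A B) D) := (α_ A B D).inv

/-- The inverse `A ⟶ A ⊗ 𝟙` of the right unit. -/
abbrev rightInv (A : T.C) : Hom A (ten A T.one) := (ρ_ A).inv

/-- The inverse `A ⟶ 𝟙 ⊗ A` of the left unit. -/
abbrev leftInv (A : T.C) : Hom A (ten T.one A) := (λ_ A).inv

/-- The product `a g ∈ R_* X` of `a ∈ π_* R` and `g ∈ R_0 X`. -/
def act {W X : T.C} (a : Hom W R.obj) (g : Hom T.one (ten R.obj X)) : Hom W (ten R.obj X) :=
  comp (comp a (rightInv R.obj))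
    (comp (tenHom (ident R.obj) g) (comp (assocInv R.obj R.obj X) (tenHom R.mul (ident X))))

/-- `g ∈ R_0 X` is primitive: `ψ(g) = 1 ⊗ g` in `R_* R ⊗ R_* X = π_*(R ⊗ R ⊗ X)`. -/
def IsPrimitive {X : T.C} (g : Hom T.one (ten R.obj X)) : Prop :=
  comp g (tenHom (ident R.obj) (comp (leftInv X) (tenHom R.unit (ident X)))) =
    comp g (comp (leftInv (ten R.obj X)) (tenHom R.unit (ident (ten R.obj X))))

variable {R}

/-- The product `a b : W ⊗ V ⟶ R` of `a : W ⟶ R` and `b : V ⟶ R`. -/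
def prod {W V : T.C} (a : Hom W R.obj) (b : Hom V R.obj) : Hom (ten W V) R.obj :=
  comp (tenHom a b) R.mul

/-- Multiplication `R ⊗ V ⟶ R` by `b : V ⟶ R`. -/
def mulBy {V : T.C} (b : Hom V R.obj) : Hom (ten R.obj V) R.obj := prod (ident R.obj) b

/-- Multiplication `R ⊗ S^{2k+2} ⟶ R ⊗ S^2` by `v ∈ π_{2k} R`, where `s : S^{2k+2} ⟶ S^{2k} ⊗ S^2`
is the standard isomorphism. -/
def shiftBy {k : ℕ} (s : Hom (S.obj (Cn (k + 1))) (ten (S.obj (Cn k)) (S.obj (Cn 1))))
    (v : Hom (S.obj (Cn k)) R.obj) :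
    Hom (ten R.obj (S.obj (Cn (k + 1)))) (ten R.obj (S.obj (Cn 1))) :=
  comp (tenHom (ident R.obj) s)
    (comp (assocInv R.obj (S.obj (Cn k)) (S.obj (Cn 1))) (tenHom (mulBy v) (ident (S.obj (Cn 1)))))

/-- `[p](x) = ∑_{k ≤ N} v_k x^{k+1}` modulo `x^{N+2}` for the formal group law of `(R, o)`, where
`v_k ∈ π_{2k} R`. The equation is stated on the projective space of `ℂ^{N+2}`: `e k` is the zero
section of `k + 1` copies of the tautological line bundle and `t` is the one of its `p`-th tensor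
power; `s k` is the inverse of the isomorphism `S^{2k} ⊗ S^2 ≅ S^{2k+2}`. -/
def IsPSeries (o : Oriented S R) (p N : ℕ) (v : ∀ k : ℕ, Hom (S.obj (Cn k)) R.obj) : Prop :=
  ∀ (g : ∀ k : ℕ, Map ((Cn k).prod (Cn 1)) (Cn (k + 1)))
    (s : ∀ k : ℕ, Hom (S.obj (Cn (k + 1))) (ten (S.obj (Cn k)) (S.obj (Cn 1))))
    (e : ∀ k : ℕ, Map (CP (Fin (N + 2))) (Th (k + 1) (Fin (k + 1) × Fin (N + 2))))
    (t : Map (CP (Fin (N + 2))) (Th 1 (Fin p → Fin (N + 2)))),
    (∀ (k : ℕ) (a : Fin k → ℂ) (b : Fin 1 → ℂ),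
      (g k).toFun (Space.pt (X := (Cn k).prod (Cn 1)) (a, b)) =
        Space.pt (X := Cn (k + 1)) (Fin.append a b)) →
    (∀ k, comp (s k) (comp (S.mul (Cn k) (Cn 1)) (S.map (g k))) = ident (S.obj (Cn (k + 1)))) →
    (∀ k, IsPair (fun (x : CPSet (Fin (N + 2))) i j => if i.1 = j.1 then x.1 i.2 j.2 else 0)
      (fun _ => 0) (e k)) →
    IsPair (fun (x : CPSet (Fin (N + 2))) i j => ∏ l, x.1 (i l) (j l)) (fun _ => 0) t →
    comp (S.map t) (o.θ 1 _) =
      ∑ k ∈ Finset.range (N + 1), comp (comp (S.map (e k)) (o.θ (k + 1) _)) (shiftBy S (s k) (v k))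

variable {S}

/-- `a ∈ π_* R` is in the ideal `I_n = (p, v_1, …, v_{n-1})`, where `v_i ∈ π_{2(p^i-1)} R` is the
coefficient of `x^{p^i}` in `[p](x)`. -/
def InI (p n : ℕ) (v : ∀ k : ℕ, Hom (S.obj (Cn k)) R.obj) {W : T.C} (a : Hom W R.obj) : Prop :=
  ∃ (a₀ : Hom W R.obj) (a' : ∀ i : ℕ, Hom W (ten R.obj (S.obj (Cn (p ^ i - 1))))),
    a = zmul p a₀ + ∑ i ∈ Finset.Ico 1 n, comp (a' i) (mulBy (v (p ^ i - 1)))

/-- The sequence `p, v_1, …, v_n` is regular in `π_* R`. -/
def IsRegular (p n : ℕ) (v : ∀ k : ℕ, Hom (S.obj (Cn k)) R.obj) : Prop :=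
  (∀ (d : ℤ) (a : Hom (sphere T d) R.obj), zmul p a = 0 → a = 0) ∧
    ∀ i : ℕ, 0 < i → i ≤ n → ∀ (d : ℤ) (a : Hom (sphere T d) R.obj),
      InI p i v (prod a (v (p ^ i - 1))) → InI p i v a

/-- `X` is a Smith-Toda complex `V(n)` at `p`: a finite `p`-local spectrum with an isomorphism
`R_* / (p, v_1, …, v_n) ≅ R_* X`, `a ↦ a g`, of comodules (`g` is primitive). For `R = BP` this is
the definition of a Smith-Toda complex: the coefficients `π_* BP = ℤ_(p)[v_1, v_2, …]` are
`p`-local and `p, v_1, v_2, …` is a regular sequence. -/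
def IsSmithToda (p n : ℕ) (v : ∀ k : ℕ, Hom (S.obj (Cn k)) R.obj) (X : T.C) : Prop :=
  IsFinitePLocal p X ∧ ∃ g : Hom T.one (ten R.obj X), IsPrimitive R g ∧
    (∀ (d : ℤ) (x : Hom (sphere T d) (ten R.obj X)), ∃ a : Hom (sphere T d) R.obj, x = act R a g) ∧
    ∀ (d : ℤ) (a : Hom (sphere T d) R.obj), act R a g = 0 ↔ InI p (n + 1) v a

/-- **The Smith-Toda complex `V(4)` exists at all primes `p ≥ 11`.** There is one finite `p`-local
spectrum `X` which works for all oriented ring spectra `R` on which `p, v_1, …, v_4` is regular (such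
as `BP` and `MU`); such `R` exist. -/
def V4Statement : Prop :=
  (∃ T : SHCat, Nonempty (Susp T)) ∧ ∀ (T : SHCat) (S : Susp T) (p : ℕ), p.Prime → 11 ≤ p →
    (∃ (R : RingSp T) (o : Oriented S R) (v : ∀ k : ℕ, Hom (S.obj (Cn k)) R.obj),
      IsPSeries S o p (p ^ 4) v ∧ IsRegular p 4 v) ∧
    ∃ X : T.C, ∀ (R : RingSp T) (o : Oriented S R) (v : ∀ k : ℕ, Hom (S.obj (Cn k)) R.obj),
      IsPSeries S o p (p ^ 4) v → IsRegular p 4 v → IsSmithToda p 4 v X

/-! ### Hazewinkel's generators -/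

section haz

variable {A K : Type} [CommRing A] [CommRing K]

/-- The power series `∑ l_n x^{p^n}`. -/
def logSeries (p : ℕ) (l : ℕ → K) : PowerSeries K :=
  PowerSeries.mk fun m => ∑ n ∈ Finset.range (m + 1), if m = p ^ n then l n else 0

/-- The formal group law `F` over `A` (with `φ : A → K` the inclusion of `A` in `A ⊗ ℚ`) has the
logarithm `∑ l_n x^{p^n}`, and `v_1, v_2, … ∈ A` are its Hazewinkel generators:
`p l_n = ∑_{i < n} l_i v_{n-i}^{p^i}`. -/
structure IsHazewinkel (p : ℕ) (φ : A →+* K) (F : FormalGroup A) (l : ℕ → K) (v : ℕ → A) :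
    Prop where
  zero : l 0 = 1
  rel : ∀ n, 0 < n → (p : K) * l n = ∑ i ∈ Finset.range n, l i * φ (v (n - i)) ^ p ^ i
  log : (PowerSeries.subst (F.map φ).toPowerSeries (logSeries p l) : MvPowerSeries (Fin 2) K) =
    PowerSeries.subst (MvPowerSeries.X 0 : MvPowerSeries (Fin 2) K) (logSeries p l) +
      PowerSeries.subst (MvPowerSeries.X 1 : MvPowerSeries (Fin 2) K) (logSeries p l)

/-- The ideal `(p, a_1, …, a_{n-1})`. -/
def idl (p n : ℕ) (a : ℕ → A) : Ideal A := Ideal.span {x | x = p ∨ ∃ i, 0 < i ∧ i < n ∧ x = a i}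

/-- The Hazewinkel generators and the coefficients of `x^{p^i}` in the `p`-series `[p]_F(x)` generate
the same ideals `(p, v_1, …, v_{n-1})`. -/
def HazStatement : Prop :=
  ∀ (A K : Type) [CommRing A] [CommRing K] (φ : A →+* K) (F : FormalGroup A) [F.IsComm] (p : ℕ)
    (l : ℕ → K) (v : ℕ → A), Function.Injective φ → 2 ≤ p → IsHazewinkel p φ F l v →
    ∀ n, 0 < n →
      idl p n v = idl p n fun i => PowerSeries.coeff (p ^ i) (Vale.Agent.P217.multSeries F p)

end haz

end Vale.Agent.P257.V4.K
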