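import Vale.Agent.P257.V4.K.Chp
import Vale.Agent.P257.V4.K.Statement

/-!
# P257, part K: iterated cofibres are finite `p`-local spectra
-/

open CategoryTheory MonoidalCategory Limits Pretriangulated MonObj

set_option linter.unusedSectionVars false

universe v u

namespace Vale.Agent.P257.V4.K

open Vale.Agent.P251.T Vale.Agent.P251.S Vale.Agent.P257.V4.O

section torsion

variable {T : Type u} [Category.{v} T] [Preadditive T] [HasZeroObject T]
    [HasShift T ℤ] [∀ n : ℤ, (shiftFunctor T n).Additive] [Pretriangulated T]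

/-- torsion of a cofibre -/
theorem torsion_cof {A B C : T} {f : A ⟶ B} {i : B ⟶ C} {δ : C ⟶ A⟦(1 : ℤ)⟧}
    (hd : Triangle.mk f i δ ∈ distTriang T) {a b : ℤ} (ha : a • 𝟙 A = 0) (hb : b • 𝟙 B = 0) :
    (a * b) • 𝟙 C = 0 := by
  have h1 : i ≫ (b • 𝟙 C) = 0 := by
    rw [Preadditive.comp_zsmul, Category.comp_id, ← Category.id_comp i, ← Preadditive.zsmul_comp,
      hb, zero_comp]
  obtain ⟨s, hs⟩ : ∃ s : A⟦(1 : ℤ)⟧ ⟶ C, b • 𝟙 C = δ ≫ s := Triangle.yoneda_exact₃ _ hd _ h1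
  have h2 : a • 𝟙 (A⟦(1 : ℤ)⟧) = 0 := by
    rw [← CategoryTheory.Functor.map_id, ← Functor.map_zsmul, ha, Functor.map_zero]
  have h3 : a • δ = 0 := by
    rw [← Category.comp_id δ, ← Preadditive.comp_zsmul, h2, comp_zero]
  rw [mul_smul, hs, ← Preadditive.zsmul_comp, h3, zero_comp]

theorem torsion_shift {A : T} {a : ℤ} (ha : a • 𝟙 A = 0) (n : ℤ) : a • 𝟙 (A⟦n⟧) = 0 := by
  rw [← CategoryTheory.Functor.map_id, ← Functor.map_zsmul, ha, Functor.map_zero]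

end torsion

section chain

variable {T : Type u} [Category.{v} T] [Preadditive T] [HasZeroObject T]
    [HasShift T ℤ] [∀ n : ℤ, (shiftFunctor T n).Additive] [Pretriangulated T]
    [MonoidalCategory T] [SymmetricCategory T] [TensorTriangulated T]
    {B : T} [MonObj B] {d : ℕ → ℤ} {p : ℕ} {v : ∀ k, (𝟙_ T)⟦d k⟧ ⟶ B}

/-- Iterated cofibres are `p`-power torsion. -/
theorem Chp.torsion {n : ℕ} {X : T} {u : 𝟙_ T ⟶ X} (h : Chp p v n X u) :
    ∃ N : ℕ, ((p : ℤ) ^ N) • 𝟙 X = 0 := by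
  induction h with
  | base u δ hd =>
    refine ⟨2, ?_⟩
    rename_i X
    have h1 : u ≫ ((p : ℤ) • 𝟙 X) = 0 := by
      have h0 : ((p : ℤ) • 𝟙 (𝟙_ T)) ≫ u = 0 := comp_distTriang_mor_zero₁₂ _ hd
      rw [Preadditive.zsmul_comp, Category.id_comp] at h0
      rw [Preadditive.comp_zsmul, Category.comp_id, h0]
    obtain ⟨s, hs⟩ : ∃ s : (𝟙_ T)⟦(1 : ℤ)⟧ ⟶ X, (p : ℤ) • 𝟙 X = δ ≫ s :=
      Triangle.yoneda_exact₃ _ hd _ h1
    have h3 : (p : ℤ) • δ = 0 := by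
      have h0 : δ ≫ ((p : ℤ) • 𝟙 (𝟙_ T))⟦(1 : ℤ)⟧' = 0 := comp_distTriang_mor_zero₃₁ _ hd
      rw [Functor.map_zsmul, CategoryTheory.Functor.map_id, Preadditive.comp_zsmul, Category.comp_id] at h0
      exact h0
    rw [pow_two, mul_smul, hs, ← Preadditive.zsmul_comp, h3, zero_comp]
  | step hn h f q δ hd hf ih =>
    obtain ⟨N, hN⟩ := ih
    refine ⟨N + N, ?_⟩
    rw [pow_add]
    exact torsion_cof hd (torsion_shift hN _) hN

end chain

section fin

open Vale.Agent.P251 Vale.Agent.P251.St Vale.Agent.P251.St.SHCat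
open scoped ZeroObject

variable {T : SHCat}

theorem IsFinite.zero {Z : T.C} (hZ : IsZero Z) : IsFinite Z :=
  IsFinite.cofibre (𝟙 (St.sphere T 0)) (0 : St.sphere T 0 ⟶ Z) (0 : Z ⟶ (St.sphere T 0)⟦(1 : ℤ)⟧)
    (isomorphic_distinguished _ (contractible_distinguished (St.sphere T 0)) _
      (Triangle.isoMk _ _ (Iso.refl _) (Iso.refl _) (hZ.iso (isZero_zero _))
        ((Category.comp_id _).trans (Category.id_comp _).symm)
        (zero_comp.trans comp_zero.symm) (zero_comp.trans comp_zero.symm)))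
    (IsFinite.sphere 0) (IsFinite.sphere 0)

theorem IsFinite.of_iso {X Y : T.C} (hX : IsFinite X) (e : X ≅ Y) : IsFinite Y := by
  have h0 : IsFinite (0 : T.C) := IsFinite.zero (isZero_zero _)
  refine IsFinite.cofibre (0 : (0 : T.C) ⟶ X) e.hom (0 : Y ⟶ (0 : T.C)⟦(1 : ℤ)⟧) ?_ h0 hX
  refine isomorphic_distinguished _ (contractible_distinguished₁ X) _ ?_
  exact Triangle.isoMk _ _ (Iso.refl _) (Iso.refl _) e.symm (zero_comp.trans comp_zero.symm)
    (e.hom_inv_id.trans (Category.id_comp (𝟙 X)).symm)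
    (by
      refine (IsZero.eq_of_tgt ?_ _ _)
      exact (shiftFunctor T.C (1 : ℤ)).map_isZero (isZero_zero _))

theorem IsFinite.shift {X : T.C} (hX : IsFinite X) (n : ℤ) : IsFinite (X⟦n⟧) := by
  induction hX with
  | sphere m =>
    exact (IsFinite.sphere (m + n)).of_iso ((shiftFunctorAdd' T.C m n (m + n) rfl).app T.one)
  | cofibre f g h hd hA hB ihA ihB =>
    exact IsFinite.cofibre _ _ _ (Triangle.shift_distinguished _ hd n) ihA ihB

theorem Chp.isFinite {B : T.C} [MonObj B] {d : ℕ → ℤ} {p : ℕ} {v : ∀ k, (𝟙_ T.C)⟦d k⟧ ⟶ B} {n : ℕ}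
    {X : T.C} {u : 𝟙_ T.C ⟶ X} (h : Chp p v n X u) : IsFinite X := by
  induction h with
  | base u δ hd =>
    have h1 : IsFinite (𝟙_ T.C) :=
      (IsFinite.sphere 0).of_iso ((shiftFunctorZero T.C ℤ).app (𝟙_ T.C))
    exact IsFinite.cofibre _ _ _ hd h1 h1
  | step hn h f q δ hd hf ih =>
    exact IsFinite.cofibre _ _ _ hd (ih.shift _) ih

theorem isPLocal_of_torsion {p N : ℕ} {X : T.C} (h : ((p : ℤ) ^ N) • 𝟙 X = 0) : IsPLocal p X := by
  intro m hm
  obtain ⟨a, b, hab⟩ : IsCoprime m ((p : ℤ) ^ N) := hm.pow_right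
  have h3 : (a * m) • 𝟙 X = 𝟙 X := by
    have h4 : (a * m) • 𝟙 X + (b * (p : ℤ) ^ N) • 𝟙 X = 𝟙 X := by
      rw [← add_smul, hab, one_smul]
    rwa [mul_smul b, h, smul_zero, add_zero] at h4
  refine ⟨a • 𝟙 X, ?_, ?_⟩
  · change (m • 𝟙 X) ≫ (a • 𝟙 X) = 𝟙 X
    rw [Preadditive.zsmul_comp, Preadditive.comp_zsmul, Category.comp_id, smul_smul, mul_comm, h3]
  · change (a • 𝟙 X) ≫ (m • 𝟙 X) = 𝟙 X
    rw [Preadditive.zsmul_comp, Preadditive.comp_zsmul, Category.comp_id, smul_smul, h3]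

/-- **Iterated cofibres are finite `p`-local spectra.** -/
theorem Chp.isFinitePLocal {B : T.C} [MonObj B] {d : ℕ → ℤ} {p : ℕ}
    {v : ∀ k, (𝟙_ T.C)⟦d k⟧ ⟶ B} {n : ℕ} {X : T.C} {u : 𝟙_ T.C ⟶ X} (h : Chp p v n X u) :
    IsFinitePLocal p X := by
  obtain ⟨N, hN⟩ := h.torsion
  refine ⟨X, X, ident X, ident X, ident X, h.isFinite, ⟨isPLocal_of_torsion hN, ?_⟩,
    Category.comp_id _⟩
  intro Z _ g
  exact ⟨g, Category.id_comp g, fun k hk => (Category.id_comp k).symm.trans hk⟩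

end fin

end Vale.Agent.P257.V4.K
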