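import Vale.Agent.P257.V4.K.PSer2
import Vale.Agent.P251.I.M2
import Vale.Agent.P251.M.MUInv
import Vale.Agent.P251.F.LazWt

/-!
# P257, part K: the coefficients of the `p`-series as elements of the homotopy ring

* `lawOf e o` : the formal group law of an oriented ring spectrum, over its homotopy ring.
* `isPSeries_iff_coeff` : `IsPSeries S o p N v` says that the `v k`, `k ≤ N`, are the coefficients
  of the `p`-series of `lawOf`.
* `exists_isPSeries` : existence of `v`.
* `exists_hom` : the monoid map from `MU`.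
-/

open CategoryTheory MonoidalCategory OnePoint Topology Limits Pretriangulated Matrix MonObj

set_option linter.unusedSectionVars false

noncomputable section

namespace Vale.Agent.P257.V4.K

open Vale.Agent.P251 Vale.Agent.P251.St Vale.Agent.P251.G Vale.Agent.P251.G.LC
open Vale.Agent.P251.I Vale.Agent.P251.M Vale.Agent.P251.F Vale.Agent.P217 Vale.Agent.P251.S

section lib

universe v u

variable {T : Type u} [Category.{v} T] [Preadditive T] [HasZeroObject T]
    [HasShift T ℤ] [∀ n : ℤ, (shiftFunctor T n).Additive] [Pretriangulated T]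
    [MonoidalCategory T] [SymmetricCategory T] [Vale.Agent.P251.T.TensorTriangulated T]
  {F : SpaceFunctor T} {E : EvenSpheres T} (e : F.S.obj CCF ≅ E.L)
  {K : T} [MonObj K] [IsCommMonObj K] (o : Z.Oriented F K)

/-- The formal group law of an oriented commutative monoid, over its homotopy ring. -/
def lawOf : Law (HRing E K) :=
  (((Z.famK e o).orientation (cofTriangles F) (isSusp_lineCls e (SeqMonoid.const K))).law).map
    (coeffHom (cofTriangles F) (isSusp_lineCls e (SeqMonoid.const K)))

theorem coeff_map_law {A B : Type*} [CommRing A] [CommRing B] (φ : A →+* B) (L : Law A) (p k : ℕ) :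
    PowerSeries.coeff k (multSeries (L.map φ).toFG p) =
      φ (PowerSeries.coeff k (multSeries L.toFG p)) := by
  rw [Law.map_toFG, ← map_multSeries, PowerSeries.coeff_map]

theorem zrel_iff_lawOf (m N : ℕ) (v : ∀ k : ℕ, Z.SC F k ⟶ K) :
    ZRel o m N v ↔ ∀ k ≤ N,
      PowerSeries.coeff (k + 1) (multSeries (lawOf e o).toFG m) =
        HRing.of E K k (inv (Z.sph e k) ≫ v k) := by
  rw [zrel_iff_coeff (hF := cofTriangles F) (hs := isSusp_lineCls e (SeqMonoid.const K))
    (Z.isFam_famK e o) m N v]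
  refine forall_congr' fun k => forall_congr' fun _ => ?_
  rw [lawOf, coeff_map_law, ← coeffHom_coefOf (hF := cofTriangles F)
    (hs := isSusp_lineCls e (SeqMonoid.const K)), (coeffHom_bijective _ _).1.eq_iff]
  exact Iff.rfl

end lib

variable {T : SHCat} {S : Susp T} {R : RingSp T}
  (e : S.toSpaceFunctor.S.obj CCF ≅ (stdEven T.C).L)

theorem isPSeries_iff_coeff (o : St.Oriented S R) (p N : ℕ)
    (v : ∀ k : ℕ, SHCat.Hom (S.obj (St.Cn k)) R.obj) :
    IsPSeries S o p N v ↔ ∀ k ≤ N,
      PowerSeries.coeff (k + 1) (multSeries (lawOf e (zOriented o)).toFG p) =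
        HRing.of (stdEven T.C) R.obj k (inv (Z.sph e k) ≫ v k) :=
  (isPSeries_iff_zrel o p N v).trans (zrel_iff_lawOf e (zOriented o) p N v)

/-- The coefficient of `x^(k+1)` in `[m](x)` has weight `k`. -/
theorem isWt_coeff_mult (m k : ℕ) : Cob.IsWt (N := Laz) (k : ℕ)
    (MvPolynomial.C (PowerSeries.coeff (k + 1) (multSeries (Laz.univ).toFG m)) : Cob Laz 0) := by
  intro B _ c u
  rw [Cob.ev_C, Cob.ev_C]
  change LawRing.act (InvSeries.lin u)⁻¹ c.pt (PowerSeries.coeff (k + 1) _) = _
  have h1 : ∀ φ : Laz →+* B, φ (PowerSeries.coeff (k + 1) (multSeries (Laz.univ).toFG m)) =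
      PowerSeries.coeff (k + 1) (multSeries (Laz.univ.map φ).toFG m) :=
    fun φ => (coeff_map_law φ _ m (k + 1)).symm
  rw [h1, h1, Laz.act_eq, Laz.univ_map_lift, coeff_multSeries_lin_inv_smul, zpow_natCast,
    Units.val_pow_eq_pow_val]

section mu

variable (D : MUData T.C)

theorem exists_mcoef (m k : ℕ) : ∃ a : (stdEven T.C).S k ⟶ D.R,
    PowerSeries.coeff (k + 1) (multSeries D.law.toFG m) = HRing.of (stdEven T.C) D.R k a := by
  obtain ⟨a, ha⟩ := D.ev_wt 0 _ _ (isWt_coeff_mult m k)
  refine ⟨a ≫ amOne D.R, ?_⟩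
  have h1 : PowerSeries.coeff (k + 1) (multSeries D.law1.toFG m) =
      D.ev 0 (MvPolynomial.C (PowerSeries.coeff (k + 1) (multSeries (Laz.univ).toFG m))) := by
    unfold MUData.law1
    rw [coeff_map_law]
    rfl
  unfold MUData.law
  rw [coeff_map_law, h1, ha, HRing.map_of]

/-- the coefficient of `x^(k+1)` in the `m`-series of `MU` -/
def mcoef (m k : ℕ) : (stdEven T.C).S k ⟶ D.R := (exists_mcoef D m k).choose

theorem mcoef_spec (m k : ℕ) :
    PowerSeries.coeff (k + 1) (multSeries D.law.toFG m) =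
      HRing.of (stdEven T.C) D.R k (mcoef D m k) := (exists_mcoef D m k).choose_spec

variable {D} {e}

theorem exists_hom (H : MUUniv e D) (o : St.Oriented S R) :
    ∃ (u : D.R ⟶ R.obj) (_ : IsMonHom u),
      lawOf e (zOriented o) = D.law.map (HRing.map (E := stdEven T.C) u) := by
  obtain ⟨u, hu, h⟩ := H.univ R.obj (Z.famK e (zOriented o))
  exact ⟨u, hu, h.symm⟩

/-- **The meaning of `IsPSeries`.** -/
theorem isPSeries_iff_hom {o : St.Oriented S R} {u : D.R ⟶ R.obj} [IsMonHom u]
    (hu : lawOf e (zOriented o) = D.law.map (HRing.map (E := stdEven T.C) u)) (p N : ℕ)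
    (v : ∀ k : ℕ, SHCat.Hom (S.obj (St.Cn k)) R.obj) :
    IsPSeries S o p N v ↔ ∀ k ≤ N, inv (Z.sph e k) ≫ v k = mcoef D p k ≫ u := by
  rw [isPSeries_iff_coeff e, hu]
  refine forall_congr' fun k => forall_congr' fun _ => ?_
  rw [coeff_map_law, mcoef_spec, HRing.map_of]
  constructor
  · intro h
    exact (DirectSum.of_injective (β := (stdEven T.C).Gr R.obj) _ h).symm
  · intro h
    rw [h]

end mu

end Vale.Agent.P257.V4.K
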