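import Vale.Agent.P257.V4.K.GenCh
import Vale.Agent.P257.V4.K.Fin
import Vale.Agent.P257.V4.K.PSer3
import Vale.Agent.P257.V4.B.ModP

/-!
# P257, part K: iterated cofibres are Smith-Toda complexes

`isSmithToda_of_chp` : an iterated cofibre of `p, v_1, …, v_n` is a Smith-Toda complex `V(n)` in the
sense of `K/Statement.lean`.
-/

open CategoryTheory MonoidalCategory OnePoint Topology Limits Pretriangulated Matrix MonObj

set_option linter.unusedSectionVars false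

noncomputable section

namespace Vale.Agent.P257.V4.K

open Vale.Agent.P251 Vale.Agent.P251.St Vale.Agent.P251.G Vale.Agent.P251.G.LC
open Vale.Agent.P251.I Vale.Agent.P251.M Vale.Agent.P251.F Vale.Agent.P217 Vale.Agent.P251.S
open Vale.Agent.P257.V4.E Vale.Agent.P257.V4.O Vale.Agent.P257.V4.B

section lib

universe v u

variable {T : Type u} [Category.{v} T] [Preadditive T] [HasZeroObject T]
    [HasShift T ℤ] [∀ n : ℤ, (shiftFunctor T n).Additive] [Pretriangulated T]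
    [MonoidalCategory T] [SymmetricCategory T] [Vale.Agent.P251.T.TensorTriangulated T]
    {R : T} [MonObj R]

theorem act_unit {W X : T} (a : W ⟶ R) (u : 𝟙_ T ⟶ X) :
    (a ≫ (ρ_ R).inv) ≫ (𝟙 R ⊗ₘ (u ≫ unitMap R X)) ≫ (α_ R R X).inv ≫ (μ[R] ⊗ₘ 𝟙 X) =
      a ≫ ux u R := by
  rw [MonoidalCategory.id_tensorHom, MonoidalCategory.tensorHom_id,
    MonoidalCategory.whiskerLeft_comp, Category.assoc, Category.assoc, unitMap_act,
    Category.comp_id]
  rfl

theorem primitive_unit {X : T} (u : 𝟙_ T ⟶ X) :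
    (u ≫ unitMap R X) ≫ (𝟙 R ⊗ₘ ((λ_ X).inv ≫ (η[R] ⊗ₘ 𝟙 X))) =
      (u ≫ unitMap R X) ≫ (λ_ (R ⊗ X)).inv ≫ (η[R] ⊗ₘ 𝟙 (R ⊗ X)) := by
  rw [MonoidalCategory.id_tensorHom, MonoidalCategory.tensorHom_id,
    MonoidalCategory.tensorHom_id]
  change (u ≫ unitMap R X) ≫ R ◁ unitMap R X = _
  have h : ∀ {A B : T} (m : A ⟶ B), m ≫ (λ_ B).inv ≫ η[R] ▷ B = unitMap R A ≫ R ◁ m := by
    intro A B m
    rw [leftUnitor_inv_naturality_assoc, whisker_exchange]
    unfold unitMap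
    rw [Category.assoc]
  rw [Category.assoc u, Category.assoc u, h]

end lib

variable {T : SHCat} {S : Susp T} {R : RingSp T}

theorem amOne_eq (K : T.C) : amOne K = (λ_ K).hom := rfl

theorem amHom_amOne {K K' : T.C} [MonObj K] [IsCommMonObj K] [MonObj K'] [IsCommMonObj K']
    (g : K ⟶ K') [IsMonHom g] : amHom g 1 ≫ amOne K' = amOne K ≫ g := by
  apply Am.hom_ext
  intro i
  obtain rfl : i = 0 := Subsingleton.elim _ _
  rw [v_amHom_assoc, v_amOne, Category.comp_id, reassoc_of% (v_amOne K)]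

section cls

variable {D : MUData T.C} {K : T.C} [MonObj K] [IsCommMonObj K] (g : D.R ⟶ K) [IsMonHom g]
  {p : ℕ} {w : ℕ → ℤ} {z : ∀ k, cobK.wt 0 (w k)}

theorem vE_cls (k : ℕ) : vE (fun k => cls (rmodOf g) (z k)) k =
    (rmodOf g).evw 0 (w k) (z k) ≫ (λ_ K).hom := by
  rw [vE, cls, Iso.hom_inv_id_assoc]

/-- The class of the generator is the coefficient of the `p`-series. -/
theorem of_vE_cls {k : ℕ} (hz : (z k).1 = MvPolynomial.C (Laz.v p k)) :
    HRing.of (stdEven T.C) K (w k) (vE (fun k => cls (rmodOf g) (z k)) k) =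
      vv p k (D.law.map (HRing.map (E := stdEven T.C) g)) := by
  have h1 : vv p k D.law1 = D.ev 0 (MvPolynomial.C (Laz.v p k)) := by
    unfold MUData.law1
    rw [vv_map]
    rfl
  have h2 : (HRing.map (E := stdEven T.C) (amOne K)).comp (HRing.map (amHom g 1)) =
      (HRing.map g).comp (HRing.map (amOne D.R)) := by
    rw [← HRing.map_comp, ← HRing.map_comp, HRing_map_congr (amHom_amOne g)]
  rw [vE_cls, ← amOne_eq, ← HRing.map_of, RMod.of_evw, rmodOf_ev, hz, vv_map]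
  unfold MUData.law
  rw [vv_map, h1]
  exact congrArg (fun φ => φ (D.ev 0 (MvPolynomial.C (Laz.v p k)))) h2

end cls

theorem inI_iff_ji {p n : ℕ} {v : ∀ k : ℕ, SHCat.Hom (S.obj (St.Cn k)) R.obj} {W : T.C}
    (a : SHCat.Hom W R.obj) :
    InI p n v a ↔ JI (R := R.obj) p (fun i => v (p ^ i - 1)) n W a := by
  have h : ∀ i : ℕ, mulBy (v (p ^ i - 1)) = mulR (R := R.obj) (v (p ^ i - 1)) := by
    intro i
    change (𝟙 R.obj ⊗ₘ v (p ^ i - 1)) ≫ μ[R.obj] = _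
    rw [MonoidalCategory.id_tensorHom]
    rfl
  unfold InI JI
  simp only [h]

section main

variable {e : S.toSpaceFunctor.S.obj CCF ≅ (stdEven T.C).L} {D : MUData T.C}

/-- The classes of the generators, for the coefficients of an orientation. -/
theorem vE_eq {g : D.R ⟶ R.obj} [IsMonHom g] {o : St.Oriented S R}
    (hg : lawOf e (zOriented o) = D.law.map (HRing.map (E := stdEven T.C) g)) {p N : ℕ}
    {v : ∀ k : ℕ, SHCat.Hom (S.obj (St.Cn k)) R.obj} (hv : IsPSeries S o p N v) (hp : 0 < p)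
    {z : ∀ k, cobK.wt 0 ((p ^ k - 1 : ℕ) : ℤ)} {k : ℕ} (hk : p ^ k - 1 ≤ N)
    (hz : (z k).1 = MvPolynomial.C (Laz.v p k)) :
    vE (w := fun k => ((p ^ k - 1 : ℕ) : ℤ)) (fun k => cls (rmodOf g) (z k)) k =
      inv (Z.sph e (p ^ k - 1)) ≫ v (p ^ k - 1) := by
  have h1 := (isPSeries_iff_coeff e o p N v).1 hv (p ^ k - 1) hk
  have h2 := of_vE_cls (w := fun k => ((p ^ k - 1 : ℕ) : ℤ)) g hz
  have h3 : p ^ k - 1 + 1 = p ^ k := Nat.sub_add_cancel (Nat.one_le_pow _ _ hp)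
  rw [hg, h3] at h1
  exact Vale.Agent.P257.V4.E.of_inj (h2.trans h1)

/-- `Σ^∞ (ℂ^k)⁺ ≅ S^{2k}` -/
def sphS (e : S.toSpaceFunctor.S.obj CCF ≅ (stdEven T.C).L) (k : ℕ) :
    S.obj (St.Cn k) ≅ (stdEven T.C).S k := (asIso (Z.sph e k) :)

theorem eq_sphS {g : D.R ⟶ R.obj} [IsMonHom g] {o : St.Oriented S R}
    (hg : lawOf e (zOriented o) = D.law.map (HRing.map (E := stdEven T.C) g)) {p N : ℕ}
    {v : ∀ k : ℕ, SHCat.Hom (S.obj (St.Cn k)) R.obj} (hv : IsPSeries S o p N v) (hp : 0 < p)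
    {z : ∀ k, cobK.wt 0 ((p ^ k - 1 : ℕ) : ℤ)} {k : ℕ} (hk : p ^ k - 1 ≤ N)
    (hz : (z k).1 = MvPolynomial.C (Laz.v p k)) :
    v (p ^ k - 1) = (sphS e (p ^ k - 1)).hom ≫
      vE (w := fun k => ((p ^ k - 1 : ℕ) : ℤ)) (fun k => cls (rmodOf g) (z k)) k :=
  (Iso.inv_comp_eq (asIso (Z.sph e (p ^ k - 1)))).1
    ((IsIso.Iso.inv_hom (asIso (Z.sph e (p ^ k - 1)))) ▸ (vE_eq hg hv hp hk hz).symm)

theorem prod_eq {W V : T.C} (a : SHCat.Hom W R.obj) (b : SHCat.Hom V R.obj) :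
    prod a b = a ▷ V ≫ mulR (R := R.obj) b := by
  change (a ⊗ₘ b) ≫ μ[R.obj] = _
  rw [tensorHom_def, Category.assoc]
  rfl

/-- **Iterated cofibres of `p, v_1, …, v_n` are Smith-Toda complexes `V(n)`.** -/
theorem isSmithToda_of_chp (H : MUUniv e D) {p : ℕ} (hp : 0 < p) (n : ℕ) {X : T.C}
    {u : 𝟙_ T.C ⟶ X} {z : ∀ k, cobK.wt 0 ((p ^ k - 1 : ℕ) : ℤ)}
    (hz : ∀ k, 1 ≤ k → (z k).1 = MvPolynomial.C (Laz.v p k))
    (h : ∀ (K : T.C) [MonObj K] [IsCommMonObj K] (g : D.R ⟶ K) [IsMonHom g],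
      Chp p (fun k => cls (rmodOf g) (z k)) (n + 1) X u)
    (o : St.Oriented S R) (v : ∀ k : ℕ, SHCat.Hom (S.obj (St.Cn k)) R.obj)
    (hv : IsPSeries S o p (p ^ n) v) (hreg : IsRegular p n v) : IsSmithToda p n v X := by
  obtain ⟨g, hg, hlaw⟩ := exists_hom H o
  have hc := h R.obj g
  have hle : ∀ i, i < n + 1 → p ^ i - 1 ≤ p ^ n := fun i hi =>
    (Nat.sub_le _ _).trans (Nat.pow_le_pow_right hp (by omega))
  have hvE : ∀ i, 1 ≤ i → i < n + 1 → v (p ^ i - 1) = (sphS e (p ^ i - 1)).hom ≫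
      vE (w := fun k => ((p ^ k - 1 : ℕ) : ℤ)) (fun k => cls (rmodOf g) (z k)) i :=
    fun i hi hi' => eq_sphS hlaw hv hp (hle i hi') (hz i hi)
  have hJ : ∀ j, j ≤ n + 1 → ∀ {W : T.C} (a : SHCat.Hom W R.obj), InI p j v a ↔
      JI (R := R.obj) p (vE (w := fun k => ((p ^ k - 1 : ℕ) : ℤ))
        (fun k => cls (rmodOf g) (z k))) j W a := by
    intro j hj W a
    rw [inI_iff_ji]
    exact ji_congr (fun i => sphS e (p ^ i - 1))
      (fun i hi hi' => hvE i hi (by omega)) a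
  have hgen := hc.gen (fun k a ha => hreg.1 k a ha) (fun i hi hi' k b hb => by
    rw [← hJ i (by omega)]
    refine hreg.2 i hi (by omega) k b ?_
    rw [hJ i (by omega), prod_eq, hvE i hi hi', mulR_comp, ← whisker_exchange_assoc]
    exact hb.comp _)
  refine ⟨hc.isFinitePLocal, u ≫ unitMap R.obj X, primitive_unit u, fun d x => ?_, fun d a => ?_⟩
  · obtain ⟨a, ha⟩ := hgen.surj d x
    exact ⟨a, ha.trans (act_unit a u).symm⟩
  · rw [hJ (n + 1) le_rfl, ← hgen.ker d a]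
    exact Eq.congr_left (act_unit a u)

end main

end Vale.Agent.P257.V4.K
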