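import Vale.Agent.P257.V4.E.CupX
import Vale.Agent.P257.V4.E.TowC
import Vale.Agent.P257.V4.E.CompCos
import Vale.Agent.P257.V4.O.Lift
import Vale.Agent.P251.S.AmitsurCobar

/-!
# P257, part K: classes of algebraic cochains in the couple of the tower of `X`

`clE E U u h : K.wt s w →+ (cpl U X).E s n` for `n + s = 2 w`: the class of `z ⊗ u`.
-/

open CategoryTheory MonoidalCategory Limits Pretriangulated MonObj

set_option linter.unusedSectionVars false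

universe v u

namespace Vale.Agent.P257.V4.K

open Vale.Agent.P251.T Vale.Agent.P251.M Vale.Agent.P251.S Vale.Agent.P257.V4.E
  Vale.Agent.P257.V4.O

variable {T : Type u} [Category.{v} T] [Preadditive T] [HasZeroObject T]
    [HasShift T ℤ] [∀ n : ℤ, (shiftFunctor T n).Additive] [Pretriangulated T]
    [MonoidalCategory T] [SymmetricCategory T] [TensorTriangulated T] [HasCoproducts.{0} T]
    {K : CosR} {R : T} [MonObj R] [IsCommMonObj R] (E : RMod K R) (U : UnitCof R) {X : T}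
    (u : 𝟙_ T ⟶ X)

/-- The element `z ⊗ u` of the cobar complex of `X`. -/
noncomputable def clQ (s : ℕ) (w : ℤ) :
    K.wt s w →+ ((𝟙_ T)⟦(2 * w : ℤ)⟧ ⟶ U.cobar.Q (s + 1) X) :=
  AddMonoidHom.mk' (fun z => (sphE T w).inv ≫ E.evX u s w z ≫ (U.θ (s + 1) X).inv) fun z z' => by
    rw [map_add, Preadditive.add_comp, Preadditive.comp_add]

theorem clQ_apply (s : ℕ) (w : ℤ) (z : K.wt s w) :
    clQ E U u s w z = (sphE T w).inv ≫ E.evX u s w z ≫ (U.θ (s + 1) X).inv := rfl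

theorem clQ_d (s : ℕ) (w : ℤ) (z : K.wt s w) :
    clQ E U u s w z ≫ U.cobar.d (s + 1) X = clQ E U u (s + 1) w (K.d s w z) := by
  have h2 := U.d_θ (s + 1) X
  rw [← cancel_mono (U.θ (s + 1 + 1) X).hom, clQ_apply, clQ_apply, Category.assoc, Category.assoc,
    Category.assoc, Category.assoc, Category.assoc, h2, Iso.inv_hom_id_assoc, Iso.inv_hom_id,
    Category.comp_id, RMod.evX_d]

theorem clQ_eq_zero_iff {s : ℕ} {w : ℤ} {z : K.wt s w} :
    clQ E U u s w z = 0 ↔ z ∈ E.kx u s w := by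
  rw [RMod.mem_kx, clQ_apply]
  constructor
  · intro h
    rw [← cancel_mono (U.θ (s + 1) X).inv, ← cancel_epi (sphE T w).inv, h, zero_comp, comp_zero]
  · intro h
    rw [h, zero_comp, comp_zero]

variable {u}

theorem clQ_surjective {q : ℤ} (hX : E.XM q u) (s : ℕ) (w : ℤ) :
    Function.Surjective (clQ E U u s w) := by
  intro y
  obtain ⟨z, hz⟩ := hX.surj s w ((sphE T w).hom ≫ y ≫ (U.θ (s + 1) X).hom)
  exact ⟨z, by rw [clQ_apply, hz]; simp⟩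

theorem Q_eq_zero {q : ℤ} (hX : E.XM q u) {s : ℕ} {t : ℤ} (ht : ¬ q ∣ t)
    (x : (𝟙_ T)⟦t⟧ ⟶ U.cobar.Q (s + 1) X) : x = 0 := by
  have h := hX.spa s t ht (x ≫ (U.θ (s + 1) X).hom)
  rw [← cancel_mono (U.θ (s + 1) X).hom, h, zero_comp]

variable (u)

/-- The class of `z ⊗ u` in `E^s_n`, `n + s = 2 w`. -/
noncomputable def clE {s : ℕ} {n w : ℤ} (h : n + (s : ℤ) = 2 * w) :
    K.wt s w →+ (cpl U X).E s n :=
  (qC U X (𝟙_ T) h).comp (clQ E U u s w)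

theorem clE_apply {s : ℕ} {n w : ℤ} (h : n + (s : ℤ) = 2 * w) (z : K.wt s w) :
    clE E U u h z = qC U X (𝟙_ T) h (clQ E U u s w z) := rfl

theorem clQ_eq (s : ℕ) (w : ℤ) (z : K.wt s w) :
    clQ E U u s w z = (sphE T w).inv ≫ E.cX U u s w z := rfl

theorem eT_clE {s : ℕ} {n w : ℤ} (h : n + (s : ℤ) = 2 * w) (z : K.wt s w) :
    eT U X (𝟙_ T) h (clE E U u h z) = (sphE T w).inv ≫ E.qX U u s w z :=
  (eT_qC U X (𝟙_ T) h _).trans (by rw [clQ_eq, RMod.qX_apply, Category.assoc])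

theorem clE_of_mem {s : ℕ} {n w : ℤ} (h : n + (s : ℤ) = 2 * w) {z : K.wt s w}
    (hz : z ∈ E.kx u s w) : clE E U u h z = 0 := by
  rw [clE_apply, (clQ_eq_zero_iff E U u).2 hz, map_zero]

theorem d_clE {s : ℕ} {n m w : ℤ} (h : n = m + 1) (h1 : n + (s : ℤ) = 2 * w)
    (h2 : m + ((s + 1 : ℕ) : ℤ) = 2 * w) (z : K.wt s w) :
    (cpl U X).d s n m h (clE E U u h1 z) = clE E U u h2 (K.d s w z) := by
  rw [clE_apply, d_qC U X (𝟙_ T) h h1 h2, clQ_d, clE_apply]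

theorem isCocycle_clE {s : ℕ} {n w : ℤ} (h : n + (s : ℤ) = 2 * w) {z : K.wt s w}
    (hz : K.d s w z ∈ E.kx u (s + 1) w) : (cpl U X).IsCocycle (clE E U u h z) := by
  refine isCocycle_qC U X (𝟙_ T) h _ ?_
  rw [clQ_d]
  exact (clQ_eq_zero_iff E U u).2 hz

theorem isCobdy_clE {s : ℕ} {m w : ℤ} (h : m + ((s + 1 : ℕ) : ℤ) = 2 * w) {z : K.wt (s + 1) w}
    (y : K.wt s w) (hy : z - K.d s w y ∈ E.kx u (s + 1) w) :
    (cpl U X).IsCobdy (clE E U u h z) := by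
  have h1 : clE E U u h z = clE E U u h (K.d s w y) := by
    rw [← sub_eq_zero, ← map_sub, clE_of_mem E U u h hy]
  rw [h1, clE_apply, ← clQ_d]
  exact isCobdy_qC U X (𝟙_ T) h _

variable {u}

theorem clE_surjective {q : ℤ} (hX : E.XM q u) {s : ℕ} {n w : ℤ} (h : n + (s : ℤ) = 2 * w) :
    Function.Surjective (clE E U u h) :=
  (qC_surjective U X (𝟙_ T) h).comp (clQ_surjective E U hX s w)

/-- Every cocycle is the class of a cocycle modulo `kx`. -/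
theorem exists_clE {q : ℤ} (hX : E.XM q u) {s : ℕ} {n w : ℤ} (h : n + (s : ℤ) = 2 * w)
    (x : (cpl U X).E s n) (hx : (cpl U X).IsCocycle x) :
    ∃ z : K.wt s w, K.d s w z ∈ E.kx u (s + 1) w ∧ clE E U u h z = x := by
  obtain ⟨c, hc, rfl⟩ := exists_cocycle_qC U X (𝟙_ T) h x hx
  obtain ⟨z, rfl⟩ := clQ_surjective E U hX s w c
  rw [clQ_d] at hc
  exact ⟨z, (clQ_eq_zero_iff E U u).1 hc, rfl⟩

/-- A cocycle modulo `kx` whose class is a coboundary is a coboundary modulo `kx`. -/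
theorem exists_of_isCobdy_clE {q : ℤ} (hX : E.XM q u) {s : ℕ} {m w : ℤ}
    (h : m + ((s + 1 : ℕ) : ℤ) = 2 * w) {z : K.wt (s + 1) w}
    (hz : K.d (s + 1) w z ∈ E.kx u (s + 2) w) (hb : (cpl U X).IsCobdy (clE E U u h z)) :
    ∃ y : K.wt s w, z - K.d s w y ∈ E.kx u (s + 1) w := by
  obtain ⟨c, hc⟩ := exists_of_isCobdyC U X (𝟙_ T) h (clQ E U u (s + 1) w z)
    (by rw [clQ_d]; exact (clQ_eq_zero_iff E U u).2 hz) hb
  obtain ⟨y, rfl⟩ := clQ_surjective E U hX s w c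
  refine ⟨y, (clQ_eq_zero_iff E U u).1 ?_⟩
  rw [map_sub, ← clQ_d, hc, sub_self]

/-- `Van` from the algebraic vanishing. -/
theorem van_of_vanw {q : ℤ} (hX : E.XM q u) {s : ℕ} {m w : ℤ}
    (h : m + ((s + 1 : ℕ) : ℤ) = 2 * w) (hv : K.Vanw (E.kx u) (s + 1) w) :
    (cpl U X).Van s m := by
  intro x hx
  obtain ⟨z, hz, rfl⟩ := exists_clE E U hX h x hx
  obtain ⟨y, hy⟩ := hv z hz
  exact isCobdy_clE E U u h y hy

theorem E_eq_zero {q : ℤ} (hX : E.XM q u) {s : ℕ} {n t : ℤ} (h : n + (s : ℤ) = t)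
    (ht : ¬ q ∣ t) (x : (cpl U X).E s n) : x = 0 :=
  E_eq_zeroC U X (𝟙_ T) h (Q_eq_zero E U hX ht) x

theorem van_of_not_dvd {q : ℤ} (hX : E.XM q u) {s : ℕ} {m : ℤ}
    (ht : ¬ q ∣ m + ((s + 1 : ℕ) : ℤ)) : (cpl U X).Van s m := by
  intro x _
  rw [E_eq_zero E U hX rfl ht x]
  exact ⟨0, map_zero _⟩

end Vale.Agent.P257.V4.K
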