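import Vale.Agent.P257.V4.K.Lift
import Vale.Agent.P257.V4.E.KTow
import Vale.Agent.P257.V4.E.CompLim

/-!
# P257, part K: the comparison of the cochains on `V(n-1)` with `Ch p`

`chM p : ChMap cobK p`, and `CmpX E u (chM p) (N_n)` if `E.kx u = In p n`.
-/

open CategoryTheory MonoidalCategory Limits Pretriangulated MonObj

set_option linter.unusedSectionVars false

universe v u

namespace Vale.Agent.P257.V4.K

open Vale.Agent.P251.T Vale.Agent.P251.M Vale.Agent.P251.S Vale.Agent.P251.F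
  Vale.Agent.P257.V4.A Vale.Agent.P257.V4.E Vale.Agent.P257.V4.O Vale.Agent.P257.V4.B

variable (p : ℕ) [hp : Fact p.Prime]

theorem toCh_toNB_map {m n : ℕ} (α : Fin (m + 1) → Fin (n + 1)) (x : Cob Laz m) :
    toCh p n (toNB p n (Cob.map α x)) = Ch.map α (toCh p m (toNB p m x)) := by
  rw [toNB_map, toCh_map]

/-- The map from the cobar complex of the Lazard ring to `Ch p`. -/
noncomputable def chM : ChMap cobK p where
  φ s := (toCh p s).comp (toNB p s)
  φ_map α x := toCh_toNB_map p α x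
  φ_wt _ _ _ hx := mem_ChW_natCast.1 (toCh_mem_ChW (toNB_mem_W hx))

theorem chM_apply (s : ℕ) (x : Cob Laz s) : (chM p).φ s x = toCh p s (toNB p s x) := rfl

theorem chM_coe {s : ℕ} {w : ℤ} (z : cobK.wt s w) : (chM p).φ s z.1 = chw p z := rfl

variable {p}

section

variable {T : Type u} [Category.{v} T] [Preadditive T] [HasZeroObject T]
    [HasShift T ℤ] [∀ n : ℤ, (shiftFunctor T n).Additive] [Pretriangulated T]
    [MonoidalCategory T] [SymmetricCategory T] [TensorTriangulated T] [HasCoproducts.{0} T]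
    {R : T} [MonObj R] [IsCommMonObj R] {E : RMod cobK R} {X : T} {u : 𝟙_ T ⟶ X}

/-- **The comparison for `V(n-1)`.** -/
theorem cmpX_of (hlow : OutLow p) {n : ℕ} (hn : 1 ≤ n)
    (hk : ∀ s w, E.kx u s w = In p n s w) : CmpX E u (chM p) (Ch.N p n) := by
  refine ⟨?_, ?_, ?_⟩
  · intro s w z hz
    rw [hk s w] at hz
    exact chw_eq_zero_of_mem hz
  · intro s D z hD hz hb
    rw [hk] at hz
    obtain ⟨y, hy⟩ := inj_In hlow hn hD hz hb
    refine ⟨y, ?_⟩
    rw [hk]
    exact hy
  · intro s D y hy hd hD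
    obtain ⟨z, hz, e⟩ := lift_In hlow hn hD hy hd
    exact ⟨z, by rw [hk]; exact hz, e⟩

end

end Vale.Agent.P257.V4.K
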