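import Vale.Agent.P257.V4.E.CompCos
import Vale.Agent.P257.V4.A.Cup

/-!
# P257, part K: the cup product in a cosimplicial commutative ring

The Leibniz rule for `K : CosR`, and homomorphisms `K → Ch p`.
-/

namespace Vale.Agent.P257.V4.K

open Vale.Agent.P257.V4.E Vale.Agent.P257.V4.A
open Vale.Agent.P257.V4.A.Ch (front back val_front val_back val_succAbove')

variable (K : CosR)

/-- The cup product on all elements, for any `n = a + b`. -/
def cupc {a b n : ℕ} (h : a + b = n) (x : K.A a) (y : K.A b) : K.A n :=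
  K.map (front (show a ≤ n by omega)) x * K.map (back (show b ≤ n by omega)) y

theorem coe_cupw {a b : ℕ} {w v w' : ℤ} (h : w + v = w') (x : K.wt a w) (y : K.wt b v) :
    (K.cupw h x y : K.A (a + b)) = cupc K rfl x.1 y.1 := by
  have h1 : (CosR.front a b) = front (show a ≤ a + b by omega) := rfl
  have h2 : (CosR.back a b) = back (show b ≤ a + b by omega) := by
    funext i
    apply Fin.ext
    simp only [CosR.back, back]
    omega
  change K.map (CosR.front a b) x.1 * K.map (CosR.back a b) y.1 = _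
  rw [h1, h2]
  rfl

theorem cmap_congr {m n : ℕ} {α β : Fin (m + 1) → Fin (n + 1)}
    (h : ∀ k, ((α k : Fin (n + 1)) : ℕ) = ((β k : Fin (n + 1)) : ℕ)) (x : K.A m) :
    K.map α x = K.map β x := by
  have : α = β := funext fun k => Fin.ext (h k)
  rw [this]

theorem leib_aux1 {a b : ℕ} (i : Fin (a + b + 2)) (i' : Fin (a + 2)) (hi : (i : ℕ) = i')
    (hi' : (i' : ℕ) ≤ a) (x : K.A a) (y : K.A b) :
    K.map i.succAbove (cupc K (rfl : a + b = a + b) x y) =
      K.map (front (by omega : a + 1 ≤ a + b + 1) ∘ i'.succAbove) x *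
          K.map (back (by omega : b ≤ a + b + 1)) y := by
  rw [cupc, map_mul, K.map_map, K.map_map]
  refine congrArg₂ (· * ·) (cmap_congr K (fun k => ?_) x) (cmap_congr K (fun k => ?_) y)
  · simp only [Function.comp, val_front, val_succAbove', hi]
  · simp only [Function.comp, val_back, val_succAbove', hi]
    split_ifs <;> omega

theorem leib_aux2 {a b : ℕ} (i : Fin (a + b + 2)) (j : Fin (b + 2)) (hi : (i : ℕ) = a + j)
    (hj : 1 ≤ (j : ℕ)) (x : K.A a) (y : K.A b) :
    K.map i.succAbove (cupc K (rfl : a + b = a + b) x y) =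
      K.map (front (by omega : a ≤ a + b + 1)) x *
          K.map (back (by omega : b + 1 ≤ a + b + 1) ∘ j.succAbove) y := by
  rw [cupc, map_mul, K.map_map, K.map_map]
  refine congrArg₂ (· * ·) (cmap_congr K (fun k => ?_) x) (cmap_congr K (fun k => ?_) y)
  · simp only [Function.comp, val_front, val_succAbove', hi]
    have := k.2
    split_ifs <;> omega
  · simp only [Function.comp, val_back, val_succAbove', hi]
    have := k.2
    split_ifs <;> omega

theorem dd_cup_aux1 {a b : ℕ} (x : K.A a) (y : K.A b) :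
    K.dd (a + b) (cupc K rfl x y) =
      (∑ i : Fin (a + 1), ((-1 : ℤ) ^ (i : ℕ)) •
        (K.map (front (by omega : a + 1 ≤ a + b + 1) ∘ (i.castSucc).succAbove) x *
          K.map (back (by omega : b ≤ a + b + 1)) y)) +
      ∑ j : Fin (b + 1), ((-1 : ℤ) ^ (a + 1 + (j : ℕ))) •
        (K.map (front (by omega : a ≤ a + b + 1)) x *
          K.map (back (by omega : b + 1 ≤ a + b + 1) ∘ (j.succ).succAbove) y) := by
  rw [CosR.dd_apply]
  have hc : (a + 1) + (b + 1) = a + b + 2 := by omega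
  rw [← Fin.sum_congr' _ hc, Fin.sum_univ_add]
  refine congrArg₂ (· + ·) (Finset.sum_congr rfl fun i _ => ?_)
    (Finset.sum_congr rfl fun j _ => ?_)
  · rw [leib_aux1 K _ i.castSucc (by simp) (by have := i.2; simp; omega)]
    simp
  · rw [leib_aux2 K _ j.succ (by simp; omega) (by simp)]
    simp

theorem dd_cup_aux2 {a b : ℕ} (x : K.A a) (y : K.A b) :
    cupc K (show (a + 1) + b = a + b + 1 by omega) (K.dd a x) y =
      (∑ i : Fin (a + 1), ((-1 : ℤ) ^ (i : ℕ)) •
        (K.map (front (by omega : a + 1 ≤ a + b + 1) ∘ (i.castSucc).succAbove) x *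
          K.map (back (by omega : b ≤ a + b + 1)) y)) +
      ((-1 : ℤ) ^ (a + 1)) • (K.map (front (by omega : a ≤ a + b + 1)) x *
          K.map (back (by omega : b ≤ a + b + 1)) y) := by
  rw [cupc, CosR.dd_apply, map_sum, Finset.sum_mul, Fin.sum_univ_castSucc]
  refine congrArg₂ (· + ·) (Finset.sum_congr rfl fun i _ => ?_) ?_
  · rw [map_zsmul, K.map_map, smul_mul_assoc, Fin.val_castSucc]
  · rw [map_zsmul, K.map_map, smul_mul_assoc, Fin.val_last]
    refine congrArg (fun z => ((-1 : ℤ) ^ (a + 1)) • (z * _)) (cmap_congr K (fun k => ?_) x)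
    have := k.2
    simp only [Function.comp, val_front, val_succAbove', Fin.val_last]
    split_ifs
    omega

theorem dd_cup_aux3 {a b : ℕ} (x : K.A a) (y : K.A b) :
    cupc K (show a + (b + 1) = a + b + 1 by omega) x (K.dd b y) =
      (K.map (front (by omega : a ≤ a + b + 1)) x *
          K.map (back (by omega : b ≤ a + b + 1)) y) +
      ∑ j : Fin (b + 1), ((-1 : ℤ) ^ (1 + (j : ℕ))) •
        (K.map (front (by omega : a ≤ a + b + 1)) x *
          K.map (back (by omega : b + 1 ≤ a + b + 1) ∘ (j.succ).succAbove) y) := by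
  rw [cupc, CosR.dd_apply, map_sum, Finset.mul_sum, Fin.sum_univ_succ]
  refine congrArg₂ (· + ·) ?_ (Finset.sum_congr rfl fun j _ => ?_)
  · rw [map_zsmul, K.map_map, mul_smul_comm, Fin.val_zero, pow_zero, one_smul]
    refine congrArg (fun z => _ * z) (cmap_congr K (fun k => ?_) y)
    simp only [Function.comp, val_back, val_succAbove', Fin.val_zero, not_lt_zero, if_false]
    omega
  · rw [map_zsmul, K.map_map, mul_smul_comm, Fin.val_succ, add_comm (j : ℕ) 1]

/-- The Leibniz rule. -/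
theorem dd_cup {a b n : ℕ} (h : a + b = n) (x : K.A a) (y : K.A b) :
    K.dd n (cupc K h x y) = cupc K (show (a + 1) + b = n + 1 by omega) (K.dd a x) y +
      ((-1 : ℤ) ^ a) • cupc K (show a + (b + 1) = n + 1 by omega) x (K.dd b y) := by
  subst h
  rw [dd_cup_aux1, dd_cup_aux2, dd_cup_aux3, smul_add, Finset.smul_sum]
  simp only [smul_smul, ← pow_add, add_assoc]
  have e1 : (-1 : ℤ) ^ a = -(-1 : ℤ) ^ (a + 1) := by rw [pow_succ]; ring
  rw [e1, neg_smul]
  abel

/-! ### homomorphisms to `Ch p` -/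

/-- A homomorphism from a cosimplicial ring to the cosimplicial ring `Ch p`. -/
structure ChMap (p : ℕ) [Fact p.Prime] where
  φ : ∀ s, K.A s →+* Ch p s
  φ_map : ∀ {m n : ℕ} (α : Fin (m + 1) → Fin (n + 1)) (x : K.A m),
    φ n (K.map α x) = Ch.map α (φ m x)
  φ_wt : ∀ (s D : ℕ) (x : K.A s), x ∈ K.wt s (((p : ℤ) - 1) * D) → Ch.IsWt D (φ s x)

namespace ChMap

variable {K} {p : ℕ} [Fact p.Prime] (F : ChMap K p)

theorem φ_dd (s : ℕ) (x : K.A s) : F.φ (s + 1) (K.dd s x) = Ch.d s (F.φ s x) := by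
  rw [CosR.dd_apply, Ch.d_apply, map_sum]
  exact Finset.sum_congr rfl fun i _ => by rw [map_zsmul, F.φ_map]

theorem φ_d (s : ℕ) {w : ℤ} (x : K.wt s w) :
    F.φ (s + 1) (K.d s w x : K.A (s + 1)) = Ch.d s (F.φ s x.1) := by
  rw [CosR.coe_d, F.φ_dd]

theorem φ_cupc {a b n : ℕ} (h : a + b = n) (x : K.A a) (y : K.A b) :
    F.φ n (cupc K h x y) = Ch.cup h (F.φ a x) (F.φ b y) := by
  rw [cupc, map_mul, F.φ_map, F.φ_map]
  rfl

theorem φ_cupw {a b : ℕ} {w v w' : ℤ} (h : w + v = w') (x : K.wt a w) (y : K.wt b v) :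
    F.φ (a + b) (K.cupw h x y : K.A (a + b)) = Ch.cup rfl (F.φ a x.1) (F.φ b y.1) := by
  rw [coe_cupw, F.φ_cupc]

end ChMap

end Vale.Agent.P257.V4.K
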