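import Vale.Agent.P257.V4.K.V4
import Vale.Agent.P257.V4.K.Assemble

/-!
# P257, part K: the final assembly

`hasV4_main` : the input `HasV4` of `v4Statement_of`.
-/

open CategoryTheory MonoidalCategory OnePoint Topology Limits Pretriangulated Matrix MonObj

set_option linter.unusedSectionVars false

noncomputable section

namespace Vale.Agent.P257.V4.K

open Vale.Agent.P251 Vale.Agent.P251.St Vale.Agent.P251.G Vale.Agent.P251.G.LC
open Vale.Agent.P251.I Vale.Agent.P251.M Vale.Agent.P251.F Vale.Agent.P217 Vale.Agent.P251.S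
open Vale.Agent.P257.V4.A Vale.Agent.P257.V4.E Vale.Agent.P257.V4.O Vale.Agent.P257.V4.B
open Vale.Agent.P257.V4.T

/-- The relation `α₁ β₁ ^ p = 0` in `S/p`. -/
def InT {T : SHCat} {D : MUData T.C} {p : ℕ} [Fact p.Prime] (b : BData D p) (U : UnitCof b.obj) :
    Prop :=
  ∃ Z : T0D b.rmod U p, ∀ (Sp : T.C) (ip : 𝟙_ T.C ⟶ Sp) (δp : Sp ⟶ (𝟙_ T.C)⟦(1 : ℤ)⟧),
    Triangle.mk ((p : ℤ) • 𝟙 (𝟙_ T.C)) ip δp ∈ distTriang T.C → mulPow Z.α Z.β p ≫ ip = 0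

/-- **An iterated cofibre of `p, v_1, …, v_4` exists.** -/
theorem hasV4_main (T : SHCat) (S : Susp T) (p : ℕ) [hp : Fact p.Prime] (h11 : 11 ≤ p)
    {e : S.toSpaceFunctor.S.obj CCF ≅ (stdEven T.C).L} {D : MUData T.C} (H : MUUniv e D)
    (hO : Out p) (hT : ∀ (b : BData D p) (U : UnitCof b.obj), InT b U)
    (hL : ∀ (b : BData D p) (U : UnitCof b.obj) {X : T.C} {u : 𝟙_ T.C ⟶ X} {m : X ⊗ X ⟶ X},
      IVb b 4 u → (u ▷ X) ≫ m = (λ_ X).hom → InL b U u) : HasV4 T D p := by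
  obtain ⟨b⟩ := exists_BData p H
  obtain ⟨U⟩ := exists_unitCof b.obj
  obtain ⟨Z, h0⟩ := hT b U
  obtain ⟨X, u, h⟩ := exists_V4 U h11 hO Z (fun {Sp ip δp} hS => h0 Sp ip δp hS) (hL b U)
  exact hasV4_of_zv b h.chp

end Vale.Agent.P257.V4.K
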