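import Vale.Agent.P257.V4.K.Lift
import Vale.Agent.P257.V4.E.CupD

/-!
# P257, part K: the consequence of the Leibniz rule

`isCobdy_of_leib` : the Leibniz rule in `E_1` and (F2) imply that the obstruction in filtration
`q + 1` is a coboundary.
-/

open CategoryTheory MonoidalCategory Limits Pretriangulated MonObj

set_option linter.unusedSectionVars false

universe v u

namespace Vale.Agent.P257.V4.K

open Vale.Agent.P251.T Vale.Agent.P251.M Vale.Agent.P251.S Vale.Agent.P257.V4.A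
  Vale.Agent.P257.V4.E Vale.Agent.P257.V4.O

section cst

variable {K : CosR}

/-- Change of the name of the cosimplicial degree. -/
def cst {s s' : ℕ} (h : s = s') {w : ℤ} (z : K.wt s w) : K.wt s' w := h ▸ z

theorem cst_rfl {s : ℕ} {w : ℤ} (z : K.wt s w) : cst rfl z = z := rfl

/-- Change of the name of the cosimplicial degree. -/
def cstCh {p : ℕ} [Fact p.Prime] {s s' : ℕ} (h : s = s') (z : Ch p s) : Ch p s' := h ▸ z

theorem ChMap.φ_cst {p : ℕ} [Fact p.Prime] (F : ChMap K p) {s s' : ℕ} (h : s = s') {w : ℤ}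
    (z : K.wt s w) : F.φ s' (cst h z).1 = cstCh h (F.φ s z.1) := by
  subst h
  rfl

theorem cstCh_cup {p : ℕ} [Fact p.Prime] {a b n : ℕ} (h : a + b = n) (x : Ch p a)
    (y : Ch p b) : cstCh h (Ch.cup rfl x y) = Ch.cup h x y := by
  subst h
  rfl

theorem cstCh_zero {p : ℕ} [Fact p.Prime] {s s' : ℕ} (h : s = s') :
    cstCh h (0 : Ch p s) = 0 := by
  subst h
  rfl

end cst

variable {T : Type u} [Category.{v} T] [Preadditive T] [HasZeroObject T]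
    [HasShift T ℤ] [∀ n : ℤ, (shiftFunctor T n).Additive] [Pretriangulated T]
    [MonoidalCategory T] [SymmetricCategory T] [TensorTriangulated T] [HasCoproducts.{0} T]
    {K : CosR} {R : T} [MonObj R] [IsCommMonObj R] (E : RMod K R) (U : UnitCof R) {X : T}
    (u : 𝟙_ T ⟶ X)

theorem qX_cst {s s' : ℕ} (h : s = s') {w : ℤ} (z : K.wt s w) :
    E.qX U u s' w (cst h z) = E.qX U u s w z ≫ R ◁ eqToHom (B_eq U h X) := by
  subst h
  rw [cst_rfl, eqToHom_refl, MonoidalCategory.whiskerLeft_id, Category.comp_id]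

variable {E u} in
theorem d_cst_mem {s s' : ℕ} (h : s = s') {w : ℤ} {z : K.wt s w}
    (hz : K.d s w z ∈ E.kx u (s + 1) w) : K.d s' w (cst h z) ∈ E.kx u (s' + 1) w := by
  subst h
  exact hz

variable {E}

/-- Every element of `E_1` is the class of an algebraic cochain. -/
theorem qX_surjective {q : ℤ} (hX : E.XM q u) (s : ℕ) (w : ℤ) :
    Function.Surjective (E.qX U u s w) := by
  intro g
  have e : (2 * w - (s : ℤ)) + (s : ℤ) = 2 * w := by ring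
  obtain ⟨z, hz⟩ := clE_surjective E U hX e ((eT U X (𝟙_ T) e).symm ((sphE T w).inv ≫ g))
  refine ⟨z, ?_⟩
  have h1 := congrArg (eT U X (𝟙_ T) e) hz
  rw [eT_clE, AddEquiv.apply_symm_apply] at h1
  exact (cancel_epi _).1 h1

/-- A cocycle modulo `kx` whose class is in the image of the differential is a coboundary modulo
`kx`. -/
theorem exists_of_qX_eq {q : ℤ} (hX : E.XM q u) {s : ℕ} {w : ℤ} {z : K.wt (s + 1) w}
    (hz : K.d (s + 1) w z ∈ E.kx u (s + 2) w) {f : (stdEven T).S w ⟶ R ⊗ U.cobar.B s X}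
    (hf : E.qX U u (s + 1) w z = f ≫ U.cobar.D s X) :
    ∃ y : K.wt s w, z - K.d s w y ∈ E.kx u (s + 1) w := by
  obtain ⟨y, rfl⟩ := qX_surjective U u hX s w f
  rw [← RMod.qX_d] at hf
  have e : (2 * w - ((s + 1 : ℕ) : ℤ)) + ((s + 1 : ℕ) : ℤ) = 2 * w := by ring
  have h1 : clE E U u e (z - K.d s w y) = 0 := by
    apply (eT U X (𝟙_ T) e).injective
    rw [eT_clE, map_sub, hf, sub_self, comp_zero, map_zero]
  have h2 : K.d (s + 1) w (z - K.d s w y) ∈ E.kx u (s + 2) w := by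
    rw [map_sub, K.d_d, sub_zero]
    exact hz
  obtain ⟨y', hy'⟩ := exists_of_isCobdy_clE E U hX e h2 (by rw [h1]; exact ⟨0, map_zero _⟩)
  refine ⟨y + y', ?_⟩
  rw [map_add, ← sub_sub]
  exact hy'

variable {p : ℕ} [Fact p.Prime] {F : ChMap K p} {N : ℕ}

/-- **The consequence of the Leibniz rule in `Ch p`**: `a ∪ z_o` is a coboundary. -/
theorem isCobdy_cup_of_leib {q : ℤ} (hX : E.XM q u) (hC : CmpX E u F N) {s : ℕ}
    {wa wo wv wb w : ℤ} {a : K.wt 1 wa} (hda : K.d 1 wa a ∈ E.kx u 2 wa) {v : K.wt 0 wv}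
    (hv : F.φ 0 v.1 = 0) (hdv : K.d 0 wv v ∈ E.kx u 1 wv) {zo : K.wt (s + 1) wo}
    (hzo : K.d (s + 1) wo zo ∈ E.kx u (s + 2) wo) {zb : K.wt (s + 2) wb}
    (hzb : K.d (s + 2) wb zb ∈ E.kx u (s + 3) wb) (h1 : wa + wo = w) (h2 : wv + wb = w)
    {f : (stdEven T).S w ⟶ R ⊗ U.cobar.B (s + 1) X}
    (hf : E.qX U u (1 + (s + 1)) w (K.cupw h1 a zo) ≫
        R ◁ eqToHom (B_eq U (show 1 + (s + 1) = s + 1 + 1 by omega) X) +
      E.qX U u (0 + (s + 2)) w (K.cupw h2 v zb) ≫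
        R ◁ eqToHom (B_eq U (show 0 + (s + 2) = s + 1 + 1 by omega) X) =
      f ≫ U.cobar.D (s + 1) X) :
    Ch.IsCobdy (Ch.cup (show 1 + (s + 1) = s + 1 + 1 by omega) (F.φ 1 a.1) (F.φ (s + 1) zo.1)) := by
  rw [← qX_cst E U u (show 1 + (s + 1) = s + 1 + 1 by omega),
    ← qX_cst E U u (show 0 + (s + 2) = s + 1 + 1 by omega), ← map_add] at hf
  have hd : K.d (s + 1 + 1) w
      (cst (show 1 + (s + 1) = s + 1 + 1 by omega) (K.cupw h1 a zo) +
        cst (show 0 + (s + 2) = s + 1 + 1 by omega) (K.cupw h2 v zb)) ∈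
      E.kx u (s + 1 + 2) w := by
    rw [map_add]
    exact add_mem (d_cst_mem _ (d_cupw_mem h1 hda hzo)) (d_cst_mem _ (d_cupw_mem h2 hdv hzb))
  obtain ⟨y, hy⟩ := exists_of_qX_eq U u hX hd hf
  have h3 := hC.ker _ _ _ hy
  have h4 : F.φ (s + 1 + 1) (cst (show 1 + (s + 1) = s + 1 + 1 by omega) (K.cupw h1 a zo)).1 +
      F.φ (s + 1 + 1) (cst (show 0 + (s + 2) = s + 1 + 1 by omega) (K.cupw h2 v zb)).1 -
      F.φ (s + 1 + 1) (K.d (s + 1) w y).1 = 0 := by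
    rw [← map_add, ← map_sub]
    exact h3
  rw [F.φ_cst, F.φ_cst, F.φ_cupw, F.φ_cupw, hv, Ch.cup_zero_left, cstCh_zero, add_zero,
    F.φ_d, cstCh_cup, sub_eq_zero] at h4
  rw [h4]
  exact ⟨_, rfl⟩

/-- The obstruction of filtration `q + 1` is a coboundary. -/
theorem isCobdy_of_leib (hp : 2 ≤ p) {q : ℤ} (hX : E.XM q u) (hC : CmpX E u F (Ch.N p 4))
    (hF2 : OutF2 p) {s : ℕ} (hs : s + 1 = 2 * p - 2) {m : ℤ}
    (hm : m + ((s + 2 : ℕ) : ℤ) = 2 * (((p : ℤ) - 1) * (Ch.N p 4 + 1 : ℕ)))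
    {wa wv wb w : ℤ} {a : K.wt 1 wa} (ha : F.φ 1 a.1 = Ch.h p 1 4)
    (hda : K.d 1 wa a ∈ E.kx u 2 wa) {v : K.wt 0 wv}
    (hv : F.φ 0 v.1 = 0) (hdv : K.d 0 wv v ∈ E.kx u 1 wv)
    (h1 : wa + (((p : ℤ) - 1) * (Ch.N p 4 + 1 : ℕ)) = w) (h2 : wv + wb = w)
    (y : (cpl U X).D (s + 2) m) {m₁ m₂ : X ⊗ X ⟶ X} (hm₁ : u ≫ ux u X ≫ m₁ = u)
    (hm₂ : u ≫ ux u X ≫ m₂ = u) (o' : (stdEven T).S wb ⟶ U.cobar.B (s + 3) X)
    (f : (stdEven T).S w ⟶ R ⊗ U.cobar.B (s + 2) X)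
    (hf : pE U h1 (E.qX U u 1 wa a) (xo U (s + 2) m₁ ((sphE T _).hom ≫ dT U X (𝟙_ T) hm y)) ≫
        R ◁ eqToHom (B_eq U (show 1 + (s + 2) = s + 2 + 1 by omega) X) +
      pE U h2 (E.qX U u 0 wv v) (xo U (s + 3) m₂ o') ≫
        R ◁ eqToHom (B_eq U (show 0 + (s + 3) = s + 2 + 1 by omega) X) =
      f ≫ U.cobar.D (s + 2) X) :
    (cpl U X).IsCobdy ((cpl U X).j (s + 2) m y) := by
  obtain ⟨zo, hzo, hzo'⟩ := exists_clE E U hX hm _ ((cpl U X).isCocycle_j y)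
  have ho : E.qX U u (s + 2) _ zo = ((sphE T _).hom ≫ dT U X (𝟙_ T) hm y) ≫ unitMap R _ := by
    have h3 := eT_clE E U u hm zo
    rw [hzo', eT_j] at h3
    rw [← cancel_epi (sphE T _).inv, ← h3, Category.assoc, Iso.inv_hom_id_assoc]
  have e : (2 * wb - ((s + 3 : ℕ) : ℤ)) + ((s + 3 : ℕ) : ℤ) = 2 * wb := by ring
  obtain ⟨zb, hzb, hzb'⟩ := exists_clE E U hX e _ ((cpl U X).isCocycle_j
    ((dT U X (𝟙_ T) e).symm ((sphE T _).inv ≫ o')))
  have hb : E.qX U u (s + 3) _ zb = o' ≫ unitMap R _ := by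
    have h3 := eT_clE E U u e zb
    rw [hzb', eT_j, AddEquiv.apply_symm_apply, Category.assoc] at h3
    exact ((cancel_epi _).1 h3).symm
  rw [RMod.pE_xo E U m₁ hm₁ h1 a zo ho, RMod.pE_xo E U m₂ hm₂ h2 v zb hb] at hf
  have hc := isCobdy_cup_of_leib U u hX hC hda hv hdv hzo hzb h1 h2 hf
  rw [ha] at hc
  have hz : Ch.IsCobdy (F.φ (s + 2) zo.1) := by
    refine hF2 (s + 2) (by omega) _ (F.φ_wt (s + 2) _ _ zo.2) (hC.coc hzo) ?_
    exact hc
  rw [← hzo']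
  refine hC.isCobdy U ?_ hm hzo hz
  omega

end Vale.Agent.P257.V4.K
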