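import Vale.Agent.P257.V4.K.V4
import Vale.Agent.P257.V4.K.LFin
import Vale.Agent.P257.V4.L.Adapt5
import Vale.Agent.P257.V4.L.Hb
import Vale.Agent.P257.V4.B.SpjL

/-!
# P257, part K: the input (L)

`IVb.inL` : the input (L) of the lift of `v_4` holds (Leibniz rule on the tower, and (F2)).
-/

open CategoryTheory MonoidalCategory Limits Pretriangulated MonObj

set_option linter.unusedSectionVars false

universe v u

namespace Vale.Agent.P257.V4.K

open Vale.Agent.P251.T Vale.Agent.P251.M Vale.Agent.P251.S Vale.Agent.P251.F Vale.Agent.P251.I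
  Vale.Agent.P257.V4.A Vale.Agent.P257.V4.E Vale.Agent.P257.V4.O Vale.Agent.P257.V4.B
  Vale.Agent.P257.V4.T Vale.Agent.P257.V4.L

variable {T : Type u} [Category.{v} T] [Preadditive T] [HasZeroObject T]
    [HasShift T ℤ] [∀ n : ℤ, (shiftFunctor T n).Additive] [Pretriangulated T] [IsTriangulated T]
    [MonoidalCategory T] [SymmetricCategory T] [TensorTriangulated T] [MonoidalClosed T]
    [HasCoproducts.{0} T] [HasProducts.{0} T] [StableCat T]

variable {D : MUData T} {p : ℕ} [hp : Fact p.Prime] {F : SpaceFunctor T}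
  {e : F.S.obj CCF ≅ (stdEven T).L} (H : MUUniv e D) {b : BData D p} (U : UnitCof b.obj)
  {X : T} {u : 𝟙_ T ⟶ X} {m : X ⊗ X ⟶ X}

omit [IsTriangulated T] [MonoidalClosed T] [HasCoproducts.{0} T] [HasProducts.{0} T]
  [StableCat T] in
theorem u_ux (hm : (u ▷ X) ≫ m = (λ_ X).hom) : u ≫ ux u X ≫ m = u := by
  rw [ux, Category.assoc, rightUnitor_inv_naturality_assoc, ← whisker_exchange_assoc, hm,
    leftUnitor_naturality, unitors_equal, Iso.inv_hom_id_assoc]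

theorem two_wa : 2 * wa p = ((2 * p - 2 : ℕ) : ℤ) * (p : ℤ) ^ 4 := by
  have := hp.out.two_le
  rw [wa, Nat.cast_sub (by omega)]
  push_cast
  ring

include H in
theorem IVb.sPJ (h : IVb b 4 u) : SPJ U X ((2 * p - 2 : ℕ) : ℤ) := b.spjL H U h.iv.xm

theorem IVb.conJ (h : IVb b 4 u) : CONJ U X ((2 * p - 2 : ℕ) : ℤ) :=
  b.conjL U (isPLocal_of_chp h.chp)
    (conn_of_chp D.conn_unit (fun k => mul_nonneg (by norm_num) (wv_nonneg k)) h.chp) h.iv.xm

include H in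
/-- **The input (L) of the lift of `v_4`.** -/
theorem IVb.inL (h11 : 11 ≤ p) (hlow : OutLow p) (hF2 : OutF2 p) (h : IVb b 4 u)
    (hm : (u ▷ X) ≫ m = (λ_ X).hom) : InL b U u := by
  intro s hs y hy
  have hS : SPJ U X ((s + 1 : ℕ) : ℤ) := by
    rw [hs]
    exact h.sPJ H U
  have hC : CONJ U X ((s + 1 : ℕ) : ℤ) := by
    rw [hs]
    exact h.conJ U
  have hq : ((2 * p - 2 : ℕ) : ℤ) = 2 * ((p : ℤ) - 1) := by
    rw [Nat.cast_sub (by omega)]
    push_cast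
    ring
  have hs' : (s : ℤ) + 1 = 2 * ((p : ℤ) - 1) := by
    rw [← hq, ← hs]
    push_cast
    ring
  -- the weights
  have h1 : wa p + (((p : ℤ) - 1) * (Ch.N p 4 + 1 : ℕ)) =
      wa p + (((p : ℤ) - 1) * (Ch.N p 4 + 1 : ℕ)) := rfl
  have h2 : wv p 4 + (wa p + (((p : ℤ) - 1) * (Ch.N p 4 + 1 : ℕ)) - wv p 4) =
      wa p + (((p : ℤ) - 1) * (Ch.N p 4 + 1 : ℕ)) := by ring
  have e1 : (2 * wv p 4 - 1) + ((s + 2 : ℕ) : ℤ) = 2 * (((p : ℤ) - 1) * (Ch.N p 4 + 1 : ℕ)) := by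
    rw [wv]
    push_cast
    linarith
  have e2 : (2 * wv p 4 - 1) + ((1 : ℕ) : ℤ) = 2 * wv p 4 := by push_cast; ring
  -- the algebra
  have hda : cobK.d 1 (wa p) (za p) ∈ b.rmod.kx u 2 (wa p) := by
    rw [h.iv.ker]
    exact d_za_mem p
  have hdv : cobK.d 0 (wv p 4) (zv p 4) ∈ b.rmod.kx u 1 (wv p 4) := by
    rw [h.iv.ker]
    exact d_zv_mem p
  have ha : b.rmod.qX U u 1 (wa p) (za p) ≫ U.cobar.D 1 X = 0 := by
    rw [← RMod.qX_d, RMod.qX_apply, RMod.cX_apply, (RMod.mem_kx b.rmod).1 hda, zero_comp,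
      zero_comp]
  have hb := hb_of b.rmod U hm (wv_add_wa p) (v := zv p 4) (a := za p) (v₅ := zv p 5) (by
    rw [h.iv.ker]
    exact d_zv_add p)
  have hy' : dT U X (𝟙_ T) e2 ((cpl U X).proj (2 * wv p 4 - 1) (show 1 ≤ s + 2 by omega) y) =
      (sphE T (wv p 4)).inv ≫ b.rmod.qX U u 0 (wv p 4) (zv p 4) ≫ U.ρ ▷ X := by
    rw [hy]
    refine (dT_k U X (𝟙_ T) em_v4 e0_v4 e2 _).trans ?_
    rw [eT_clE, Category.assoc]
    rfl
  obtain ⟨o', f, hf⟩ := leib_final U hm s (by omega) hS hC m h1 h2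
    (by rw [two_wa, hs]; exact Dvd.intro _ rfl) (by rw [two_wv, hs]; exact Dvd.intro _ rfl)
    (b.rmod.qX U u 0 (wv p 4) (zv p 4)) (b.rmod.qX U u 1 (wa p) (za p)) ha _ hb e1 e2 y hy'
  exact isCobdy_of_leib U u (by omega) h.iv.xm (h.cmpX hlow (by norm_num)) hF2 hs e1
    (chM_za p) hda (chM_zv p 4) hdv h1 h2 y
    (by rw [ux_braid hm, Category.comp_id]) (u_ux hm) o' f hf

end Vale.Agent.P257.V4.K
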