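import Vale.Agent.P257.V4.K.Final
import Vale.Agent.P257.V4.K.InL

/-!
# P257, part K: the final assembly, after the Leibniz rule

`hasV4_of_inT` : the input `HasV4` of `v4Statement_of`, from the outputs of part A and the relation
`α₁ β₁ ^ p = 0` in `S/p`.
-/

open CategoryTheory MonoidalCategory OnePoint Topology Limits Pretriangulated Matrix MonObj

set_option linter.unusedSectionVars false

noncomputable section

namespace Vale.Agent.P257.V4.K

open Vale.Agent.P251 Vale.Agent.P251.St Vale.Agent.P251.G Vale.Agent.P251.G.LC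
open Vale.Agent.P251.I Vale.Agent.P251.M Vale.Agent.P251.F Vale.Agent.P217 Vale.Agent.P251.S
open Vale.Agent.P257.V4.A Vale.Agent.P257.V4.E Vale.Agent.P257.V4.O Vale.Agent.P257.V4.B
open Vale.Agent.P257.V4.T

/-- **An iterated cofibre of `p, v_1, …, v_4` exists.** -/
theorem hasV4_of_inT (T : SHCat) (S : Susp T) (p : ℕ) [hp : Fact p.Prime] (h11 : 11 ≤ p)
    {e : S.toSpaceFunctor.S.obj CCF ≅ (stdEven T.C).L} {D : MUData T.C} (H : MUUniv e D)
    (hO : Out p) (hT : ∀ (b : BData D p) (U : UnitCof b.obj), InT b U) : HasV4 T D p :=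
  hasV4_main T S p h11 H hO hT fun _ U _ _ _ h hm => h.inL H U h11 hO.low hO.f2 hm

end Vale.Agent.P257.V4.K
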