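import Vale.Agent.P257.V4.K.StepR

/-!
# P257, part K: `π_* (R ⊗ X) = π_* R / (p, v_1, …, v_{n-1})` for an iterated cofibre `X`

* `JI p vL n W a` : `a : W ⟶ R` is in the ideal `(p, v_1, …, v_{n-1})`.
* `Chp.gen` : the homotopy of `R ⊗ X` if `p, v_1, …, v_{n-1}` is regular.
-/

open CategoryTheory MonoidalCategory Limits Pretriangulated MonObj

set_option linter.unusedSectionVars false

universe v u

noncomputable section

namespace Vale.Agent.P257.V4.K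

open Vale.Agent.P251.T Vale.Agent.P251.M Vale.Agent.P251.S Vale.Agent.P257.V4.E
  Vale.Agent.P257.V4.O

variable {T : Type u} [Category.{v} T] [Preadditive T] [HasZeroObject T]
    [HasShift T ℤ] [∀ n : ℤ, (shiftFunctor T n).Additive] [Pretriangulated T]
    [MonoidalCategory T] [SymmetricCategory T] [TensorTriangulated T]
    {R : T} [MonObj R]

theorem wl_zsmul (A : T) {X Y : T} (m : ℤ) (f : X ⟶ Y) : A ◁ (m • f) = m • (A ◁ f) :=
  (tensorLeft A).map_zsmul (f := f) (r := m)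

/-- The ideal `(p, v_1, …, v_{n-1})`. -/
def JI (p : ℕ) {L : ℕ → T} (vL : ∀ i, L i ⟶ R) (n : ℕ) (W : T) (a : W ⟶ R) : Prop :=
  ∃ (a₀ : W ⟶ R) (b : ∀ i, W ⟶ R ⊗ L i),
    a = (p : ℤ) • a₀ + ∑ i ∈ Finset.Ico 1 n, b i ≫ mulR (vL i)

section ji

variable {p : ℕ} {L : ℕ → T} {vL : ∀ i, L i ⟶ R} {n : ℕ}

theorem JI.comp {W W' : T} {a : W ⟶ R} (h : JI p vL n W a) (g : W' ⟶ W) :
    JI p vL n W' (g ≫ a) := by
  obtain ⟨a₀, b, rfl⟩ := h
  refine ⟨g ≫ a₀, fun i => g ≫ b i, ?_⟩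
  rw [Preadditive.comp_add, Preadditive.comp_zsmul, Preadditive.comp_sum]
  simp only [Category.assoc]

theorem ji_iso {W W' : T} (e : W' ≅ W) (a : W ⟶ R) :
    JI p vL n W' (e.hom ≫ a) ↔ JI p vL n W a := by
  constructor
  · intro h
    have h1 := h.comp e.inv
    rwa [Iso.inv_hom_id_assoc] at h1
  · intro h
    exact h.comp e.hom

theorem addI_ji (hn : 1 ≤ n) {W : T} (a : W ⟶ R) :
    addI (JI p vL n) (vL n) W a ↔ JI p vL (n + 1) W a := by
  constructor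
  · rintro ⟨b, a₀, b', h⟩
    refine ⟨a₀, fun i => if hi : i = n then b ≫ R ◁ eqToHom (by rw [hi]) else b' i, ?_⟩
    rw [Finset.sum_Ico_succ_top hn, sub_eq_iff_eq_add] at *
    rw [h, add_assoc]
    congr 1
    congr 1
    · refine Finset.sum_congr rfl fun i hi => ?_
      have hi' : i ≠ n := ne_of_lt (Finset.mem_Ico.1 hi).2
      simp only [dif_neg hi']
    · simp
  · rintro ⟨a₀, b, h⟩
    refine ⟨b n, a₀, b, ?_⟩
    rw [h, Finset.sum_Ico_succ_top hn]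
    abel

/-- Independence of the form of the spheres. -/
theorem ji_congr {L' : ℕ → T} {vL' : ∀ i, L' i ⟶ R} (e : ∀ i, L i ≅ L' i)
    (he : ∀ i, 1 ≤ i → i < n → vL i = (e i).hom ≫ vL' i) {W : T} (a : W ⟶ R) :
    JI p vL n W a ↔ JI p vL' n W a := by
  constructor
  · rintro ⟨a₀, b, rfl⟩
    refine ⟨a₀, fun i => b i ≫ R ◁ (e i).hom, ?_⟩
    congr 1
    refine Finset.sum_congr rfl fun i hi => ?_
    rw [he i (Finset.mem_Ico.1 hi).1 (Finset.mem_Ico.1 hi).2, mulR_comp, Category.assoc]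
  · rintro ⟨a₀, b, rfl⟩
    refine ⟨a₀, fun i => b i ≫ R ◁ (e i).inv, ?_⟩
    congr 1
    refine Finset.sum_congr rfl fun i hi => ?_
    rw [he i (Finset.mem_Ico.1 hi).1 (Finset.mem_Ico.1 hi).2, mulR_comp, Category.assoc,
      ← MonoidalCategory.whiskerLeft_comp_assoc, Iso.inv_hom_id, MonoidalCategory.whiskerLeft_id,
      Category.id_comp]

end ji

section base

variable {p : ℕ} {C : T} {i : 𝟙_ T ⟶ C} {δ : C ⟶ (𝟙_ T)⟦(1 : ℤ)⟧}
  (hd : Triangle.mk ((p : ℤ) • 𝟙 (𝟙_ T)) i δ ∈ distTriang T)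

include hd in
/-- The case of `S/p`. -/
theorem gen_base (hreg : ∀ (k : ℤ) (a : (𝟙_ T)⟦k⟧ ⟶ R), (p : ℤ) • a = 0 → a = 0)
    {L : ℕ → T} (vL : ∀ i, L i ⟶ R) : Gen R i (JI p vL 1) where
  surj k y := by
    have hT := tens_dist R hd
    have h0 : (y ≫ tensδ R δ) ≫ (R ◁ ((p : ℤ) • 𝟙 (𝟙_ T)))⟦(1 : ℤ)⟧' = 0 := by
      rw [Category.assoc]
      have := comp_distTriang_mor_zero₃₁ _ hT
      change tensδ R δ ≫ (R ◁ ((p : ℤ) • 𝟙 (𝟙_ T)))⟦(1 : ℤ)⟧' = 0 at this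
      rw [this, comp_zero]
    have h1 : (sh (k - 1) 1 k (by ring)).symm (y ≫ tensδ R δ) = 0 := by
      have h2 : (sh (k - 1) 1 k (by ring)).symm (y ≫ tensδ R δ) ≫ R ◁ ((p : ℤ) • 𝟙 (𝟙_ T)) = 0 := by
        rw [sh_symm_comp, h0, map_zero]
      rw [wl_zsmul, MonoidalCategory.whiskerLeft_id, Preadditive.comp_zsmul,
        Category.comp_id] at h2
      have h3 := hreg (k - 1) ((sh (k - 1) 1 k (by ring)).symm (y ≫ tensδ R δ) ≫ (ρ_ R).hom) (by
        rw [← Preadditive.zsmul_comp, h2, zero_comp])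
      rw [← cancel_mono (ρ_ R).hom, h3, zero_comp]
    rw [AddEquiv.symm_apply_eq, map_zero] at h1
    obtain ⟨x, hx⟩ : ∃ x, y = x ≫ R ◁ i := Triangle.coyoneda_exact₃ _ hT y h1
    exact ⟨x ≫ (ρ_ R).hom, by rw [hx, ux, Category.assoc, Iso.hom_inv_id_assoc]⟩
  ker k a := by
    have hT := tens_dist R hd
    rw [ux, ← Category.assoc]
    constructor
    · intro h1
      obtain ⟨y, hy⟩ : ∃ y, a ≫ (ρ_ R).inv = y ≫ R ◁ ((p : ℤ) • 𝟙 (𝟙_ T)) :=
        Triangle.coyoneda_exact₂ _ hT _ h1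
      refine ⟨y ≫ (ρ_ R).hom, fun _ => 0, ?_⟩
      rw [wl_zsmul, MonoidalCategory.whiskerLeft_id, Preadditive.comp_zsmul,
        Category.comp_id] at hy
      rw [← cancel_mono (ρ_ R).inv, hy]
      simp
    · rintro ⟨a₀, b, rfl⟩
      have h2 : R ◁ ((p : ℤ) • 𝟙 (𝟙_ T)) ≫ R ◁ i = 0 := comp_distTriang_mor_zero₁₂ _ hT
      rw [wl_zsmul, MonoidalCategory.whiskerLeft_id, Preadditive.zsmul_comp,
        Category.id_comp] at h2
      simp only [Finset.Ico_self, Finset.sum_empty, add_zero]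
      rw [Preadditive.zsmul_comp, Preadditive.zsmul_comp, ← Preadditive.comp_zsmul, h2, comp_zero]

end base

section chain

variable {p : ℕ} {w : ℕ → ℤ} {v : ∀ k, (𝟙_ T)⟦2 * w k⟧ ⟶ R}

/-- the classes on the even spheres -/
def vE (v : ∀ k, (𝟙_ T)⟦2 * w k⟧ ⟶ R) (k : ℕ) : (stdEven T).S (w k) ⟶ R := (sphE T (w k)).hom ≫ v k

/-- **The homotopy of `R ⊗ X` for an iterated cofibre `X`.** -/
theorem Chp.gen {n : ℕ} {X : T} {u : 𝟙_ T ⟶ X} (h : Chp p v n X u)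
    (h0 : ∀ (k : ℤ) (a : (𝟙_ T)⟦k⟧ ⟶ R), (p : ℤ) • a = 0 → a = 0)
    (hreg : ∀ i, 1 ≤ i → i < n → ∀ (k : ℤ) (b : (𝟙_ T)⟦k⟧ ⟶ R),
      JI p (vE v) i _ (b ▷ (stdEven T).S (w i) ≫ mulR (vE v i)) → JI p (vE v) i _ b) :
    Gen R u (JI p (vE v) n) := by
  induction h with
  | base u δ hd => exact gen_base hd h0 _
  | step hn h f q δ hd hf ih =>
    rename_i n X u X'
    have h1 := ih fun i hi hi' => hreg i hi (by omega)
    have hf' : ((λ_ _).inv ≫ u ▷ (stdEven T).S (w n) ≫ ((sN T (w n)).hom.app X ≫ f)) ≫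
        unitMap R X = vE v n ≫ ux u R := by
      rw [hur_sN, hf, vE, Category.assoc]
      rfl
    have h2 := h1.step hf' (dist_sN hd) (fun e a => ji_iso e a) (hreg n hn (by omega))
    exact ⟨h2.surj, fun k a => (h2.ker k a).trans (addI_ji hn a)⟩

end chain

end Vale.Agent.P257.V4.K
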