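import Vale.Agent.P257.V4.K.Statement
import Vale.Agent.P257.V4.S.Haz

/-!
# P257, part K: the statement on Hazewinkel's generators
-/

namespace Vale.Agent.P257.V4.K

open Vale.Agent.P217 Vale.Agent.P251.F Vale.Agent.P257.V4.S.Haz

section haz

variable {A K : Type} [CommRing A] [CommRing K]

theorem isHaz_of {p : ℕ} (hp : 2 ≤ p) {φ : A →+* K} {F : FormalGroup A} [hF : F.IsComm]
    {l : ℕ → K} {v : ℕ → A} (h : IsHazewinkel p φ F l v) : IsHaz p φ (⟨F, hF⟩ : Law A) v l where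
  rel := ⟨h.zero, h.rel⟩
  log :=
    { zero := by
        rw [← PowerSeries.coeff_zero_eq_constantCoeff_apply, lser, PowerSeries.coeff_mk]
        refine Finset.sum_eq_zero fun i _ => if_neg ?_
        exact (pow_ne_zero i (by omega)).symm
      unit := by
        have h1 := coeff_lser_pow hp l 0
        rw [pow_zero, h.zero] at h1
        rw [h1]
        exact isUnit_one
      add := h.log }

theorem idl_eq_hI (p : ℕ) (v : ℕ → A) {n : ℕ} (hn : 0 < n) : idl p n v = hI p v n := by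
  rw [idl, hI]
  congr 1
  ext x
  constructor
  · rintro (rfl | ⟨i, hi, hin, rfl⟩)
    · exact ⟨0, hn, if_pos rfl⟩
    · exact ⟨i, hin, if_neg (by omega)⟩
  · rintro ⟨i, hi, rfl⟩
    rcases Nat.eq_zero_or_pos i with rfl | hi0
    · exact Or.inl (if_pos rfl)
    · exact Or.inr ⟨i, hi0, hi, if_neg (by omega)⟩

theorem idl_eq_Ih {p : ℕ} (F : Law A) {n : ℕ} (hn : 0 < n) :
    (idl p n fun i => PowerSeries.coeff (p ^ i) (multSeries F.toFG p)) = Ih p n F := by
  rw [idl, Ih]
  congr 1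
  ext x
  constructor
  · rintro (rfl | ⟨i, hi, hin, rfl⟩)
    · exact ⟨0, hn, vv_zero p F⟩
    · exact ⟨i, hin, rfl⟩
  · rintro ⟨i, hi, rfl⟩
    rcases Nat.eq_zero_or_pos i with rfl | hi0
    · exact Or.inl (vv_zero p F)
    · exact Or.inr ⟨i, hi0, hi, rfl⟩

theorem hazStatement : HazStatement := by
  intro A K _ _ φ F hF p l v hφ hp h n hn
  rw [idl_eq_hI p v hn, ← (isHaz_of hp h).Ih_eq hφ hp n]
  exact (idl_eq_Ih (⟨F, hF⟩ : Law A) hn).symm

end haz

end Vale.Agent.P257.V4.K
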