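import Vale.Agent.P257.V4.K.PSer3
import Vale.Agent.P257.V4.E.Step

/-!
# P257, part K: `InI` as membership in an ideal of the homotopy ring

* `hI e p n v` : the ideal `(p, v_1, …, v_{n-1})` of `HRing`;
* `inI_iff` : for `a : W ⟶ R` and `g : S^{2w} ≅ W`, `InI p n v a ↔ [g a] ∈ hI e p n v`.
-/

open CategoryTheory MonoidalCategory OnePoint Topology Limits Pretriangulated Matrix MonObj

set_option linter.unusedSectionVars false

universe v' u'

noncomputable section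

namespace Vale.Agent.P257.V4.K

open Vale.Agent.P251 Vale.Agent.P251.St Vale.Agent.P251.G Vale.Agent.P251.G.LC
open Vale.Agent.P251.I Vale.Agent.P251.M Vale.Agent.P251.M.EvenSpheres Vale.Agent.P251.F
  Vale.Agent.P217 Vale.Agent.P251.S

/-! ### Algebra -/

section alg

theorem mem_span_pair {H : Type*} [CommRing H] (p : ℕ) (n : ℕ) (y : ℕ → H) {x : H}
    (hx : x ∈ Ideal.span ({(p : H)} ∪ {z | ∃ i, 0 < i ∧ i < n ∧ z = y i})) :
    ∃ (x₀ : H) (x' : ℕ → H), x = p * x₀ + ∑ i ∈ Finset.Ico 1 n, x' i * y i := by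
  classical
  refine Submodule.span_induction (p := fun x _ => ∃ (x₀ : H) (x' : ℕ → H),
    x = p * x₀ + ∑ i ∈ Finset.Ico 1 n, x' i * y i) ?_ ?_ ?_ ?_ hx
  · rintro z (hz | ⟨i, hi, hi', rfl⟩)
    · refine ⟨1, fun _ => 0, ?_⟩
      rw [Set.mem_singleton_iff.mp hz]
      simp
    · refine ⟨0, fun j => if j = i then 1 else 0, ?_⟩
      rw [mul_zero, zero_add, Finset.sum_eq_single i]
      · simp
      · intro j _ hj
        simp [hj]
      · intro h
        exact absurd (Finset.mem_Ico.mpr ⟨hi, hi'⟩) h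
  · exact ⟨0, fun _ => 0, by simp⟩
  · rintro a b _ _ ⟨x₀, x', rfl⟩ ⟨y₀, y', rfl⟩
    refine ⟨x₀ + y₀, fun i => x' i + y' i, ?_⟩
    simp only [add_mul, Finset.sum_add_distrib]
    ring
  · rintro c a _ ⟨x₀, x', rfl⟩
    refine ⟨c * x₀, fun i => c * x' i, ?_⟩
    rw [smul_eq_mul, mul_add, Finset.mul_sum]
    congr 1
    · ring
    · exact Finset.sum_congr rfl fun i _ => by ring

end alg

section comp

variable {T : Type u'} [Category.{v'} T] [Preadditive T] [MonoidalCategory T]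
  [SymmetricCategory T] [MonoidalPreadditive T] {E : EvenSpheres T} {R : T} [MonObj R]
  [IsCommMonObj R]

theorem gmul_add_left {m n p : ℤ} (h : m + n = p) (a a' : E.S m ⟶ R) (b : E.S n ⟶ R) :
    gmul h (a + a') b = gmul h a b + gmul h a' b := by
  unfold gmul
  rw [ext_add_left, Preadditive.add_comp]

theorem gmul_zero_left {m n p : ℤ} (h : m + n = p) (b : E.S n ⟶ R) :
    gmul h (0 : E.S m ⟶ R) b = 0 := by
  unfold gmul
  rw [ext_zero_left, zero_comp]

/-- The homogeneous components of a product with a homogeneous element. -/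
theorem mul_of_apply {j k w : ℤ} (h : j + k = w) (x : HRing E R) (b : E.S k ⟶ R) :
    (x * HRing.of E R k b : HRing E R) w = gmul h (x j) b := by
  classical
  induction x using DirectSum.induction_on with
  | zero =>
    rw [zero_mul, DirectSum.zero_apply, DirectSum.zero_apply, gmul_zero_left]
  | add x y hx hy =>
    rw [add_mul, DirectSum.add_apply, DirectSum.add_apply, hx, hy, gmul_add_left]
  | of i c =>
    change (HRing.of E R i c * HRing.of E R k b : HRing E R) w = gmul h (HRing.of E R i c j) b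
    by_cases hij : i = j
    · subst hij
      rw [of_mul_of h]
      refine (DirectSum.of_eq_same _ _).trans ?_
      congr 1
      exact (DirectSum.of_eq_same (β := E.Gr R) i c).symm
    · rw [of_mul_of rfl]
      refine (DirectSum.of_eq_of_ne _ _ _ (fun h' => hij (by omega))).trans ?_
      have h2 : (HRing.of E R i c : HRing E R) j = 0 :=
        DirectSum.of_eq_of_ne (β := E.Gr R) _ _ _ (fun h' => hij h'.symm)
      rw [h2, gmul_zero_left]

end comp

/-! ### The ideal -/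

section ideal

variable {T : SHCat} {S : Susp T} {R : RingSp T}
  (e : S.toSpaceFunctor.S.obj CCF ≅ (stdEven T.C).L)

/-- The identification `S(ℂ^k) ≅ S^{2k}`. -/
def sgS (k : ℕ) : S.obj (St.Cn k) ≅ (stdEven T.C).S (k : ℤ) :=
  (asIso (Z.sph e k) : Z.SC S.toSpaceFunctor k ≅ (stdEven T.C).S (k : ℤ))

/-- The element of the homotopy ring given by `v : S^{2k} ⟶ R`. -/
def vh {k : ℕ} (v : SHCat.Hom (S.obj (St.Cn k)) R.obj) : HRing (stdEven T.C) R.obj :=
  HRing.of (stdEven T.C) R.obj (k : ℤ) ((sgS e k).inv ≫ v)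

/-- The ideal `(p, v_1, …, v_{n-1})` of the homotopy ring. -/
def hI (p n : ℕ) (v : ∀ k : ℕ, SHCat.Hom (S.obj (St.Cn k)) R.obj) :
    Ideal (HRing (stdEven T.C) R.obj) :=
  Ideal.span ({(p : HRing (stdEven T.C) R.obj)} ∪
    {z | ∃ i, 0 < i ∧ i < n ∧ z = vh e (v (p ^ i - 1))})

variable {e}

theorem of_comp_mulBy {w : ℤ} {W : T.C} (g : (stdEven T.C).S w ≅ W) {k : ℕ}
    (a : SHCat.Hom W (SHCat.ten R.obj (S.obj (St.Cn k)))) (v : SHCat.Hom (S.obj (St.Cn k)) R.obj) :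
    ∃ x : HRing (stdEven T.C) R.obj,
      HRing.of (stdEven T.C) R.obj w (g.hom ≫ SHCat.comp a (mulBy v)) = x * vh e v := by
  have h : (w - k) + (k : ℤ) = w := by ring
  obtain ⟨b, hb⟩ := E.exists_desusp h (g.hom ≫ a ≫ (R.obj ◁ (sgS e k).hom))
  refine ⟨HRing.of _ _ (w - k) b, ?_⟩
  rw [vh, of_mul_of h]
  congr 1
  have h1 : SHCat.comp a (mulBy v) =
      (a ≫ (R.obj ◁ (sgS e k).hom)) ≫ (R.obj ◁ ((sgS e k).inv ≫ v)) ≫ μ[R.obj] := by
    change a ≫ (𝟙 R.obj ⊗ₘ v) ≫ μ[R.obj] = _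
    rw [Category.assoc, ← whiskerLeft_comp_assoc, Iso.hom_inv_id_assoc, id_tensorHom]
  rw [h1, ← Category.assoc, hb, gmul, EvenSpheres.ext, Category.assoc, ← tensorHom_def_assoc,
    Category.assoc]

theorem exists_comp_mulBy {w j : ℤ} {W : T.C} (g : (stdEven T.C).S w ≅ W) {k : ℕ}
    (h : j + k = w) (b : (stdEven T.C).S j ⟶ R.obj) (v : SHCat.Hom (S.obj (St.Cn k)) R.obj) :
    ∃ a : SHCat.Hom W (SHCat.ten R.obj (S.obj (St.Cn k))),
      g.hom ≫ SHCat.comp a (mulBy v) = gmul h b ((sgS e k).inv ≫ v) := by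
  refine ⟨g.inv ≫ ((stdEven T.C).mu j k w h).inv ≫ (b ⊗ₘ (sgS e k).inv), ?_⟩
  change g.hom ≫ (g.inv ≫ ((stdEven T.C).mu j k w h).inv ≫ (b ⊗ₘ (sgS e k).inv)) ≫
    (𝟙 R.obj ⊗ₘ v) ≫ μ[R.obj] = _
  rw [Category.assoc, Category.assoc, Iso.hom_inv_id_assoc, tensorHom_comp_tensorHom_assoc,
    Category.comp_id, gmul, EvenSpheres.ext, Category.assoc]

theorem of_zmul {w : ℤ} (p : ℕ) (a : (stdEven T.C).S w ⟶ R.obj) :
    HRing.of (stdEven T.C) R.obj w ((p : ℤ) • a) =
      (p : HRing (stdEven T.C) R.obj) * HRing.of (stdEven T.C) R.obj w a := by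
  refine ((DirectSum.of ((stdEven T.C).Gr R.obj) w).map_zsmul (p : ℤ) a).trans ?_
  rw [zsmul_eq_mul, Int.cast_natCast]

theorem natCast_mul_apply {w : ℤ} (p : ℕ) (x : HRing (stdEven T.C) R.obj) :
    ((p : HRing (stdEven T.C) R.obj) * x : HRing (stdEven T.C) R.obj) w = (p : ℤ) • x w := by
  rw [← Int.cast_natCast, ← zsmul_eq_mul]
  exact DirectSum.smul_apply (p : ℤ) x w

/-- **`InI` is membership in the ideal.** -/
theorem inI_iff {p n : ℕ} {v : ∀ k : ℕ, SHCat.Hom (S.obj (St.Cn k)) R.obj} {w : ℤ} {W : T.C}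
    (g : (stdEven T.C).S w ≅ W) (a : SHCat.Hom W R.obj) :
    InI p n v a ↔ HRing.of (stdEven T.C) R.obj w (g.hom ≫ a) ∈ hI e p n v := by
  constructor
  · rintro ⟨a₀, a', ha⟩
    have h1 : g.hom ≫ a = (p : ℤ) • (g.hom ≫ a₀) +
        ∑ i ∈ Finset.Ico 1 n, g.hom ≫ SHCat.comp (a' i) (mulBy (v (p ^ i - 1))) := by
      rw [ha, Preadditive.comp_add, Preadditive.comp_zsmul, Preadditive.comp_sum]
    rw [h1]
    have h2 : HRing.of (stdEven T.C) R.obj w ((p : ℤ) • (g.hom ≫ a₀) +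
        ∑ i ∈ Finset.Ico 1 n, g.hom ≫ SHCat.comp (a' i) (mulBy (v (p ^ i - 1)))) =
        HRing.of (stdEven T.C) R.obj w ((p : ℤ) • (g.hom ≫ a₀)) +
        ∑ i ∈ Finset.Ico 1 n, HRing.of (stdEven T.C) R.obj w
          (g.hom ≫ SHCat.comp (a' i) (mulBy (v (p ^ i - 1)))) := by
      refine ((DirectSum.of ((stdEven T.C).Gr R.obj) w).map_add _ _).trans ?_
      congr 1
      exact map_sum (DirectSum.of ((stdEven T.C).Gr R.obj) w) _ _
    rw [h2, of_zmul]
    refine add_mem (Ideal.mul_mem_right _ _ (Ideal.subset_span (Or.inl rfl)))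
      (sum_mem fun i hi => ?_)
    obtain ⟨x, hx⟩ := of_comp_mulBy (e := e) g (a' i) (v (p ^ i - 1))
    rw [hx]
    have h3 := Finset.mem_Ico.mp hi
    exact Ideal.mul_mem_left _ _ (Ideal.subset_span (Or.inr ⟨i, h3.1, h3.2, rfl⟩))
  · intro h
    obtain ⟨x₀, x', hx⟩ := mem_span_pair p n (fun i => vh e (v (p ^ i - 1))) h
    have h1 : ∀ i : ℕ, ∃ a' : SHCat.Hom W (SHCat.ten R.obj (S.obj (St.Cn (p ^ i - 1)))),
        g.hom ≫ SHCat.comp a' (mulBy (v (p ^ i - 1))) =
          (x' i * vh e (v (p ^ i - 1)) : HRing (stdEven T.C) R.obj) w := by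
      intro i
      have h2 : (w - (p ^ i - 1 : ℕ)) + ((p ^ i - 1 : ℕ) : ℤ) = w := by ring
      obtain ⟨a', ha'⟩ := exists_comp_mulBy (e := e) g h2 (x' i (w - (p ^ i - 1 : ℕ)))
        (v (p ^ i - 1))
      exact ⟨a', ha'.trans (mul_of_apply h2 _ _).symm⟩
    choose a' ha' using h1
    refine ⟨g.inv ≫ x₀ w, a', ?_⟩
    have h3 : g.hom ≫ a = (p : ℤ) • (x₀ w) +
        ∑ i ∈ Finset.Ico 1 n, g.hom ≫ SHCat.comp (a' i) (mulBy (v (p ^ i - 1))) := by
      have h4 := congrArg (fun x : HRing (stdEven T.C) R.obj => x w) hx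
      have h5 : (HRing.of (stdEven T.C) R.obj w (g.hom ≫ a) : HRing (stdEven T.C) R.obj) w =
          g.hom ≫ a := DirectSum.of_eq_same _ _
      rw [← h5]
      refine h4.trans ?_
      rw [DirectSum.add_apply, natCast_mul_apply]
      congr 1
      refine (DFinsupp.finsetSum_apply _ _ _).trans ?_
      exact Finset.sum_congr rfl fun i _ => (ha' i).symm
    rw [← cancel_epi g.hom, h3]
    simp only [Preadditive.comp_add, Preadditive.comp_zsmul, Preadditive.comp_sum,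
      Iso.hom_inv_id_assoc]

end ideal

end Vale.Agent.P257.V4.K
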