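import Vale.Agent.P257.V4.K.V4
import Vale.Agent.P257.V4.K.LFin
import Vale.Agent.P257.V4.L.Hb
import Vale.Agent.P257.V4.L.Adapt5
import Vale.Agent.P257.V4.B.SpjL

/-!
# P257, part K: the input (L) of `exists_V4` from `L.leib_final` and `L.hb_of`
-/

open CategoryTheory MonoidalCategory Limits Pretriangulated MonObj

set_option linter.unusedSectionVars false

universe v u

namespace Vale.Agent.P257.V4.K

open Vale.Agent.P251.T Vale.Agent.P251.M Vale.Agent.P251.S Vale.Agent.P251.F Vale.Agent.P251.I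
  Vale.Agent.P257.V4.A Vale.Agent.P257.V4.E Vale.Agent.P257.V4.O Vale.Agent.P257.V4.B
  Vale.Agent.P257.V4.T

variable {T : Type u} [Category.{v} T] [Preadditive T] [HasZeroObject T]
    [HasShift T ℤ] [∀ n : ℤ, (shiftFunctor T n).Additive] [Pretriangulated T] [IsTriangulated T]
    [MonoidalCategory T] [SymmetricCategory T] [TensorTriangulated T] [MonoidalClosed T]
    [HasCoproducts.{0} T] [HasProducts.{0} T] [StableCat T]

variable {D : MUData T} {p : ℕ} [hp : Fact p.Prime] {b : BData D p}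

/-- The input (L) of `exists_V4`. -/
theorem inL_chk (U : UnitCof b.obj) (h11 : 11 ≤ p) (hlow : OutLow p) (hF2 : OutF2 p) {X : T} {u : 𝟙_ T ⟶ X}
    {m : X ⊗ X ⟶ X} (h : IVb b 4 u) (hm : (u ▷ X) ≫ m = (λ_ X).hom)
    (hS : L.SPJ U X ((2 * p - 2 : ℕ) : ℤ)) (hC : L.CONJ U X ((2 * p - 2 : ℕ) : ℤ)) :
    InL b U u := by
  intro s hs y hy
  have hs' : 2 * p - 2 = s + 1 := hs.symm
  have hwv : 2 * wv p 4 = ((2 * p - 2 : ℕ) : ℤ) * Ch.N p 4 := two_wv 4
  have hwa : 2 * wa p = ((2 * p - 2 : ℕ) : ℤ) * (p : ℤ) ^ 4 := by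
    rw [wa]
    push_cast [Nat.cast_sub (show 2 ≤ 2 * p by omega)]
    ring
  have hmm : (2 * wv p 4 - 1) + ((s + 2 : ℕ) : ℤ) = 2 * (((p : ℤ) - 1) * (Ch.N p 4 + 1 : ℕ)) := by
    have h1 : ((s + 2 : ℕ) : ℤ) = 2 * p - 1 := by omega
    rw [h1, two_wv 4, two_mul_wt hp.out.one_lt.le]
    push_cast [Nat.cast_sub (show 2 ≤ 2 * p by omega)]
    ring
  have hda : cobK.d 1 (wa p) (za p) ∈ b.rmod.kx u 2 (wa p) := by
    rw [h.iv.ker]
    exact d_za_mem p
  have hdv : cobK.d 0 (wv p 4) (zv p 4) ∈ b.rmod.kx u 1 (wv p 4) := by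
    rw [h.iv.ker]
    exact d_zv_mem p
  have h5 : cobK.d 0 (wv p 5) (zv p 5) +
      cobK.mulw (wv_add_wa p) (cobK.mapw (fun _ => 0) (wv p 4) (zv p 4)) (za p) ∈
        b.rmod.kx u 1 (wv p 5) := by
    rw [h.iv.ker]
    exact d_zv_add p
  have ha : b.rmod.qX U u 1 (wa p) (za p) ≫ U.cobar.D 1 X = 0 := by
    rw [← RMod.qX_d, RMod.qX_apply, RMod.cX_apply, (RMod.mem_kx b.rmod).1 hda, zero_comp,
      zero_comp]
  rw [hs'] at hS hC
  obtain ⟨o', f, hf⟩ := L.leib_final U hm s (by omega) hS hC m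
    (wa := wa p) (wo := ((p : ℤ) - 1) * (Ch.N p 4 + 1 : ℕ)) (wv := wv p 4)
    (wb := wa p + ((p : ℤ) - 1)) (w := wa p + ((p : ℤ) - 1) * (Ch.N p 4 + 1 : ℕ)) rfl
    (by rw [wv]; push_cast; ring)
    (by rw [hwa, ← hs']; exact Dvd.intro _ rfl) (by rw [hwv, ← hs']; exact Dvd.intro _ rfl)
    (b.rmod.qX U u 0 (wv p 4) (zv p 4)) (b.rmod.qX U u 1 (wa p) (za p)) ha _
    (L.hb_of b.rmod U hm (wv_add_wa p) h5) hmm (l := 2 * wv p 4 - 1) (by push_cast; ring) y
    (by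
      rw [hy, dT_k U X (𝟙_ T) em_v4 e0_v4 (by push_cast; ring), eT_clE, Category.assoc]
      rfl)
  refine isCobdy_of_leib U u hp.out.two_le h.iv.xm (h.cmpX hlow (by norm_num)) hF2 hs hmm
    (chM_za p) hda (chM_zv p 4) hdv rfl (by rw [wv]; push_cast; ring) y ?_ ?_ o' f hf
  · have h1 : ux u X ≫ (β_ X X).hom ≫ m = 𝟙 X := by
      unfold ux
      rw [Category.assoc, BraidedCategory.braiding_naturality_right_assoc, hm,
        braiding_leftUnitor, Iso.inv_hom_id]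
    rw [h1, Category.comp_id]
  · unfold ux
    rw [Category.assoc, rightUnitor_inv_naturality_assoc, ← whisker_exchange_assoc, hm,
      leftUnitor_naturality, unitors_equal, Iso.inv_hom_id_assoc]

end Vale.Agent.P257.V4.K
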