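import Vale.Agent.P257.V4.K.Final
import Vale.Agent.P257.V4.T.T1Main

/-!
# P257, part K: the input `InT` of the final assembly

`inT` : the relation `α₁ β₁ ^ p = 0` in `S/p` for the retract `B` of `MU`.
-/

open CategoryTheory MonoidalCategory OnePoint Topology Limits Pretriangulated Matrix MonObj

set_option linter.unusedSectionVars false

noncomputable section

namespace Vale.Agent.P257.V4.K

open Vale.Agent.P251 Vale.Agent.P251.St Vale.Agent.P251.G Vale.Agent.P251.G.LC
open Vale.Agent.P251.I Vale.Agent.P251.M Vale.Agent.P251.F Vale.Agent.P217 Vale.Agent.P251.S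
open Vale.Agent.P257.V4.A Vale.Agent.P257.V4.E Vale.Agent.P257.V4.O Vale.Agent.P257.V4.B
open Vale.Agent.P257.V4.T

theorem inT {T : SHCat} (S : Susp T) {p : ℕ} [hp : Fact p.Prime] (hp2 : p ≠ 2)
    {e : S.toSpaceFunctor.S.obj CCF ≅ (stdEven T.C).L}
    (M : MUMon S.toSpaceFunctor (stdEven T.C) e) (bb : MUBasis M.V)
    (b : BData (M.data bb) p) (U : UnitCof b.obj) : InT b U := by
  obtain ⟨t, ht⟩ := Vale.Agent.P251.F.T1 p
  obtain ⟨Z, -⟩ := exists_T0D_of (M.data bb) b.u U hp2 ht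
  exact ⟨Z, fun Sp ip δp hS => mulPow_b e M.ori (fun _ _ => rfl) b hS Z hp2 M.fam⟩

end Vale.Agent.P257.V4.K
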