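import Vale.Agent.P257.V4.E.Step
import Vale.Agent.P257.V4.K.CosCup

/-!
# P257, part K: the kernels `kx` form a cosimplicial ideal

`InK E u s w x` : `x ∈ K.A s` is homogeneous of weight `w` and zero on `X`.
-/

open CategoryTheory MonoidalCategory Limits Pretriangulated MonObj

set_option linter.unusedSectionVars false

universe v u

namespace Vale.Agent.P257.V4.K

open Vale.Agent.P251.T Vale.Agent.P251.M Vale.Agent.P251.S Vale.Agent.P257.V4.E
open Vale.Agent.P257.V4.A.Ch (front back)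

variable {T : Type u} [Category.{v} T] [Preadditive T] [HasZeroObject T]
    [HasShift T ℤ] [∀ n : ℤ, (shiftFunctor T n).Additive] [Pretriangulated T]
    [MonoidalCategory T] [SymmetricCategory T] [TensorTriangulated T] [HasCoproducts.{0} T]
    {K : CosR} {R : T} [MonObj R] [IsCommMonObj R] (E : RMod K R) {X : T} (u : 𝟙_ T ⟶ X)

theorem evX_mulw {s : ℕ} {w v w' : ℤ} (h : w + v = w') (x : K.wt s w) (y : K.wt s v) :
    E.evX u s w' (K.mulw h x y) = (stdEven T).ext h (E.evw s w x) (E.evX u s v y) ≫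
      (α_ (Am R (s + 1)) (Am R (s + 1)) X).inv ≫ μ[Am R (s + 1)] ▷ X := by
  rw [RMod.evX_apply, RMod.evw_mul, EvenSpheres.gmul, RMod.evX_apply,
    EvenSpheres.ext_comp_right, Category.assoc, Category.assoc, ← ux_nat, ← whiskerLeft_ux u,
    Category.assoc]

theorem mulw_mem_right {s : ℕ} {w v w' : ℤ} (h : w + v = w') (x : K.wt s w) {y : K.wt s v}
    (hy : y ∈ E.kx u s v) : K.mulw h x y ∈ E.kx u s w' := by
  rw [RMod.mem_kx, evX_mulw, (E.mem_kx).1 hy, EvenSpheres.ext_zero_right, zero_comp]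

theorem mapw_mem {m n : ℕ} (α : Fin (m + 1) → Fin (n + 1)) {w : ℤ} {x : K.wt m w}
    (hx : x ∈ E.kx u m w) : K.mapw α w x ∈ E.kx u n w := by
  rw [RMod.mem_kx, RMod.evX_map, (E.mem_kx).1 hx, zero_comp]

/-- `x ∈ K.A s` is homogeneous of weight `w` and zero on `X`. -/
def InK (s : ℕ) (w : ℤ) (x : K.A s) : Prop := ∃ h : x ∈ K.wt s w, (⟨x, h⟩ : K.wt s w) ∈ E.kx u s w

variable {E u}

theorem inK_iff {s : ℕ} {w : ℤ} {x : K.wt s w} : InK E u s w x.1 ↔ x ∈ E.kx u s w :=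
  ⟨fun ⟨_, h⟩ => h, fun h => ⟨x.2, h⟩⟩

theorem InK.mem {s : ℕ} {w : ℤ} {x : K.A s} (h : InK E u s w x) : x ∈ K.wt s w := h.1

theorem InK.add {s : ℕ} {w : ℤ} {x y : K.A s} (hx : InK E u s w x) (hy : InK E u s w y) :
    InK E u s w (x + y) := by
  obtain ⟨h, hx⟩ := hx
  obtain ⟨h', hy⟩ := hy
  exact ⟨add_mem h h', add_mem hx hy⟩

theorem InK.neg {s : ℕ} {w : ℤ} {x : K.A s} (hx : InK E u s w x) : InK E u s w (-x) := by
  obtain ⟨h, hx⟩ := hx
  exact ⟨neg_mem h, neg_mem hx⟩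

theorem InK.sub {s : ℕ} {w : ℤ} {x y : K.A s} (hx : InK E u s w x) (hy : InK E u s w y) :
    InK E u s w (x - y) := by
  rw [sub_eq_add_neg]
  exact hx.add hy.neg

theorem inK_zero (s : ℕ) (w : ℤ) : InK E u s w 0 := ⟨zero_mem _, zero_mem _⟩

theorem InK.zsmul {s : ℕ} {w : ℤ} {x : K.A s} (k : ℤ) (hx : InK E u s w x) :
    InK E u s w (k • x) := by
  obtain ⟨h, hx⟩ := hx
  exact ⟨zsmul_mem h k, zsmul_mem hx k⟩

theorem InK.map {m n : ℕ} (α : Fin (m + 1) → Fin (n + 1)) {w : ℤ} {x : K.A m}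
    (hx : InK E u m w x) : InK E u n w (K.map α x) := by
  obtain ⟨h, hx⟩ := hx
  exact ⟨K.map_mem α h, mapw_mem E u α hx⟩

theorem InK.mul_right {s : ℕ} {w v w' : ℤ} (h : w + v = w') {x y : K.A s} (hx : x ∈ K.wt s w)
    (hy : InK E u s v y) : InK E u s w' (x * y) := by
  obtain ⟨h', hy⟩ := hy
  subst h
  exact ⟨K.mul_mem hx h', mulw_mem_right E u rfl ⟨x, hx⟩ hy⟩

theorem InK.mul_left {s : ℕ} {w v w' : ℤ} (h : w + v = w') {x y : K.A s} (hx : InK E u s w x)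
    (hy : y ∈ K.wt s v) : InK E u s w' (x * y) := by
  rw [mul_comm]
  exact hx.mul_right (by rw [add_comm]; exact h) hy

theorem cupc_mem {a b n : ℕ} (h : a + b = n) {w v w' : ℤ} (hw : w + v = w') {x : K.A a}
    {y : K.A b} (hx : x ∈ K.wt a w) (hy : y ∈ K.wt b v) : cupc K h x y ∈ K.wt n w' := by
  subst hw
  exact K.mul_mem (K.map_mem _ hx) (K.map_mem _ hy)

theorem InK.cup_left {a b n : ℕ} (h : a + b = n) {w v w' : ℤ} (hw : w + v = w') {x : K.A a}
    {y : K.A b} (hx : InK E u a w x) (hy : y ∈ K.wt b v) : InK E u n w' (cupc K h x y) :=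
  (hx.map _).mul_left hw (K.map_mem _ hy)

theorem InK.cup_right {a b n : ℕ} (h : a + b = n) {w v w' : ℤ} (hw : w + v = w') {x : K.A a}
    {y : K.A b} (hx : x ∈ K.wt a w) (hy : InK E u b v y) : InK E u n w' (cupc K h x y) :=
  (hy.map _).mul_right hw (K.map_mem _ hx)

/-- The cup product of cocycles modulo `kx` is a cocycle modulo `kx`. -/
theorem inK_dd_cup {a b n : ℕ} (h : a + b = n) {w v w' : ℤ} (hw : w + v = w') {x : K.A a}
    {y : K.A b} (hx : x ∈ K.wt a w) (hy : y ∈ K.wt b v) (hdx : InK E u (a + 1) w (K.dd a x))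
    (hdy : InK E u (b + 1) v (K.dd b y)) : InK E u (n + 1) w' (K.dd n (cupc K h x y)) := by
  rw [dd_cup]
  exact (hdx.cup_left _ hw hy).add ((InK.cup_right _ hw hx hdy).zsmul _)

theorem inK_dd_iff {s : ℕ} {w : ℤ} {x : K.wt s w} :
    InK E u (s + 1) w (K.dd s x.1) ↔ K.d s w x ∈ E.kx u (s + 1) w := by
  rw [← inK_iff, CosR.coe_d]

theorem d_cupw_mem {a b : ℕ} {w v w' : ℤ} (h : w + v = w') {x : K.wt a w} {y : K.wt b v}
    (hx : K.d a w x ∈ E.kx u (a + 1) w) (hy : K.d b v y ∈ E.kx u (b + 1) v) :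
    K.d (a + b) w' (K.cupw h x y) ∈ E.kx u (a + b + 1) w' := by
  rw [← inK_dd_iff, coe_cupw]
  exact inK_dd_cup rfl h x.2 y.2 (inK_dd_iff.2 hx) (inK_dd_iff.2 hy)

end Vale.Agent.P257.V4.K
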