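import Vale.Agent.P257.V4.K.CmpInst
import Vale.Agent.P257.V4.B.Classes

/-!
# P257, part K: the algebraic data of the Leibniz argument

`za p` is the cocycle `t₁^{p^4} - v₄^{p-1} t₁` (modulo `(p, v₁, v₂, v₃)`), which becomes `h_{1,4}` in
`Ch p`, and `d v₅ = - v₄ · za`.
-/

set_option linter.unusedSectionVars false

namespace Vale.Agent.P257.V4.K

open Vale.Agent.P251.F Vale.Agent.P257.V4.A Vale.Agent.P257.V4.E Vale.Agent.P257.V4.B

variable (p : ℕ) [hp : Fact p.Prime]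

theorem mem_In {n s : ℕ} {w : ℤ} {z : cobK.wt s w} :
    z ∈ In p n s w ↔ toNB p s z.1 ∈ NB.I p (n - 1) s := Iff.rfl

/-- The weight of `za`. -/
def wa : ℤ := ((p : ℤ) - 1) * (p : ℤ) ^ 4

theorem wa_eq : wa p = (((p - 1) * p ^ (3 + 1) : ℕ) : ℤ) := by
  rw [wa, Nat.cast_mul, Nat.cast_sub hp.out.one_lt.le, Nat.cast_pow, Nat.cast_one]

/-- `t₁^{p^4} - v₄^{p-1} t₁` -/
noncomputable def za : cobK.wt 1 (wa p) := ⟨aL p 3, by
  rw [wa_eq]
  exact isWt_aL 3⟩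

theorem coe_d {s : ℕ} {w : ℤ} (z : cobK.wt s w) : (cobK.d s w z).1 = Cob.d s z.1 :=
  (cobK.coe_d s w z).trans (cobK_dd s z.1)

theorem d_za_mem : cobK.d 1 (wa p) (za p) ∈ In p 4 2 (wa p) := by
  rw [mem_In, coe_d]
  exact toNB_d_aL_mem_I 3

theorem chM_za : (chM p).φ 1 (za p).1 = Ch.h p 1 4 := by
  have h1 : toNB p 1 (za p).1 = aN p 3 := toNB_aL 3
  rw [chM_apply, h1, aN, map_sub, map_mul, map_pow, map_pow, toCh_v, toCh_t,
    zero_pow (by have := hp.out.two_le; omega), zero_mul, sub_zero]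
  have h2 : Ch.t p 1 = MvPolynomial.X ((0 : Fin 1), 0) := by
    rw [Ch.t]
    change ((Ch.univ p 1).g (0 : Fin 1).succ).a 1 = _
    rw [Ch.univ_g_succ, G.mk_a_succ]
  rw [Ch.h, h2]

theorem chM_zv (k : ℕ) : (chM p).φ 0 (zv p k).1 = 0 := by
  rw [chM_apply]
  cases k with
  | zero =>
    have h : toNB p 0 (zv p 0).1 = 0 := nbS_zero p
    rw [h, map_zero]
  | succ k =>
    have h : toNB p 0 (zv p (k + 1)).1 = NB.v k := toNB_v k
    rw [h, toCh_v]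

theorem d_zv_mem : cobK.d 0 (wv p 4) (zv p 4) ∈ In p 4 1 (wv p 4) :=
  (ktowLaz p 5).coc 4 (by norm_num) (by norm_num)

theorem wv_add_wa : wv p 4 + wa p = wv p 5 := by
  have h : Ch.N p 5 = Ch.N p 4 + p ^ 4 := by
    rw [Ch.N, Ch.N, Finset.sum_range_succ]
  rw [wv, wv, wa, h]
  push_cast
  ring

/-- `d v₅ = - v₄ a`. -/
theorem d_zv_add : cobK.d 0 (wv p 5) (zv p 5) +
    cobK.mulw (wv_add_wa p) (cobK.mapw (fun _ => 0) (wv p 4) (zv p 4)) (za p) ∈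
      In p 4 1 (wv p 5) := by
  rw [mem_In]
  have h1 : ((cobK.d 0 (wv p 5) (zv p 5) +
      cobK.mulw (wv_add_wa p) (cobK.mapw (fun _ => 0) (wv p 4) (zv p 4)) (za p) :
        cobK.wt 1 (wv p 5))).1 = Cob.d 0 (vL p 0 (3 + 1)) +
      Cob.map (fun _ => 0) (vL p 0 3) * aL p 3 := by
    rw [AddSubgroup.coe_add, coe_d]
    rfl
  rw [h1]
  have h2 : toNB p 1 (Cob.map (fun _ => 0) (vL p 0 3) - vL p 1 3) ∈ NB.I p 3 1 :=
    toNB_map_vL_mem _ 3 _ fun j hj => NB.v_mem_I hj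
  have h3 := toNB_d_vL_mem_I (p := p) 3
  have h4 : toNB p 1 (Cob.d 0 (vL p 0 (3 + 1)) + Cob.map (fun _ => 0) (vL p 0 3) * aL p 3) =
      toNB p 1 (Cob.d 0 (vL p 0 (3 + 1)) + vL p 1 3 * aL p 3) +
        toNB p 1 (Cob.map (fun _ => 0) (vL p 0 3) - vL p 1 3) * toNB p 1 (aL p 3) := by
    rw [← map_mul, ← map_add]
    congr 1
    ring
  rw [h4]
  exact add_mem h3 (Ideal.mul_mem_right _ _ h2)

end Vale.Agent.P257.V4.K
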