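import Vale.Agent.P257.V4.L.Adapt3
import Vale.Agent.P257.V4.E.CupX
import Vale.Agent.P257.V4.E.CupD
import Vale.Agent.P257.V4.O.Chain

/-!
# P257, part K: the Leibniz rule in the form of the products `pE`

`pE_leib` : the equation of `leib_tow` as an equation of products `pE`.
-/

open CategoryTheory MonoidalCategory Limits Pretriangulated MonObj

set_option linter.unusedSectionVars false

universe v u

namespace Vale.Agent.P257.V4.K

open Vale.Agent.P251.T Vale.Agent.P251.M Vale.Agent.P251.S Vale.Agent.P257.V4.E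
  Vale.Agent.P257.V4.O Vale.Agent.P257.V4.L

variable {T : Type u} [Category.{v} T] [Preadditive T] [HasZeroObject T] [HasShift T ℤ]
  [∀ n : ℤ, (shiftFunctor T n).Additive] [Pretriangulated T]
  [MonoidalCategory T] [SymmetricCategory T] [TensorTriangulated T]
  {R : T} [MonObj R] (U : UnitCof R)

theorem BB_one (b : ℕ) (Y : T) :
    (BB U.cobar 1 b Y).hom ≫ eqToHom (B_eq U (show 1 + b = b + 1 by omega) Y) = oB U b Y := by
  induction b generalizing Y with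
  | zero => exact Category.id_comp _
  | succ b ih => exact ih (U.J ⊗ Y)

theorem BB_zero (b : ℕ) (Y : T) :
    (BB U.cobar 0 b Y).hom ≫ eqToHom (B_eq U (show 0 + b = b by omega) Y) = 𝟙 _ := by
  induction b generalizing Y with
  | zero => exact Category.id_comp _
  | succ b ih => exact ih (U.J ⊗ Y)

/-- the first product -/
def t1 {W₂ W X X' : T} (n : ℕ) (a : W₂ ⟶ R ⊗ (U.J ⊗ X)) (x : X ⊗ W ⟶ U.cobar.B n X') :
    W₂ ⊗ W ⟶ R ⊗ U.cobar.B (n + 1) X' :=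
  a ▷ W ≫ (α_ R (U.J ⊗ X) W).hom ≫ R ◁ ((α_ U.J X W).hom ≫ U.J ◁ x ≫ oB U n X')

theorem t1_nat {W₂ W W' X X' : T} (n : ℕ) (a : W₂ ⟶ R ⊗ (U.J ⊗ X)) (g : W ⟶ W')
    (x : X ⊗ W' ⟶ U.cobar.B n X') : W₂ ◁ g ≫ t1 U n a x = t1 U n a (X ◁ g ≫ x) := by
  unfold t1
  rw [whisker_exchange_assoc, associator_naturality_right_assoc,
    ← MonoidalCategory.whiskerLeft_comp, associator_naturality_right_assoc,
    ← MonoidalCategory.whiskerLeft_comp_assoc]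

variable (R) in
/-- the second product -/
def t2 {W₁ W X Z : T} (v : W₁ ⟶ R ⊗ X) (x : X ⊗ W ⟶ Z) : W₁ ⊗ W ⟶ R ⊗ Z :=
  v ▷ W ≫ (α_ R X W).hom ≫ R ◁ x

theorem t2_nat {W₁ W W' X Z : T} (v : W₁ ⟶ R ⊗ X) (g : W ⟶ W') (x : X ⊗ W' ⟶ Z) :
    W₁ ◁ g ≫ t2 R v x = t2 R v (X ◁ g ≫ x) := by
  unfold t2
  rw [whisker_exchange_assoc, associator_naturality_right_assoc,
    ← MonoidalCategory.whiskerLeft_comp]

theorem xo_nat (b : ℕ) {X₁ X₂ X₃ : T} (m : X₁ ⊗ X₂ ⟶ X₃) {S S' : T} (g : S ⟶ S')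
    (o : S' ⟶ U.cobar.B b X₁) : X₂ ◁ g ≫ xo U b m o = xo U b m (g ≫ o) := by
  unfold xo
  rw [BraidedCategory.braiding_naturality_right_assoc, comp_whiskerRight_assoc]

theorem pE_one {w₁ w₂ w : ℤ} (h : w₂ + w₁ = w) {b : ℕ} {X₂ X₃ : T}
    (a : (stdEven T).S w₂ ⟶ R ⊗ U.cobar.B 1 X₂)
    (x : X₂ ⊗ (stdEven T).S w₁ ⟶ U.cobar.B b X₃) :
    pE U h a x ≫ R ◁ eqToHom (B_eq U (show 1 + b = b + 1 by omega) X₃) =
      ((stdEven T).mu w₂ w₁ w h).inv ≫ t1 U b a x := by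
  unfold pE t1
  simp only [Category.assoc, ← MonoidalCategory.whiskerLeft_comp]
  rw [BB_one]
  have h1 : tB U 1 X₂ ((stdEven T).S w₁) = (α_ U.J X₂ ((stdEven T).S w₁)).hom := by
    rw [tB_succ]
    exact Category.id_comp _
  rw [h1]
  rfl

theorem pE_zero {w₁ w₂ w : ℤ} (h : w₂ + w₁ = w) {b : ℕ} {X₂ X₃ : T}
    (a : (stdEven T).S w₂ ⟶ R ⊗ U.cobar.B 0 X₂)
    (x : X₂ ⊗ (stdEven T).S w₁ ⟶ U.cobar.B b X₃) :
    pE U h a x ≫ R ◁ eqToHom (B_eq U (show 0 + b = b by omega) X₃) =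
      ((stdEven T).mu w₂ w₁ w h).inv ≫ t2 R a x := by
  unfold pE t2
  simp only [Category.assoc, ← MonoidalCategory.whiskerLeft_comp]
  rw [BB_zero, Category.comp_id]
  have h1 : tB U 0 X₂ ((stdEven T).S w₁) = 𝟙 _ := rfl
  rw [h1, Category.id_comp]
  rfl

/-- Tensoring on the left with an even sphere is full. -/
theorem exists_whiskerLeft (w : ℤ) {A B : T}
    (f : (stdEven T).S w ⊗ A ⟶ (stdEven T).S w ⊗ B) :
    ∃ g : A ⟶ B, (stdEven T).S w ◁ g = f := by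
  obtain ⟨g, hg⟩ := (shiftFunctor T (2 * w)).map_surjective ((shIso (2 * w) A).hom ≫
    (sphE T w).inv ▷ A ≫ f ≫ (sphE T w).hom ▷ B ≫ (shIso (2 * w) B).inv)
  refine ⟨g, ?_⟩
  have h1 := shIso_nat (2 * w) g
  rw [hg] at h1
  have h2 : ((𝟙_ T)⟦2 * w⟧) ◁ g = (sphE T w).inv ▷ A ≫ f ≫ (sphE T w).hom ▷ B := by
    rw [← cancel_epi (shIso (2 * w) A).hom]
    simp only [Category.assoc, Iso.inv_hom_id, Category.comp_id] at h1
    exact h1.symm
  have h3 : (stdEven T).S w ◁ g = (sphE T w).hom ▷ A ≫ ((𝟙_ T)⟦2 * w⟧) ◁ g ≫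
      (sphE T w).inv ▷ B := by
    rw [← whisker_exchange_assoc, ← comp_whiskerRight, Iso.hom_inv_id, id_whiskerRight,
      Category.comp_id]
  rw [h3, h2]
  simp only [Category.assoc]
  rw [← comp_whiskerRight, Iso.hom_inv_id, id_whiskerRight, Category.comp_id,
    ← comp_whiskerRight_assoc, Iso.hom_inv_id, id_whiskerRight, Category.id_comp]

/-- **The Leibniz rule in the form of the products `pE`.** -/
theorem pE_leib {X : T} (n : ℕ) {P : T} {wa wv wo wb w : ℤ}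
    {a : (stdEven T).S wa ⟶ R ⊗ (U.J ⊗ X)} {v : (stdEven T).S wv ⟶ R ⊗ X}
    {m₁ m₂ : X ⊗ X ⟶ X} {o : (stdEven T).S wv ⊗ P ⟶ U.cobar.B (n + 2) X}
    {z : (stdEven T).S wa ⊗ P ⟶ U.cobar.B (n + 3) X}
    {f : ((stdEven T).S wa ⊗ (stdEven T).S wv) ⊗ P ⟶ R ⊗ U.cobar.B (n + 2) X}
    (hle : (α_ ((stdEven T).S wa) ((stdEven T).S wv) P).hom ≫ t1 U (n + 2) a (xo U (n + 2) m₁ o) +
        ((β_ ((stdEven T).S wa) ((stdEven T).S wv)).hom ▷ P ≫
          (α_ ((stdEven T).S wv) ((stdEven T).S wa) P).hom) ≫ t2 R v (xo U (n + 3) m₂ z) =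
      f ≫ U.cobar.D (n + 2) X)
    (σ : (stdEven T).S wv ⊗ P ≅ (stdEven T).S wo) {oS : (stdEven T).S wo ⟶ U.cobar.B (n + 2) X}
    (ho : o = σ.hom ≫ oS) (h1 : wa + wo = w) (h2 : wv + wb = w) :
    ∃ (o' : (stdEven T).S wb ⟶ U.cobar.B (n + 3) X)
      (f' : (stdEven T).S w ⟶ R ⊗ U.cobar.B (n + 2) X),
      pE U h1 (s := 1) a (xo U (n + 2) m₁ oS) ≫
          R ◁ eqToHom (B_eq U (show 1 + (n + 2) = n + 2 + 1 by omega) X) +
        pE U h2 (s := 0) v (xo U (n + 3) m₂ o') ≫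
          R ◁ eqToHom (B_eq U (show 0 + (n + 3) = n + 2 + 1 by omega) X) =
        f' ≫ U.cobar.D (n + 2) X := by
  subst ho
  set ι : (stdEven T).S w ⟶ ((stdEven T).S wa ⊗ (stdEven T).S wv) ⊗ P :=
    ((stdEven T).mu wa wo w h1).inv ≫ (stdEven T).S wa ◁ σ.inv ≫ (α_ _ _ _).inv with hι
  obtain ⟨g, hg⟩ := exists_whiskerLeft wv (((stdEven T).mu wv wb w h2).hom ≫ ι ≫
    (β_ ((stdEven T).S wa) ((stdEven T).S wv)).hom ▷ P ≫
      (α_ ((stdEven T).S wv) ((stdEven T).S wa) P).hom)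
  refine ⟨g ≫ z, ι ≫ f, ?_⟩
  have e1 := pE_one U h1 (b := n + 2) a (xo U (n + 2) m₁ oS)
  have e2 := pE_zero U h2 (b := n + 3) v (xo U (n + 3) m₂ (g ≫ z))
  rw [e1]
  refine (congrArg (fun t => _ + t) e2).trans ?_
  rw [Category.assoc, ← hle, Preadditive.comp_add]
  congr 1
  · rw [← xo_nat, ← t1_nat, hι]
    simp only [Category.assoc, Iso.inv_hom_id_assoc]
    rw [← MonoidalCategory.whiskerLeft_comp_assoc, Iso.inv_hom_id,
      MonoidalCategory.whiskerLeft_id, Category.id_comp]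
  · rw [← xo_nat, ← t2_nat, hg]
    simp only [Category.assoc, Iso.inv_hom_id_assoc]

end Vale.Agent.P257.V4.K
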