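import Vale.Agent.P257.V4.K.Steps
import Vale.Agent.P257.V4.K.ClE
import Vale.Agent.P257.V4.K.Kx
import Vale.Agent.P257.V4.O.Final
import Vale.Agent.P257.V4.A.Out

/-!
# P257, part K: `v_4` lifts to the homotopy of `V(3)`

* `CmpX F E u N` : the comparison of the cochains on `X` with `Ch p` in the degrees `D < N + s`.
* `exists_lift_v4` : the class of `v_4` lifts, from the comparison, the output `OutV4` of part A and
  the two inputs `hL` (Leibniz rule and (F2)) and `hT` (Toda's relation and (F6)).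
-/

open CategoryTheory MonoidalCategory Limits Pretriangulated MonObj

set_option linter.unusedSectionVars false

universe v u

namespace Vale.Agent.P257.V4.K

open Vale.Agent.P251.T Vale.Agent.P251.M Vale.Agent.P251.S Vale.Agent.P257.V4.A
  Vale.Agent.P257.V4.E Vale.Agent.P257.V4.O

variable {T : Type u} [Category.{v} T] [Preadditive T] [HasZeroObject T]
    [HasShift T ℤ] [∀ n : ℤ, (shiftFunctor T n).Additive] [Pretriangulated T]
    [MonoidalCategory T] [SymmetricCategory T] [TensorTriangulated T] [HasCoproducts.{0} T]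
    {K : CosR} {R : T} [MonObj R] [IsCommMonObj R] (E : RMod K R) (U : UnitCof R) {X : T}
    (u : 𝟙_ T ⟶ X) {p : ℕ} [Fact p.Prime]

/-- The comparison of the cochains on `X` with `Ch p` in the degrees `D < N + s`. -/
structure CmpX (F : ChMap K p) (N : ℕ) : Prop where
  ker : ∀ (s : ℕ) (w : ℤ) (z : K.wt s w), z ∈ E.kx u s w → F.φ s z.1 = 0
  inj : ∀ (s D : ℕ) (z : K.wt (s + 1) (((p : ℤ) - 1) * D)), D < N + (s + 1) →
    K.d (s + 1) _ z ∈ E.kx u (s + 2) _ → Ch.IsCobdy (F.φ (s + 1) z.1) →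
      ∃ y : K.wt s (((p : ℤ) - 1) * D), z - K.d s _ y ∈ E.kx u (s + 1) _
  lift : ∀ (s D : ℕ) (y : Ch p s), Ch.IsWt D y → Ch.d s y = 0 → D ≤ N + s →
    ∃ z : K.wt s (((p : ℤ) - 1) * D), K.d s _ z ∈ E.kx u (s + 1) _ ∧ F.φ s z.1 = y

variable {E u} {F : ChMap K p} {N : ℕ}

theorem CmpX.coc (h : CmpX E u F N) {s : ℕ} {w : ℤ} {z : K.wt s w}
    (hz : K.d s w z ∈ E.kx u (s + 1) w) : Ch.d s (F.φ s z.1) = 0 := by
  rw [← F.φ_d]
  exact h.ker _ _ _ hz

theorem two_mul_wt (hp : 1 ≤ p) (D : ℕ) :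
    2 * (((p : ℤ) - 1) * D) = ((2 * p - 2 : ℕ) : ℤ) * D := by
  have h : ((2 * p - 2 : ℕ) : ℤ) = 2 * ((p : ℤ) - 1) := by
    rw [show 2 * p - 2 = 2 * (p - 1) by omega]
    push_cast [Nat.cast_sub hp]
    ring
  rw [h]
  ring

/-- A class of `E_1` whose image in `Ch p` is a coboundary is a coboundary. -/
theorem CmpX.isCobdy (h : CmpX E u F N) {s D : ℕ} {m : ℤ} (hD : D < N + (s + 1))
    (hm : m + ((s + 1 : ℕ) : ℤ) = 2 * (((p : ℤ) - 1) * D))
    {z : K.wt (s + 1) (((p : ℤ) - 1) * D)} (hz : K.d (s + 1) _ z ∈ E.kx u (s + 2) _)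
    (hb : Ch.IsCobdy (F.φ (s + 1) z.1)) : (cpl U X).IsCobdy (clE E U u hm z) := by
  obtain ⟨y, hy⟩ := h.inj s D z hD hz hb
  exact isCobdy_clE E U u hm y hy

/-- The comparison in the format of part O. -/
theorem CmpX.cmp (hp : 2 ≤ p) {n : ℕ} (hX : E.XM ((2 * p - 2 : ℕ) : ℤ) u)
    (h : CmpX E u F (Ch.N p n)) : Cmp U p n X where
  spa _ _ hm := van_of_not_dvd E U hX hm
  van s D hD hV := by
    have e : ((2 * p - 2 : ℕ) : ℤ) * D - ((s + 1 : ℕ) : ℤ) + ((s + 1 : ℕ) : ℤ) =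
        2 * (((p : ℤ) - 1) * D) := by
      rw [two_mul_wt (by omega)]
      ring
    intro x hx
    obtain ⟨z, hz, rfl⟩ := exists_clE E U hX e x hx
    refine h.isCobdy U hD e hz (hV _ ?_ (h.coc hz))
    exact F.φ_wt (s + 1) D _ z.2

/-- **`v_4` lifts to the homotopy of `V(3)`.** -/
theorem exists_lift_v4 (hp : 11 ≤ p) (hC : Cmp U p 4 X) (hV : OutV4 p) (hc : Conn U X)
    {w : ℤ} (hw : 2 * w = ((2 * p - 2 : ℕ) : ℤ) * Ch.N p 4) {z : K.wt 0 w}
    (hz : K.d 0 w z ∈ E.kx u 1 w) (e0 : 2 * w + ((0 : ℕ) : ℤ) = 2 * w)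
    (em : 2 * w = (2 * w - 1) + 1)
    (hL : ∀ s : ℕ, s + 1 = 2 * p - 2 → ∀ y : (cpl U X).D (s + 2) (2 * w - 1),
      (cpl U X).proj (2 * w - 1) (show 1 ≤ s + 2 by omega) y =
        (cpl U X).k 0 (2 * w) (2 * w - 1) em (clE E U u e0 z) →
      (cpl U X).IsCobdy ((cpl U X).j (s + 2) (2 * w - 1) y))
    (hT : ∀ s : ℕ, s + 1 = (2 * p - 2) * p → ∀ y : (cpl U X).D (s + 2) (2 * w - 1),
      ∃ t : (cpl U X).D (s + 2) (2 * w - 1),
        (cpl U X).proj (2 * w - 1) (show 1 ≤ s + 2 by omega) t = 0 ∧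
        (cpl U X).IsCobdy ((cpl U X).j (s + 2) (2 * w - 1) (y - t))) :
    ∃ x : (𝟙_ T)⟦2 * w⟧ ⟶ X, x ≫ unitMap R X = hur (cls E z) u := by
  have hcoc : (cpl U X).IsCocycle (clE E U u e0 z) := isCocycle_clE E U u e0 hz
  obtain ⟨r, hr⟩ := hc (2 * w - 1)
  obtain ⟨x, hx⟩ := exists_lift_steps (cpl U X) em (clE E U u e0 z) hcoc (fun s y hy => by
    by_cases hdvd : ((2 * p - 2 : ℕ) : ℤ) ∣ (2 * w - 1) + ((s + 1 + 1 : ℕ) : ℤ)
    · have h1 : (2 * p - 2) ∣ s + 1 := by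
        have h3 := dvd_sub hdvd (Dvd.intro (Ch.N p 4 : ℤ) rfl)
        have e : (2 * w - 1) + ((s + 1 + 1 : ℕ) : ℤ) - ((2 * p - 2 : ℕ) : ℤ) * Ch.N p 4 =
            ((s + 1 : ℕ) : ℤ) := by
          rw [hw]; push_cast; ring
        rw [e] at h3
        exact_mod_cast h3
      obtain ⟨l, hl⟩ := h1
      have hl1 : 1 ≤ l := by
        rcases Nat.eq_zero_or_pos l with rfl | hl'
        · simp at hl
        · exact hl'
      by_cases h1 : l = 1
      · subst h1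
        exact ⟨y, hy, hL s (by rw [hl, _root_.mul_one]) y hy⟩
      by_cases h2 : l = p
      · subst h2
        obtain ⟨t, ht, hb⟩ := hT s hl y
        refine ⟨y - t, ?_, hb⟩
        rw [proj_sub, ht, sub_zero]
        exact hy
      refine ⟨y, hy, ?_⟩
      have hvan := hV l (by omega) h2
      rw [← hl] at hvan
      have e : (2 * w - 1) = ((2 * p - 2 : ℕ) : ℤ) * ((Ch.N p 4 + l : ℕ) : ℤ) -
          ((s + 1 + 1 : ℕ) : ℤ) := by
        have hl' : ((s + 1 : ℕ) : ℤ) = ((2 * p - 2 : ℕ) : ℤ) * l := by exact_mod_cast hl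
        push_cast at hl' ⊢
        linear_combination hw + hl'
      have hvan' := hC.van (s + 1) (Ch.N p 4 + l) (by
        have h3 : 1 * l ≤ (2 * p - 2) * l := Nat.mul_le_mul_right l (by omega)
        omega) hvan
      rw [← e] at hvan'
      exact hvan' _ ((cpl U X).isCocycle_j y)
    · exact ⟨y, hy, hC.spa (s + 1) _ hdvd _ ((cpl U X).isCocycle_j y)⟩) r
    (fun y => hr (r + 2) (by omega) y)
  refine ⟨dT U X (𝟙_ T) e0 x, ?_⟩
  have h1 := eT_j U X (𝟙_ T) e0 x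
  have h2 := eT_clE E U u e0 z
  rw [hx] at h1
  refine h1.symm.trans (h2.trans ?_)
  rw [hur_cls, RMod.qX_apply, RMod.cX_apply, CobarData.q_zero, Category.comp_id]
  have h3 : (U.θ 1 X).inv = (λ_ R).hom ▷ X := by
    have h4 : (U.θ 1 X).hom = (λ_ R).inv ▷ X := by
      rw [UnitCof.θ_succ, UnitCof.θ_zero]
      change (λ_ (R ⊗ X)).inv ≫ (α_ (𝟙_ T) R X).inv = _
      simp
    rw [← cancel_epi (U.θ 1 X).hom, Iso.hom_inv_id, h4, ← comp_whiskerRight, Iso.inv_hom_id,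
      id_whiskerRight]
  rw [h3]

end Vale.Agent.P257.V4.K
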