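import Vale.Agent.P257.V4.K.InIdeal
import Vale.Agent.P251.X.PiBase
import Vale.Agent.P251.F.LazReg

/-!
# P257, part K: the sequence `p, v_1, v_2, …` is regular in `π_* MU`

For `D : MUData T` (`MU`) and an odd prime `p`: `Laz → π_{2*} MU` is onto and injective modulo `p`,
`π_* MU` has no `p`-torsion and `π_odd MU` is divisible by `p`; hence the sequence
`p, v_1, v_2, …` is regular (`isRegular_mu`).
-/

open CategoryTheory MonoidalCategory OnePoint Topology Limits Pretriangulated Matrix MonObj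

set_option linter.unusedSectionVars false

universe v' u'

noncomputable section

namespace Vale.Agent.P257.V4.K

open Vale.Agent.P251 Vale.Agent.P251.St Vale.Agent.P251.G Vale.Agent.P251.G.LC
open Vale.Agent.P251.I Vale.Agent.P251.M Vale.Agent.P251.M.EvenSpheres Vale.Agent.P251.F
  Vale.Agent.P217 Vale.Agent.P251.S Vale.Agent.P251.X

/-! ### Algebra -/

section ring

variable {H : Type*} [CommRing H] (φ : Laz →+* H) {p : ℕ}

theorem p_mem_I {n : ℕ} (hn : 0 < n) : (p : Laz) ∈ Laz.I p n := by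
  rw [← vv_zero p Laz.univ]
  exact vv_mem_Ih hn _

theorem exists_of_mem_map (hs : ∀ x : H, ∃ z h, x = φ z + (p : H) * h) {n : ℕ} {x : H}
    (hx : x ∈ (Laz.I p n).map φ) : ∃ c ∈ Laz.I p n, ∃ h : H, x = φ c + p * h := by
  refine Submodule.span_induction (p := fun x _ => ∃ c ∈ Laz.I p n, ∃ h : H, x = φ c + p * h)
    ?_ ?_ ?_ ?_ hx
  · rintro _ ⟨c, hc, rfl⟩
    exact ⟨c, hc, 0, by simp⟩
  · exact ⟨0, zero_mem _, 0, by simp⟩
  · rintro a b _ _ ⟨c, hc, h, rfl⟩ ⟨c', hc', h', rfl⟩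
    exact ⟨c + c', add_mem hc hc', h + h', by rw [map_add]; ring⟩
  · rintro a b _ ⟨c, hc, h, rfl⟩
    obtain ⟨z, h', rfl⟩ := hs a
    refine ⟨z * c, Ideal.mul_mem_left _ _ hc, φ z * h + h' * φ c + p * h' * h, ?_⟩
    rw [smul_eq_mul, map_mul]
    ring

theorem mem_of_mul_mem [Fact p.Prime] (hs : ∀ x : H, ∃ z h, x = φ z + (p : H) * h)
    (hk : ∀ z (h : H), φ z = p * h → ∃ y : Laz, z = p * y) {n : ℕ} (hn : 0 < n) {x : H}
    (hx : x * φ (Laz.v p n) ∈ (Laz.I p n).map φ) : x ∈ (Laz.I p n).map φ := by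
  obtain ⟨z, h, rfl⟩ := hs x
  obtain ⟨c, hc, h', h1⟩ := exists_of_mem_map φ hs hx
  have h2 : φ (Laz.v p n * z - c) = p * (h' - h * φ (Laz.v p n)) := by
    rw [map_sub, map_mul]
    linear_combination h1
  obtain ⟨y, hy⟩ := hk _ _ h2
  have h3 : Laz.v p n * z ∈ Laz.I p n := by
    have h4 : Laz.v p n * z = c + p * y := by rw [← hy]; ring
    rw [h4]
    exact add_mem hc (Ideal.mul_mem_right _ _ (p_mem_I hn))
  have h5 : z ∈ Laz.I p n := mem_I_of_v_mul p le_rfl h3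
  refine add_mem (Ideal.mem_map_of_mem φ h5) (Ideal.mul_mem_right _ _ ?_)
  rw [← map_natCast φ p]
  exact Ideal.mem_map_of_mem φ (p_mem_I hn)

end ring

/-! ### Exactness -/

section exact

open Vale.Agent.P251.T

variable {T : Type u'} [Category.{v'} T] [Preadditive T] [HasZeroObject T] [HasShift T ℤ]
  [∀ n : ℤ, (shiftFunctor T n).Additive] [Pretriangulated T] [MonoidalCategory T]
  [SymmetricCategory T] [TensorTriangulated T]
  {C : T} {i : 𝟙_ T ⟶ C} {δ : C ⟶ (𝟙_ T)⟦(1 : ℤ)⟧} {m : ℤ}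
  (hC : Triangle.mk (m • 𝟙 (𝟙_ T)) i δ ∈ distTriang T)

include hC

/-- Divisibility from the vanishing of the image in the homotopy of the cofibre. -/
theorem exists_zsmul_of_comp {A R' : T} (b : A ⟶ R') (h : b ≫ (ρ_ R').inv ≫ R' ◁ i = 0) :
    ∃ b' : A ⟶ R', b = m • b' := by
  have h1 := tensorLeftTriangle_distinguished R' _ hC
  obtain ⟨y, hy⟩ : ∃ y : A ⟶ R' ⊗ 𝟙_ T, b ≫ (ρ_ R').inv = y ≫ (R' ◁ (m • 𝟙 (𝟙_ T))) :=
    Triangle.coyoneda_exact₂ _ h1 (b ≫ (ρ_ R').inv) ((Category.assoc _ _ _).trans h)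
  have h2 : R' ◁ (m • 𝟙 (𝟙_ T)) = m • 𝟙 (R' ⊗ 𝟙_ T) := by
    have h3 : R' ◁ (m • 𝟙 (𝟙_ T)) = m • (R' ◁ 𝟙 (𝟙_ T)) := (tensorLeft R').map_zsmul
    rw [h3, whiskerLeft_id]
  refine ⟨y ≫ (ρ_ R').hom, ?_⟩
  rw [h2, Preadditive.comp_zsmul, Category.comp_id] at hy
  rw [← Preadditive.zsmul_comp, ← hy, Category.assoc, Iso.inv_hom_id, Category.comp_id]

/-- Torsion from surjectivity one degree higher. -/
theorem eq_zero_of_zsmul {A R' : T} (a : A ⟶ R') (ha : m • a = 0)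
    (h : ∀ y : A⟦(1 : ℤ)⟧ ⟶ R' ⊗ C, ∃ b : A⟦(1 : ℤ)⟧ ⟶ R', y = b ≫ (ρ_ R').inv ≫ R' ◁ i) :
    a = 0 := by
  obtain ⟨k, h1⟩ : ∃ k : R' ⊗ C ⟶ (R' ⊗ 𝟙_ T)⟦(1 : ℤ)⟧,
      Triangle.mk (R' ◁ (m • 𝟙 (𝟙_ T))) (R' ◁ i) k ∈ distTriang T :=
    ⟨_, tensorLeftTriangle_distinguished R' _ hC⟩
  have h2 : R' ◁ (m • 𝟙 (𝟙_ T)) = m • 𝟙 (R' ⊗ 𝟙_ T) := by
    have h3 : R' ◁ (m • 𝟙 (𝟙_ T)) = m • (R' ◁ 𝟙 (𝟙_ T)) := (tensorLeft R').map_zsmul
    rw [h3, whiskerLeft_id]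
  have h4 : (a ≫ (ρ_ R').inv)⟦(1 : ℤ)⟧' ≫ (R' ◁ (m • 𝟙 (𝟙_ T)))⟦(1 : ℤ)⟧' = 0 := by
    rw [← Functor.map_comp, h2, Preadditive.comp_zsmul, Category.comp_id,
      ← Preadditive.zsmul_comp, ha, zero_comp, Functor.map_zero]
  obtain ⟨y, hy⟩ : ∃ y : A⟦(1 : ℤ)⟧ ⟶ R' ⊗ C, (a ≫ (ρ_ R').inv)⟦(1 : ℤ)⟧' = y ≫ k :=
    Triangle.coyoneda_exact₁ _ h1 ((a ≫ (ρ_ R').inv)⟦(1 : ℤ)⟧') h4
  obtain ⟨b, hb⟩ := h y
  have h5 : R' ◁ i ≫ k = 0 := comp_distTriang_mor_zero₂₃ _ h1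
  have h6 : (a ≫ (ρ_ R').inv)⟦(1 : ℤ)⟧' = 0 := by
    rw [hy, hb, Category.assoc, Category.assoc, h5, comp_zero, comp_zero]
  have h7 : a ≫ (ρ_ R').inv = 0 :=
    (shiftFunctor T (1 : ℤ)).map_injective (by rw [h6, Functor.map_zero])
  rw [← cancel_mono (ρ_ R').inv, h7, zero_comp]

end exact

/-! ### `MU` -/

section mu

variable {T : SHCat} (D : MUData T.C) {p : ℕ} [Fact p.Prime]

/-- the ring homomorphism `Laz → π_{2*} MU` -/
abbrev phiD : Laz →+* HRing (stdEven T.C) D.R := Laz.lift D.law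

theorem phiD_eq (z : Laz) :
    phiD D z = HRing.map (E := stdEven T.C) (amOne D.R) (D.ev 0 (MvPolynomial.C z)) := by
  unfold phiD MUData.law MUData.law1
  rw [Law.map_map, Laz.lift_map_univ]
  rfl

theorem phiD_v (i : ℕ) : phiD D (Laz.v p i) = vv p i D.law := by
  rw [Laz.lift_v]

variable (hp : p ≠ 2) {M : T.C} {iM : 𝟙_ T.C ⟶ M} {δM : M ⟶ (𝟙_ T.C)⟦(1 : ℤ)⟧}
  (hM : Triangle.mk ((p : ℤ) • 𝟙 (𝟙_ T.C)) iM δM ∈ distTriang T.C)

include hp hM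

theorem exists_surj_of (w : ℤ) (a : (stdEven T.C).S w ⟶ D.R) :
    ∃ (z : Laz) (b c : (stdEven T.C).S w ⟶ D.R), phiD D z = HRing.of _ _ w c ∧
      a = c + (p : ℤ) • b := by
  obtain ⟨z, a', h1, h2⟩ := surj_base D hp hM w (a ≫ iB D iM)
  have h3 : (a - a' ≫ amOne D.R) ≫ (ρ_ D.R).inv ≫ D.R ◁ iM = 0 := by
    rw [Preadditive.sub_comp, sub_eq_zero, Category.assoc]
    exact h2
  obtain ⟨b, hb⟩ := exists_zsmul_of_comp hM (a - a' ≫ amOne D.R) h3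
  refine ⟨z, b, a' ≫ amOne D.R, ?_, ?_⟩
  · rw [phiD_eq, h1, HRing.map_of]
  · rw [← hb, add_sub_cancel]

theorem phiD_surj (x : HRing (stdEven T.C) D.R) : ∃ (z : Laz) (h : HRing (stdEven T.C) D.R),
    x = phiD D z + (p : HRing (stdEven T.C) D.R) * h := by
  induction x using DirectSum.induction_on with
  | zero => exact ⟨0, 0, by simp⟩
  | of w a =>
    obtain ⟨z, b, c, h1, h2⟩ := exists_surj_of D hp hM w a
    refine ⟨z, HRing.of _ _ w b, ?_⟩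
    have h3 : HRing.of (stdEven T.C) D.R w ((p : ℤ) • b) =
        (p : HRing (stdEven T.C) D.R) * HRing.of (stdEven T.C) D.R w b := by
      refine ((DirectSum.of ((stdEven T.C).Gr D.R) w).map_zsmul (p : ℤ) b).trans ?_
      rw [zsmul_eq_mul, Int.cast_natCast]
    rw [h1, ← h3, h2]
    exact (DirectSum.of ((stdEven T.C).Gr D.R) w).map_add _ _
  | add x y hx hy =>
    obtain ⟨a, b, rfl⟩ := hx
    obtain ⟨c, d, rfl⟩ := hy
    exact ⟨a + c, b + d, by rw [map_add]; ring⟩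

theorem phiD_ker (z : Laz) (h : HRing (stdEven T.C) D.R)
    (hz : phiD D z = (p : HRing (stdEven T.C) D.R) * h) : ∃ y : Laz, z = (p : Laz) * y := by
  classical
  set x : Cob Laz 0 := MvPolynomial.C z with hx
  set Λ : Cob Laz 0 →+* HRing (stdEven T.C) D.R :=
    (HRing.map (E := stdEven T.C) (amOne D.R)).comp (D.ev 0) with hΛ
  have h1 : Λ x = (p : HRing (stdEven T.C) D.R) * h := by rw [← hz, phiD_eq]; rfl
  have h2 : ∀ w : ℤ, ∃ a : (stdEven T.C).S w ⟶ Am D.R 1,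
      D.ev 0 (Cob.pr Laz 0 w x) = HRing.of (stdEven T.C) (Am D.R 1) w a := fun w =>
    D.ev_wt 0 w _ (Cob.isWt_pr w x)
  choose a ha using h2
  have h3 : ∀ w, Λ (Cob.pr Laz 0 w x) =
      HRing.of (stdEven T.C) D.R w (a w ≫ amOne D.R) := fun w => by
    rw [hΛ, RingHom.comp_apply, ha, HRing.map_of]
  set s := (Cob.chi (Cob.univ Laz 0) x).coeff.support with hs
  have h4 : ∑ w ∈ s, Cob.pr Laz 0 w x = x := Cob.sum_pr x
  have hpi : (p : ℤ) • iB D iM = 0 := by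
    have h1 : ((p : ℤ) • 𝟙 (𝟙_ T.C)) ≫ iM = 0 := comp_distTriang_mor_zero₁₂ _ hM
    rw [Preadditive.zsmul_comp, Category.id_comp] at h1
    unfold iB
    have h3 : D.R ◁ ((p : ℤ) • iM) = (p : ℤ) • D.R ◁ iM :=
      (tensorLeft D.R).map_zsmul (f := iM) (r := (p : ℤ))
    rw [← Preadditive.comp_zsmul, ← h3, h1, MonoidalPreadditive.whiskerLeft_zero, comp_zero]
  have h5 : ∀ w ∈ s, a w ≫ amOne D.R ≫ iB D iM = 0 := by
    intro w hw
    have h6 : (∑ v ∈ s, HRing.of (stdEven T.C) D.R v (a v ≫ amOne D.R)) =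
        (p : HRing (stdEven T.C) D.R) * h := by
      rw [← Finset.sum_congr rfl fun v _ => h3 v, ← map_sum, h4, h1]
    have h7 := congrArg (fun y : HRing (stdEven T.C) D.R => y w) h6
    have h8 : ((p : HRing (stdEven T.C) D.R) * h : HRing (stdEven T.C) D.R) w =
        (p : ℤ) • h w := by
      rw [← Int.cast_natCast, ← zsmul_eq_mul]
      exact DirectSum.smul_apply (p : ℤ) h w
    have h9 : a w ≫ amOne D.R = (p : ℤ) • h w := by
      rw [← h8]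
      refine Eq.trans ?_ h7
      change _ = (∑ v ∈ s, HRing.of (stdEven T.C) D.R v (a v ≫ amOne D.R)) w
      rw [DFinsupp.finsetSum_apply, Finset.sum_eq_single w]
      · exact (DirectSum.of_eq_same (β := (stdEven T.C).Gr D.R) _ _).symm
      · intro v _ hv
        exact DirectSum.of_eq_of_ne _ _ _ hv.symm
      · intro h8
        exact absurd hw h8
    rw [← Category.assoc, h9, Preadditive.zsmul_comp, ← Preadditive.comp_zsmul, hpi, comp_zero]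
  have h6 : ∀ w, ∃ y : Cob Laz 0, w ∈ s → Cob.pr Laz 0 w x = (p : ℤ) • y := by
    intro w
    by_cases hw : w ∈ s
    · obtain ⟨y, hy⟩ := ker_base D hp hM w _ (Cob.isWt_pr w x) (a w) (ha w) (h5 w hw)
      exact ⟨y, fun _ => hy⟩
    · exact ⟨0, fun h => absurd h hw⟩
  choose y hy using h6
  obtain ⟨t, ht⟩ := C_surj0 (∑ w ∈ s, y w)
  have h7 : x = MvPolynomial.C ((p : ℤ) • t) := by
    rw [map_zsmul, ht, Finset.smul_sum, ← Finset.sum_congr rfl fun w hw => hy w hw, h4]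
  refine ⟨t, ?_⟩
  have h8 : z = (p : ℤ) • t := MvPolynomial.C_injective _ _ h7
  rw [h8, zsmul_eq_mul, Int.cast_natCast]

/-- `π_odd MU` is divisible by `p`. -/
theorem mu_odd_div (l : ℤ) (a : (𝟙_ T.C)⟦2 * l + 1⟧ ⟶ D.R) :
    ∃ b : (𝟙_ T.C)⟦2 * l + 1⟧ ⟶ D.R, a = (p : ℤ) • b :=
  exists_zsmul_of_comp hM a (odd_base D hp hM l _)

/-- `π_* MU` has no `p`-torsion. -/
theorem mu_torsionFree (d : ℤ) (a : (𝟙_ T.C)⟦d⟧ ⟶ D.R) (ha : (p : ℤ) • a = 0) : a = 0 := by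
  refine eq_zero_of_zsmul hM a ha fun y => ?_
  rcases Int.even_or_odd' d with ⟨l, rfl | rfl⟩
  · refine ⟨0, ?_⟩
    rw [zero_comp]
    have h1 := odd_base D hp hM l ((shiftFunctorAdd' T.C (2 * l) 1 (2 * l + 1) rfl).hom.app _ ≫ y)
    rw [← cancel_epi ((shiftFunctorAdd' T.C (2 * l) 1 (2 * l + 1) rfl).hom.app (𝟙_ T.C)), h1,
      comp_zero]
  · let g : (stdEven T.C).S (l + 1) ≅ ((𝟙_ T.C)⟦2 * l + 1⟧)⟦(1 : ℤ)⟧ :=
      E.sphE T.C (l + 1) ≪≫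
        (shiftFunctorAdd' T.C (2 * l + 1) 1 (2 * (l + 1)) (by ring)).app (𝟙_ T.C)
    obtain ⟨z, a', h1, h2⟩ := surj_base D hp hM (l + 1) (g.hom ≫ y)
    refine ⟨g.inv ≫ a' ≫ amOne D.R, ?_⟩
    rw [Category.assoc, Category.assoc, ← iB, ← h2, Iso.inv_hom_id_assoc]

end mu

end Vale.Agent.P257.V4.K
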