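import Vale.Agent.P257.V4.K.FinalB
import Vale.Agent.P257.V4.K.InT

/-!
# P257, part K: the existence of `V(4)` from the outputs of part A

`v4Statement_of_out` : `V4Statement` from `OutStmt`.
-/

open CategoryTheory MonoidalCategory OnePoint Topology Limits Pretriangulated Matrix MonObj

set_option linter.unusedSectionVars false

noncomputable section

namespace Vale.Agent.P257.V4.K

open Vale.Agent.P251 Vale.Agent.P251.St Vale.Agent.P251.G Vale.Agent.P251.G.LC
open Vale.Agent.P251.I Vale.Agent.P251.M Vale.Agent.P251.F Vale.Agent.P217 Vale.Agent.P251.S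
open Vale.Agent.P257.V4.A Vale.Agent.P257.V4.E Vale.Agent.P257.V4.O Vale.Agent.P257.V4.B
open Vale.Agent.P257.V4.T

/-- **An iterated cofibre of `p, v_1, …, v_4` exists**, from the outputs of part A. -/
theorem hasV4_of_out (T : SHCat) (S : Susp T) (p : ℕ) [hp : Fact p.Prime] (h11 : 11 ≤ p)
    (hO : Out p) (e : S.toSpaceFunctor.S.obj CCF ≅ (stdEven T.C).L)
    (M : MUMon S.toSpaceFunctor (stdEven T.C) e) (b : MUBasis M.V) : HasV4 T (M.data b) p :=
  hasV4_of_inT T S p h11 (M.muUniv b) hO fun b' U => inT S (by omega) M b b' U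

/-- `V4Statement` from the outputs of part A. -/
theorem v4Statement_of_out (hO : OutStmt) : V4Statement :=
  v4Statement_of fun T S p _ h11 e M b => hasV4_of_out T S p h11 (hO p h11) e M b

end Vale.Agent.P257.V4.K
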