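import Vale.Agent.P251.Z.OrFam

/-!
# P257, part K: the coefficients of the `p`-series on projective space

* `rel_iff_coeff` : the relation `[m](z) = ∑_{k ≤ N} a_k z^{k+1}` in `E(ℂP^{N+1})` says that the
  `a_k` are the coefficients of the `m`-series.
* `zrel_iff_coeff` : the same for an oriented commutative monoid of `T`.
-/

open CategoryTheory MonoidalCategory OnePoint Matrix Topology Limits Pretriangulated MonObj
open Vale.Agent.P251.G Vale.Agent.P251.G.LC

universe v u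

set_option linter.unusedSectionVars false
set_option linter.style.haveILetI false

noncomputable section

namespace Vale.Agent.P257.V4.K

section multTheory

open Vale.Agent.P251.Q Vale.Agent.P251.Q.MultTheory Vale.Agent.P217 Vale.Agent.P251.F

variable {E : MultTheory.{v}} (o : Orientation E)

theorem nev1_z_iff (N : ℕ) [E.Good (CP (Fin (N + 2)))] (f : PowerSeries E.A)
    (hf : PowerSeries.coeff 0 f = 0) (a : ℕ → E.A) :
    nev1 (o.z (Fin (N + 2))) f =
        ∑ k ∈ Finset.range (N + 1), a k • o.z (Fin (N + 2)) ^ (k + 1) ↔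
      ∀ k ≤ N, PowerSeries.coeff (k + 1) f = a k := by
  rw [nev1_eq_sum (z_pow_eq_zero o (N + 2) (Fin (N + 2)) (by simp)),
    Finset.sum_range_succ' _ (N + 1), hf, zero_smul, add_zero]
  constructor
  · intro h k hk
    have h3 : ∀ g : ℕ → E.A, ∑ k ∈ Finset.range (N + 1), g k • o.z (Fin (N + 2)) ^ (k + 1) =
        ∑ k : Fin (N + 2), (if (k : ℕ) = 0 then 0 else g ((k : ℕ) - 1)) •
          o.z (Fin (N + 2)) ^ (k : ℕ) := by
      intro g
      rw [← Finset.sum_range (fun k => (if k = 0 then 0 else g (k - 1)) •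
        o.z (Fin (N + 2)) ^ k), Finset.sum_range_succ' _ (N + 1), if_pos rfl, zero_smul, add_zero]
      refine Finset.sum_congr rfl fun j _ => ?_
      rw [if_neg (Nat.succ_ne_zero j), Nat.add_sub_cancel]
    rw [h3 (fun k => PowerSeries.coeff (k + 1) f), h3 a] at h
    have h4 := (freeOn_z o (N + 2) (Fin (N + 2)) (Fintype.card_fin _)).bijective_smul.1
      (a₁ := fun k : Fin (N + 2) => if (k : ℕ) = 0 then 0 else
        PowerSeries.coeff ((k : ℕ) - 1 + 1) f)
      (a₂ := fun k : Fin (N + 2) => if (k : ℕ) = 0 then 0 else a ((k : ℕ) - 1)) h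
    have h5 := congrFun h4 (⟨k + 1, by omega⟩ : Fin (N + 2))
    simpa using h5
  · intro h
    refine Finset.sum_congr rfl fun k hk => ?_
    rw [h k (by have := Finset.mem_range.mp hk; omega)]

theorem rel_iff_coeff (m N : ℕ) (a : ℕ → E.A)
    (t : CP (Fin (N + 2)) ⟶ LC.of (Th 1 (Fin m → Fin (N + 2))))
    (ht : IsPairMap (X := CP (Fin (N + 2))) (fun x : Gr 1 (Fin (N + 2)) => tpow m x.P)
      (fun _ => 0) t)
    (e : ∀ k : ℕ, CP (Fin (N + 2)) ⟶ LC.of (Th (k + 1) (Fin (k + 1) × Fin (N + 2))))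
    (he : ∀ k, IsPairMap (X := CP (Fin (N + 2)))
      (fun x i j => if i.1 = j.1 then Gr.P (x : Gr 1 (Fin (N + 2))) i.2 j.2 else 0)
      (fun _ => 0) (e k)) :
    haveI := o.goodGr
    E.map t (o.tau 1 (Fin m → Fin (N + 2))) =
        ∑ k ∈ Finset.range (N + 1), a k • E.map (e k) (o.tau (k + 1) (Fin (k + 1) × Fin (N + 2))) ↔
      ∀ k ≤ N, PowerSeries.coeff (k + 1) (multSeries o.law.toFG m) = a k := by
  haveI := o.goodGr
  haveI : E.Good (CP (Fin (N + 2))) := ⟨MultTheory.GoodGr.gr 1 _⟩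
  have hc : PowerSeries.coeff 0 (multSeries o.law.toFG m) = 0 := by
    rw [PowerSeries.coeff_zero_eq_constantCoeff_apply, constantCoeff_multSeries]
  rw [← nev1_z_iff o N _ hc a, map_tensorPower o m t ht, lc_tpow, lc_id]
  have h : ∀ k, E.map (e k) (o.tau (k + 1) (Fin (k + 1) × Fin (N + 2))) =
      o.z (Fin (N + 2)) ^ (k + 1) := fun k => map_multiple o k (e k) (he k)
  simp only [h]

end multTheory

section oriented

open Vale.Agent.P251.I Vale.Agent.P251.T Vale.Agent.P251.M Vale.Agent.P251.S Vale.Agent.P217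
open Vale.Agent.P251 Vale.Agent.P251.Z

variable {T : Type u} [Category.{v} T] [Preadditive T] [HasZeroObject T]
    [HasShift T ℤ] [∀ n : ℤ, (shiftFunctor T n).Additive] [Pretriangulated T]
    [MonoidalCategory T] [SymmetricCategory T] [TensorTriangulated T]
variable {F : SpaceFunctor T} {K : T} [MonObj K] [IsCommMonObj K] {Ev : EvenSpheres T}
variable {ε : SphId F Ev} {o : Oriented F K}
variable {s : F.S.obj CCF ⟶ (RSys K Ev).obj 0 1}
variable {W : ThomFam (RSys K Ev) F s}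
variable {hF : CofTriangles F} {hs : (RSys K Ev).IsSusp s}

/-- The relation of `ℂP^{N+1}` which defines the coefficients of the `m`-series. -/
def ZRel (o : Oriented F K) (m N : ℕ) (v : ∀ k : ℕ, SC F k ⟶ K) : Prop :=
  sus F (X := grF 1 (Fin (N + 2))) (Y := thF 1 (Fin m → Fin (N + 2)))
      (tensorPowerMap m (Fin (N + 2))) ≫ o.θ 1 _ =
    ∑ k ∈ Finset.range (N + 1),
      sus F (X := grF 1 (Fin (N + 2))) (Y := thF (k + 1) (Fin (k + 1) × Fin (N + 2)))
          (multipleMap (k + 1) (Fin (N + 2))) ≫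
        o.θ (k + 1) _ ≫ mulBy F (v k) (appendIso k 1)

theorem zrel_iff_coeff (h : IsFam ε o W) (m N : ℕ) (v : ∀ k : ℕ, SC F k ⟶ K) :
    ZRel o m N v ↔ ∀ k ≤ N,
      PowerSeries.coeff (k + 1) (multSeries (W.orientation hF hs).law.toFG m) =
        coefOf hF hs ((ε.iso k).inv ≫ v k) := by
  rw [← rel_iff_coeff (W.orientation hF hs) m N (fun k => coefOf hF hs ((ε.iso k).inv ≫ v k))
    (tensorPowerMap m (Fin (N + 2))) (isTensorPower_map m _)
    (fun k => multipleMap (k + 1) (Fin (N + 2))) (fun k => isMultiple_map (k + 1) _)]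
  have h1 := h.map_tau (hF := hF) (hs := hs) (Cells.gr 1 (Fin (N + 2)))
    (tensorPowerMap m (Fin (N + 2)))
  have h2 : ∀ k : ℕ, coefOf hF hs ((ε.iso k).inv ≫ v k) •
      (theory (RSys K Ev) F hF s hs).map (multipleMap (k + 1) (Fin (N + 2)))
        ((W.orientation hF hs).tau (k + 1) (Fin (k + 1) × Fin (N + 2))) =
      tuel hF hs (Cells.gr 1 (Fin (N + 2))) (1 : ℕ)
        ((sus F (X := grF 1 (Fin (N + 2))) (Y := thF (k + 1) (Fin (k + 1) × Fin (N + 2)))
          (multipleMap (k + 1) (Fin (N + 2))) ≫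
        o.θ (k + 1) _ ≫ mulBy F (v k) (appendIso k 1)) ≫ K ◁ (ε.iso 1).hom) := by
    intro k
    have hc : (k : ℤ) + (1 : ℕ) = (k + 1 : ℕ) := by push_cast; rfl
    rw [h.map_tau (Cells.gr 1 (Fin (N + 2))), smul_tuel (Cells.gr 1 (Fin (N + 2))) hc]
    simp only [Category.assoc]
    rw [mulBy_iso ε (v k) (appendIso k 1) (isAppend_appendIso k 1) hc]
  simp only [h1, h2]
  have h3 : ∀ y : ℕ → (F.S.obj (grF 1 (Fin (N + 2))) ⟶ K ⊗ Ev.S (1 : ℕ)),
      ∑ x ∈ Finset.range (N + 1),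
        tuel hF hs (Cells.gr 1 (Fin (N + 2))) (1 : ℕ) (y x) =
      tuel hF hs (Cells.gr 1 (Fin (N + 2))) (1 : ℕ) (∑ x ∈ Finset.range (N + 1), y x) :=
    fun y => (map_sum (uel K Ev F (Cells.gr 1 (Fin (N + 2))) (1 : ℕ)) y _).symm
  rw [h3, ← Preadditive.sum_comp, (tuel_injective (hF := hF) (hs := hs)
    (Cells.gr 1 (Fin (N + 2))) (1 : ℕ)).eq_iff, ← Category.assoc, cancel_mono]
  exact Iff.rfl

end oriented

end Vale.Agent.P257.V4.K
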