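import Vale.Agent.P257.V4.K.Statement
import Vale.Agent.P257.V4.K.PSer1
import Vale.Agent.P251.St.OfChrom

/-!
# P257, part K: the statement-level `p`-series

* `gS`, `sS`, `eS`, `tS` : the standard maps of the definition `IsPSeries`, and their uniqueness.
* `isPSeries_iff_zrel` : comparison with the relation `ZRel` of the library.
-/

open CategoryTheory MonoidalCategory OnePoint Topology Limits Pretriangulated Matrix MonObj

noncomputable section

namespace Vale.Agent.P257.V4.K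

open Vale.Agent.P251 Vale.Agent.P251.St Vale.Agent.P251.G Vale.Agent.P251.G.LC

variable {T : SHCat} (S : Susp T)

/-! ### The standard maps -/

/-- the map `(ℂ^k × ℂ)⁺ → (ℂ^(k+1))⁺` -/
def gS (k : ℕ) : Map ((St.Cn k).prod (St.Cn 1)) (St.Cn (k + 1)) :=
  ofHom (X := (St.Cn k).prod (St.Cn 1)) (Y := St.Cn (k + 1)) (Z.appendIso k 1).hom

theorem gS_apply (k : ℕ) (a : Fin k → ℂ) (b : Fin 1 → ℂ) :
    (gS k).toFun (Space.pt (X := (St.Cn k).prod (St.Cn 1)) (a, b)) =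
      Space.pt (X := St.Cn (k + 1)) (Fin.append a b) := rfl

/-- the inverse of `S^{2k} ⊗ S^2 ≅ S^{2k+2}` -/
def sS (k : ℕ) : SHCat.Hom (S.obj (St.Cn (k + 1))) (SHCat.ten (S.obj (St.Cn k)) (S.obj (St.Cn 1))) :=
  (Z.SCadd S.toSpaceFunctor (Z.appendIso k 1)).inv

theorem sS_spec (k : ℕ) :
    SHCat.comp (sS S k) (SHCat.comp (S.mul (St.Cn k) (St.Cn 1)) (S.map (gS k))) =
      SHCat.ident (S.obj (St.Cn (k + 1))) :=
  (Z.SCadd S.toSpaceFunctor (Z.appendIso k 1)).inv_hom_id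

/-- the zero section of `k + 1` copies of the tautological line bundle -/
def eS (N k : ℕ) : Map (St.CP (Fin (N + 2))) (St.Th (k + 1) (Fin (k + 1) × Fin (N + 2))) :=
  ofHom (X := St.CP (Fin (N + 2))) (Y := St.Th (k + 1) (Fin (k + 1) × Fin (N + 2)))
    ((cpIso (Fin (N + 2))).hom ≫ Z.multipleMap (k + 1) (Fin (N + 2)) ≫
      (thIso (k + 1) (Fin (k + 1) × Fin (N + 2))).inv)

theorem eS_spec (N k : ℕ) :
    St.IsPair (fun (x : CPSet (Fin (N + 2))) i j => if i.1 = j.1 then x.1 i.2 j.2 else 0)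
      (fun _ => 0) (eS N k) :=
  isPair_conj (X := St.CP (Fin (N + 2))) (X' := LC.of (Gr 1 (Fin (N + 2)))) (cpHomeo (Fin (N + 2)))
      (P := fun (x : Gr 1 (Fin (N + 2))) (i j : Fin (k + 1) × Fin (N + 2)) =>
        if i.1 = j.1 then x.P i.2 j.2 else 0) (v := fun _ => 0)
      (Z.isMultiple_map (k + 1) (Fin (N + 2)))

/-- the zero section of the `p`-th tensor power of the tautological line bundle -/
def tS (p N : ℕ) : Map (St.CP (Fin (N + 2))) (St.Th 1 (Fin p → Fin (N + 2))) :=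
  ofHom (X := St.CP (Fin (N + 2))) (Y := St.Th 1 (Fin p → Fin (N + 2)))
    ((cpIso (Fin (N + 2))).hom ≫ Z.tensorPowerMap p (Fin (N + 2)) ≫
      (thIso 1 (Fin p → Fin (N + 2))).inv)

theorem tS_spec (p N : ℕ) :
    St.IsPair (fun (x : CPSet (Fin (N + 2))) i j => ∏ l, x.1 (i l) (j l)) (fun _ => 0) (tS p N) :=
  isPair_conj (X := St.CP (Fin (N + 2))) (X' := LC.of (Gr 1 (Fin (N + 2)))) (cpHomeo (Fin (N + 2)))
      (P := fun (x : Gr 1 (Fin (N + 2))) (i j : Fin p → Fin (N + 2)) =>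
        ∏ k, x.P (i k) (j k)) (v := fun _ => 0) (Z.isTensorPower_map p (Fin (N + 2)))

theorem isPair_unique {X : Space} {n : ℕ} {A : Type} [Fintype A] {P : X.carrier → Matrix A A ℂ}
    {v : X.carrier → A → ℂ} {f g : Map X (St.Th n A)} (hf : St.IsPair P v f)
    (hg : St.IsPair P v g) : f = g := by
  apply Map.ext
  intro x
  induction x using OnePoint.rec with
  | infty => rw [f.map_infty, g.map_infty]
  | coe x =>
    obtain ⟨y, hy, hy'⟩ := hf x
    obtain ⟨z, hz, hz'⟩ := hg x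
    exact hy.trans ((congrArg _ (Subtype.ext (hy'.trans hz'.symm))).trans hz.symm)

theorem gS_unique {k : ℕ} {g : Map ((St.Cn k).prod (St.Cn 1)) (St.Cn (k + 1))}
    (hg : ∀ (a : Fin k → ℂ) (b : Fin 1 → ℂ),
      g.toFun (Space.pt (X := (St.Cn k).prod (St.Cn 1)) (a, b)) =
        Space.pt (X := St.Cn (k + 1)) (Fin.append a b)) : g = gS k := by
  apply Map.ext
  intro x
  induction x using OnePoint.rec with
  | infty => rw [g.map_infty, (gS k).map_infty]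
  | coe x => exact hg x.1 x.2

theorem sS_unique {k : ℕ}
    {s : SHCat.Hom (S.obj (St.Cn (k + 1))) (SHCat.ten (S.obj (St.Cn k)) (S.obj (St.Cn 1)))}
    (hs : SHCat.comp s (SHCat.comp (S.mul (St.Cn k) (St.Cn 1)) (S.map (gS k))) =
      SHCat.ident (S.obj (St.Cn (k + 1)))) : s = sS S k :=
  (cancel_mono (Z.SCadd S.toSpaceFunctor (Z.appendIso k 1)).hom).mp (hs.trans (sS_spec S k).symm)

/-! ### Comparison -/

variable {S} {R : RingSp T}

/-- the equation of `IsPSeries` for the standard maps -/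
def SRel (o : St.Oriented S R) (p N : ℕ) (v : ∀ k : ℕ, SHCat.Hom (S.obj (St.Cn k)) R.obj) : Prop :=
  SHCat.comp (S.map (tS p N)) (o.θ 1 _) =
    ∑ k ∈ Finset.range (N + 1),
      SHCat.comp (SHCat.comp (S.map (eS N k)) (o.θ (k + 1) _)) (shiftBy S (sS S k) (v k))

theorem isPSeries_iff_srel (o : St.Oriented S R) (p N : ℕ)
    (v : ∀ k : ℕ, SHCat.Hom (S.obj (St.Cn k)) R.obj) :
    IsPSeries S o p N v ↔ SRel o p N v := by
  constructor
  · intro h
    exact h gS (sS S) (eS N) (tS p N) gS_apply (sS_spec S) (eS_spec N) (tS_spec p N)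
  · intro h g s e t hg hs he ht
    obtain rfl : g = gS := funext fun k => gS_unique (hg k)
    obtain rfl : s = sS S := funext fun k => sS_unique S (hs k)
    obtain rfl : e = eS N := funext fun k => isPair_unique (he k) (eS_spec N k)
    obtain rfl : t = tS p N := isPair_unique ht (tS_spec p N)
    exact h

theorem shiftBy_sS {k : ℕ} (v : SHCat.Hom (S.obj (St.Cn k)) R.obj) :
    shiftBy S (sS S k) v = Z.mulBy S.toSpaceFunctor (K := R.obj) v (Z.appendIso k 1) := by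
  change (𝟙 R.obj ⊗ₘ sS S k) ≫ (α_ R.obj (S.obj (St.Cn k)) (S.obj (St.Cn 1))).inv ≫
      (((𝟙 R.obj ⊗ₘ v) ≫ μ[R.obj]) ⊗ₘ 𝟙 (S.obj (St.Cn 1))) =
    R.obj ◁ sS S k ≫ R.obj ◁ (v ▷ S.obj (St.Cn 1)) ≫ (α_ R.obj R.obj (S.obj (St.Cn 1))).inv ≫
      μ[R.obj] ▷ S.obj (St.Cn 1)
  rw [MonoidalCategory.id_tensorHom, MonoidalCategory.id_tensorHom,
    MonoidalCategory.tensorHom_id, comp_whiskerRight,
    associator_inv_naturality_middle_assoc]

theorem comp3_aux {C : Type*} [Category C] {A B X Y Z : C} (a : A ⟶ B) (b : B ⟶ X) (x : X ⟶ Y)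
    (y : Y ⟶ Z) : (a ≫ b ≫ x) ≫ y = a ≫ b ≫ x ≫ y := by
  simp only [Category.assoc]

theorem sum_cancel_aux {C : Type*} [Category C] [Preadditive C] {X Y Z : C} (c : X ⟶ Y) (c' : Y ⟶ X)
    (h : c' ≫ c = 𝟙 Y) (a : Y ⟶ Z) (b : ℕ → (Y ⟶ Z)) (n : ℕ) (A : X ⟶ Z) (B : ℕ → (X ⟶ Z))
    (hA : A = c ≫ a) (hB : ∀ k, B k = c ≫ b k) :
    A = ∑ k ∈ Finset.range n, B k ↔ a = ∑ k ∈ Finset.range n, b k := by
  rw [hA, Finset.sum_congr rfl fun k _ => hB k, ← Preadditive.comp_sum]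
  constructor
  · intro h1
    have h2 := congrArg (fun k => c' ≫ k) h1
    simp only [← Category.assoc, h, Category.id_comp] at h2
    exact h2
  · intro h1
    rw [h1]

theorem srel_iff_zrel (o : St.Oriented S R) (p N : ℕ)
    (v : ∀ k : ℕ, SHCat.Hom (S.obj (St.Cn k)) R.obj) :
    SRel o p N v ↔ ZRel (F := S.toSpaceFunctor) (K := R.obj) (zOriented o) p N v := by
  have hG := Z.Cells.gr 1 (Fin (N + 2))
  have hG' := (fc_iff _).mp (fc_cp (Fin (N + 2)))
  have hT := Z.Cells.th 1 (Fin p → Fin (N + 2))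
  have hT' := (fc_iff _).mp (fc_th 1 (Fin p → Fin (N + 2)))
  have h4 : S.mapL (cpIso (Fin (N + 2))).inv ≫ S.mapL (cpIso (Fin (N + 2))).hom = 𝟙 _ :=
    S.mapL_inv_hom hG' hG _
  have ea : S.map (tS p N) ≫ o.θ 1 _ = S.mapL (cpIso (Fin (N + 2))).hom ≫
      S.mapL (Z.tensorPowerMap p (Fin (N + 2))) ≫ zθ o 1 _ := by
    change S.mapL ((cpIso (Fin (N + 2))).hom ≫ Z.tensorPowerMap p (Fin (N + 2)) ≫
      (thIso 1 (Fin p → Fin (N + 2))).inv) ≫ o.θ 1 _ = _
    rw [S.mapL_comp hG' hG hT', S.mapL_comp hG hT hT', Category.assoc, Category.assoc]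
    rfl
  have eb : ∀ k : ℕ, SHCat.comp (SHCat.comp (S.map (eS N k)) (o.θ (k + 1) _))
        (shiftBy S (sS S k) (v k)) = S.mapL (cpIso (Fin (N + 2))).hom ≫
      S.mapL (Z.multipleMap (k + 1) (Fin (N + 2))) ≫ zθ o (k + 1) _ ≫
        Z.mulBy S.toSpaceFunctor (K := R.obj) (v k) (Z.appendIso k 1) := by
    intro k
    have hE := Z.Cells.th (k + 1) (Fin (k + 1) × Fin (N + 2))
    have hE' := (fc_iff _).mp (fc_th (k + 1) (Fin (k + 1) × Fin (N + 2)))
    rw [shiftBy_sS]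
    change (S.mapL ((cpIso (Fin (N + 2))).hom ≫ Z.multipleMap (k + 1) (Fin (N + 2)) ≫
      (thIso (k + 1) (Fin (k + 1) × Fin (N + 2))).inv) ≫ o.θ (k + 1) _) ≫ _ = _
    rw [S.mapL_comp hG' hG hE', S.mapL_comp hG hE hE', Category.assoc, Category.assoc]
    exact comp3_aux _ _ (zθ o (k + 1) _) _
  exact sum_cancel_aux (Z := R.obj ⊗ S.obj (St.Cn 1)) (S.mapL (cpIso (Fin (N + 2))).hom)
    (S.mapL (cpIso (Fin (N + 2))).inv) h4
    (S.mapL (Z.tensorPowerMap p (Fin (N + 2))) ≫ zθ o 1 _)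
    (fun k => S.mapL (Z.multipleMap (k + 1) (Fin (N + 2))) ≫ zθ o (k + 1) _ ≫
        Z.mulBy S.toSpaceFunctor (K := R.obj) (v k) (Z.appendIso k 1)) (N + 1) _ _ ea eb

theorem isPSeries_iff_zrel (o : St.Oriented S R) (p N : ℕ)
    (v : ∀ k : ℕ, SHCat.Hom (S.obj (St.Cn k)) R.obj) :
    IsPSeries S o p N v ↔
      ZRel (F := S.toSpaceFunctor) (K := R.obj) (zOriented o) p N v :=
  (isPSeries_iff_srel o p N v).trans (srel_iff_zrel o p N v)

end Vale.Agent.P257.V4.K
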