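import Vale.Agent.P257.V4.K.Chp

/-!
# P257, part K: the homotopy of `R ⊗ X` for an iterated cofibre `X`

`R` a commutative monoid. If `π_* (R ⊗ X)` is generated by `u : 𝟙 ⟶ X` with annihilator `I`, and
`f : X ⊗ S^{2w} ⟶ X` has Hurewicz class `v u` with `v` regular modulo `I`, then the homotopy of
`R ⊗ X'` is generated by `u ≫ i` with annihilator `(I, v)`, for the cofibre `i : X ⟶ X'` of `f`.
-/

open CategoryTheory MonoidalCategory Limits Pretriangulated MonObj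

set_option linter.unusedSectionVars false

universe v u

noncomputable section

namespace Vale.Agent.P257.V4.K

open Vale.Agent.P251.T Vale.Agent.P251.M Vale.Agent.P251.S Vale.Agent.P257.V4.E
  Vale.Agent.P257.V4.O

variable {T : Type u} [Category.{v} T] [Preadditive T] [HasZeroObject T]
    [HasShift T ℤ] [∀ n : ℤ, (shiftFunctor T n).Additive] [Pretriangulated T]
    [MonoidalCategory T] [SymmetricCategory T] [TensorTriangulated T]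

section mul

variable {R : T} [MonObj R]

/-- multiplication by `v` -/
def mulR {L : T} (v : L ⟶ R) : R ⊗ L ⟶ R := R ◁ v ≫ μ[R]

theorem mulR_comp {L L' : T} (g : L' ⟶ L) (v : L ⟶ R) : mulR (g ≫ v) = R ◁ g ≫ mulR v := by
  rw [mulR, mulR, MonoidalCategory.whiskerLeft_comp, Category.assoc]

theorem unitMap_act (X : T) :
    R ◁ unitMap R X ≫ (α_ R R X).inv ≫ μ[R] ▷ X = 𝟙 _ := by
  have h1 : R ◁ unitMap R X ≫ (α_ R R X).inv = (ρ_ R).inv ▷ X ≫ (R ◁ η[R]) ▷ X := by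
    unfold unitMap
    monoidal
  rw [reassoc_of% h1, ← comp_whiskerRight, ← comp_whiskerRight, MonObj.mul_one,
    Iso.inv_hom_id, id_whiskerRight]

/-- A map with Hurewicz class `v u` induces the multiplication by `v`. -/
theorem whisker_of_hur {L X : T} {u : 𝟙_ T ⟶ X} {g : L ⟶ X} {v : L ⟶ R}
    (hg : g ≫ unitMap R X = v ≫ ux u R) : R ◁ g = mulR v ≫ ux u R := by
  have h1 : R ◁ g = (R ◁ g) ≫ R ◁ unitMap R X ≫ (α_ R R X).inv ≫ μ[R] ▷ X := by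
    rw [unitMap_act, Category.comp_id]
  rw [h1, ← MonoidalCategory.whiskerLeft_comp_assoc, hg, MonoidalCategory.whiskerLeft_comp,
    Category.assoc, reassoc_of% (whiskerLeft_ux u R R), ux_nat, mulR, Category.assoc]

end mul

/-- `𝟙⟦k⟧ ≅ 𝟙⟦k - 2w⟧ ⊗ S^{2w}` -/
def jIso (k w : ℤ) : (𝟙_ T)⟦k⟧ ≅ ((𝟙_ T)⟦k - 2 * w⟧) ⊗ (stdEven T).S w :=
  (shiftFunctorAdd' T (k - 2 * w) (2 * w) k (by ring)).app (𝟙_ T) ≪≫
    ((sN T w).app ((𝟙_ T)⟦k - 2 * w⟧)).symm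

theorem exists_desuspK {k w : ℤ} {Z : T} (y : (𝟙_ T)⟦k⟧ ⟶ Z ⊗ (stdEven T).S w) :
    ∃ x : (𝟙_ T)⟦k - 2 * w⟧ ⟶ Z, y = (jIso k w).hom ≫ x ▷ (stdEven T).S w := by
  obtain ⟨x, hx⟩ := whiskerRight_surj ((stdEven T).S w) ((jIso k w).inv ≫ y)
  exact ⟨x, by rw [hx, Iso.hom_inv_id_assoc]⟩

section gen

variable (R : T) [MonObj R]

/-- The homotopy of `R ⊗ X` is generated by `u : 𝟙 ⟶ X`, with annihilator `I`. -/
structure Gen {X : T} (u : 𝟙_ T ⟶ X) (I : ∀ W : T, (W ⟶ R) → Prop) : Prop where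
  surj : ∀ (k : ℤ) (x : (𝟙_ T)⟦k⟧ ⟶ R ⊗ X), ∃ a : (𝟙_ T)⟦k⟧ ⟶ R, x = a ≫ ux u R
  ker : ∀ (k : ℤ) (a : (𝟙_ T)⟦k⟧ ⟶ R), a ≫ ux u R = 0 ↔ I _ a

variable {R}

/-- `(I, v)` -/
def addI (I : ∀ W : T, (W ⟶ R) → Prop) {L : T} (v : L ⟶ R) (W : T) (a : W ⟶ R) : Prop :=
  ∃ b : W ⟶ R ⊗ L, I W (a - b ≫ mulR v)

variable {X : T} {u : 𝟙_ T ⟶ X} {I : ∀ W : T, (W ⟶ R) → Prop}

theorem Gen.exists_gen (h : Gen R u I) {k w : ℤ} (y : (𝟙_ T)⟦k⟧ ⟶ R ⊗ (X ⊗ (stdEven T).S w)) :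
    ∃ b : (𝟙_ T)⟦k - 2 * w⟧ ⟶ R,
      y = ((jIso k w).hom ≫ b ▷ (stdEven T).S w) ≫ R ◁ ((λ_ _).inv ≫ u ▷ (stdEven T).S w) := by
  obtain ⟨x, hx⟩ := exists_desuspK (y ≫ (α_ _ _ _).inv)
  obtain ⟨b, rfl⟩ := h.surj _ x
  refine ⟨b, ?_⟩
  rw [← ux_tensor, ← cancel_mono (α_ R X ((stdEven T).S w)).inv, hx, comp_whiskerRight]
  simp only [Category.assoc, Iso.hom_inv_id, Category.comp_id]

variable {w : ℤ} {f : X ⊗ (stdEven T).S w ⟶ X} {v : (stdEven T).S w ⟶ R}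
  (hf : ((λ_ _).inv ≫ u ▷ (stdEven T).S w ≫ f) ≫ unitMap R X = v ≫ ux u R)

include hf in
theorem gen_comp {W : T} (b : W ⟶ R ⊗ (stdEven T).S w) :
    (b ≫ R ◁ ((λ_ _).inv ≫ u ▷ (stdEven T).S w)) ≫ R ◁ f = (b ≫ mulR v) ≫ ux u R := by
  rw [Category.assoc, Category.assoc, ← MonoidalCategory.whiskerLeft_comp, Category.assoc,
    whisker_of_hur hf]

variable {X' : T} {i : X ⟶ X'} {δ : X' ⟶ (X ⊗ (stdEven T).S w)⟦(1 : ℤ)⟧}
  (hd : Triangle.mk f i δ ∈ distTriang T)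
  (hI : ∀ {W W' : T} (e : W' ≅ W) (a : W ⟶ R), I W' (e.hom ≫ a) ↔ I W a)
  (hI0 : ∀ {k : ℤ}, I ((𝟙_ T)⟦k⟧) 0)
  (hreg : ∀ (k : ℤ) (b : (𝟙_ T)⟦k⟧ ⟶ R), I _ (b ▷ (stdEven T).S w ≫ mulR v) → I _ b)

include hf hI hreg in
theorem Gen.f_inj (h : Gen R u I) {k : ℤ} (y : (𝟙_ T)⟦k⟧ ⟶ R ⊗ (X ⊗ (stdEven T).S w))
    (hy : y ≫ R ◁ f = 0) : y = 0 := by
  obtain ⟨b, rfl⟩ := h.exists_gen y
  rw [gen_comp hf, h.ker, Category.assoc, hI] at hy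
  have h1 := (h.ker _ b).2 (hreg _ b hy)
  rw [← ux_tensor, Category.assoc, ← comp_whiskerRight_assoc, h1,
    MonoidalPreadditive.zero_whiskerRight, zero_comp, comp_zero]

include hf hd hI hreg in
/-- **The step.** -/
theorem Gen.step (h : Gen R u I) : Gen R (u ≫ i) (addI I v) where
  surj k y := by
    have hT := tens_dist R hd
    have h0 : (y ≫ tensδ R δ) ≫ (R ◁ f)⟦(1 : ℤ)⟧' = 0 := by
      rw [Category.assoc]
      have := comp_distTriang_mor_zero₃₁ _ hT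
      change tensδ R δ ≫ (R ◁ f)⟦(1 : ℤ)⟧' = 0 at this
      rw [this, comp_zero]
    have h1 : (sh (k - 1) 1 k (by ring)).symm (y ≫ tensδ R δ) = 0 := by
      apply h.f_inj hf hI hreg
      rw [sh_symm_comp, h0, map_zero]
    rw [AddEquiv.symm_apply_eq, map_zero] at h1
    obtain ⟨x, hx⟩ : ∃ x, y = x ≫ R ◁ i := Triangle.coyoneda_exact₃ _ hT y h1
    obtain ⟨a, rfl⟩ := h.surj k x
    exact ⟨a, by rw [hx, Category.assoc, ux_comp]⟩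
  ker k a := by
    have hT := tens_dist R hd
    rw [← ux_comp, ← Category.assoc]
    constructor
    · intro h1
      obtain ⟨y, hy⟩ : ∃ y, a ≫ ux u R = y ≫ R ◁ f := Triangle.coyoneda_exact₂ _ hT _ h1
      obtain ⟨b, rfl⟩ := h.exists_gen y
      rw [gen_comp hf, ← sub_eq_zero, ← Preadditive.sub_comp, h.ker] at hy
      exact ⟨_, hy⟩
    · rintro ⟨b, hb⟩
      rw [← h.ker, Preadditive.sub_comp, sub_eq_zero, ← gen_comp hf] at hb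
      have h2 : R ◁ f ≫ R ◁ i = 0 := comp_distTriang_mor_zero₁₂ _ hT
      rw [hb, Category.assoc, h2, comp_zero]

end gen

end Vale.Agent.P257.V4.K
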