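import Vale.Agent.P251.S.ExactCouple

/-!
# P257, part K: the tower induction in an exact couple

`exists_lift_steps`: a cocycle `z ∈ E^0_n` lifts to `D^0_n` if every element `y` of `D^{s+2}_{n-1}`
over `k z ∈ D^1_{n-1}` can be changed, without changing its image in `D^1`, in such a way that
`j y` is a coboundary.
-/

universe u v

namespace Vale.Agent.P257.V4.K

open Vale.Agent.P251.S Couple

variable (C : Couple.{u, v})

theorem proj_add (n : ℤ) {b a : ℕ} (h : b ≤ a) (x y : C.D a n) :
    C.proj n h (x + y) = C.proj n h x + C.proj n h y := by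
  induction a, h using Nat.le_induction with
  | base => rw [proj_self, proj_self, proj_self]
  | succ a h ih => rw [C.proj_succ n h, map_add, ih, C.proj_succ n h, C.proj_succ n h]

theorem proj_neg (n : ℤ) {b a : ℕ} (h : b ≤ a) (x : C.D a n) :
    C.proj n h (-x) = -C.proj n h x := by
  rw [eq_neg_iff_add_eq_zero, ← proj_add, neg_add_cancel, proj_zero']

theorem proj_sub (n : ℤ) {b a : ℕ} (h : b ≤ a) (x y : C.D a n) :
    C.proj n h (x - y) = C.proj n h x - C.proj n h y := by
  rw [sub_eq_add_neg, proj_add, proj_neg, sub_eq_add_neg]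

theorem proj_proj (n : ℤ) {c b a : ℕ} (h : c ≤ b) (h' : b ≤ a) (x : C.D a n) :
    C.proj n h (C.proj n h' x) = C.proj n (h.trans h') x := by
  induction a, h' using Nat.le_induction with
  | base => rw [proj_self]
  | succ a h' ih => rw [C.proj_succ n h', ih, C.proj_succ n (h.trans h')]

/-- The image of a boundary `k z` in a lower filtration is zero. -/
theorem proj_k {n m : ℤ} (h : n = m + 1) {b s : ℕ} (hb : b ≤ s) (z : C.E s n) :
    C.proj m (Nat.le_succ_of_le hb) (C.k s n m h z) = 0 := by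
  rw [C.proj_succ m hb, C.i_k, proj_zero']

/-- If `j y` is a coboundary then `y` can be changed into an element which lifts one step
further. -/
theorem exists_next {m : ℤ} {b s : ℕ} (hb : b ≤ s) (y : C.D (s + 1) m)
    (hy : C.IsCobdy (C.j (s + 1) m y)) :
    ∃ y' : C.D (s + 2) m, C.proj m (hb.trans (Nat.le_add_right s 2)) y' =
      C.proj m (Nat.le_succ_of_le hb) y := by
  obtain ⟨z, hz⟩ := hy
  have h0 : C.j (s + 1) m (y - C.k s (m + 1) m rfl z) = 0 := by
    rw [map_sub, sub_eq_zero]; exact hz.symm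
  obtain ⟨y', hy'⟩ := C.exact_j _ _ _ h0
  refine ⟨y', ?_⟩
  have h1 : C.proj m (hb.trans (Nat.le_add_right s 2)) y' =
      C.proj m (Nat.le_succ_of_le hb) (C.i (s + 1) m y') :=
    C.proj_succ m (Nat.le_succ_of_le hb) y'
  rw [h1, hy', proj_sub, proj_k C rfl hb, sub_zero]

/-- Lifting in a range: an element `y ∈ D^b_m` with `j y = 0` lifts to `D^a_m`, `b < a`, if
`Van` holds at `E^{b+1}, …, E^{a-1}`. -/
theorem exists_lift_range {m : ℤ} {b : ℕ} (y : C.D b m) (hy : C.j b m y = 0) {a : ℕ}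
    (h : b + 1 ≤ a) (hv : ∀ s, b ≤ s → s + 1 < a → C.Van s m) :
    ∃ y' : C.D a m, C.proj m (show b ≤ a by omega) y' = y := by
  induction a, h using Nat.le_induction with
  | base =>
    obtain ⟨y', hy'⟩ := C.exact_j _ _ _ hy
    refine ⟨y', ?_⟩
    have := C.proj_succ m (le_refl b) y'
    rw [proj_self, hy'] at this
    exact this
  | succ a h ih =>
    obtain ⟨y', hy'⟩ := ih fun s hs hs' => hv s hs (by omega)
    obtain ⟨c, rfl⟩ : ∃ c, a = c + 1 := ⟨a - 1, by omega⟩
    obtain ⟨w, hw⟩ := exists_next C (b := b) (s := c) (by omega) y'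
      (hv c (by omega) (by omega) _ (C.isCocycle_j y'))
    exact ⟨w, hw.trans hy'⟩

/-- **The tower induction.** -/
theorem exists_lift_steps {n m : ℤ} (h : n = m + 1) (z : C.E 0 n) (hz : C.IsCocycle z)
    (hs : ∀ (s : ℕ) (y : C.D (s + 2) m), C.proj m (show 1 ≤ s + 2 by omega) y = C.k 0 n m h z →
      ∃ y' : C.D (s + 2) m, C.proj m (show 1 ≤ s + 2 by omega) y' = C.k 0 n m h z ∧
        C.IsCobdy (C.j (s + 2) m y'))
    (r : ℕ) (hr : ∀ y : C.D (r + 2) m, y = 0) : ∃ x : C.D 0 n, C.j 0 n x = z := by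
  have key : ∀ s : ℕ, ∃ y : C.D (s + 2) m,
      C.proj m (show 1 ≤ s + 2 by omega) y = C.k 0 n m h z := by
    intro s
    induction s with
    | zero =>
      obtain ⟨y, hy⟩ := C.exact_j _ _ _ (hz m h : C.j (0 + 1) m (C.k 0 n m h z) = 0)
      refine ⟨y, ?_⟩
      rw [← hy]
      have := C.proj_succ m (le_refl 1) y
      rw [proj_self] at this
      exact this
    | succ s ih =>
      obtain ⟨y, hy⟩ := ih
      obtain ⟨y', hy', hb⟩ := hs s y hy
      obtain ⟨w, hw⟩ := exists_next C (b := 1) (s := s + 1) (by omega) y' hb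
      exact ⟨w, hw.trans hy'⟩
  obtain ⟨y, hy⟩ := key r
  apply C.exact_k 0 n m h
  rw [← hy, hr y, proj_zero']

end Vale.Agent.P257.V4.K
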