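import Vale.Agent.P257.V4.K.LFin

/-!
# P257, part K: the obstruction in filtration `q p + 1`

`exists_t` : the input `hT` of `exists_lift_v4` from (F6) and the realisation of the classes
`b_0^{p^2-p-2} y` by elements which die in filtration one.
-/

open CategoryTheory MonoidalCategory Limits Pretriangulated MonObj

set_option linter.unusedSectionVars false

universe v u

namespace Vale.Agent.P257.V4.K

open Vale.Agent.P251.T Vale.Agent.P251.M Vale.Agent.P251.S Vale.Agent.P257.V4.A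
  Vale.Agent.P257.V4.E Vale.Agent.P257.V4.O

variable {T : Type u} [Category.{v} T] [Preadditive T] [HasZeroObject T]
    [HasShift T ℤ] [∀ n : ℤ, (shiftFunctor T n).Additive] [Pretriangulated T]
    [MonoidalCategory T] [SymmetricCategory T] [TensorTriangulated T] [HasCoproducts.{0} T]
    {K : CosR} {R : T} [MonObj R] [IsCommMonObj R] {E : RMod K R} (U : UnitCof R) {X : T}
    {u : 𝟙_ T ⟶ X} {p : ℕ} [Fact p.Prime] {F : ChMap K p}

theorem isCobdy_sub {s : ℕ} {x y : Ch p s} (hx : Ch.IsCobdy x) (hy : Ch.IsCobdy y) :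
    Ch.IsCobdy (x - y) := by
  cases s with
  | zero =>
    have hx' : x = 0 := hx
    have hy' : y = 0 := hy
    rw [hx', hy', sub_zero]
    rfl
  | succ s =>
    obtain ⟨a, rfl⟩ := hx
    obtain ⟨b, rfl⟩ := hy
    exact ⟨a - b, map_sub _ _ _⟩

theorem outF6_cst (h6 : OutF6 p) {n : ℕ} (hn : 5 + 2 * (p ^ 2 - p - 2) = n) (z : Ch p n)
    (hz : Ch.IsWt (Ch.N p 4 + p) z) (hd : Ch.d n z = 0) :
    ∃ y : Ch p 5, Ch.IsWt (2 * p ^ 2 + 4 * p + 1) y ∧ Ch.d 5 y = 0 ∧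
      Ch.IsCobdy (z - cstCh hn (Ch.b0mul (p ^ 2 - p - 2) y)) := by
  subst hn
  exact h6 z hz hd

/-- The realisation of the classes `b_0^{p^2-p-2} y` in degree `n = q p + 1`, by elements `τ` which
die in filtration one. -/
def TReal (F : ChMap K p) (E : RMod K R) (u : 𝟙_ T ⟶ X) (m : ℤ) (n : ℕ)
    (hn : 5 + 2 * (p ^ 2 - p - 2) = n)
    (hm : m + (n : ℤ) = 2 * (((p : ℤ) - 1) * (Ch.N p 4 + p : ℕ))) : Prop :=
  ∀ y : Ch p 5, Ch.IsWt (2 * p ^ 2 + 4 * p + 1) y → Ch.d 5 y = 0 →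
    ∃ (τ : (cpl U X).D n m) (zh : K.wt n (((p : ℤ) - 1) * (Ch.N p 4 + p : ℕ))),
      (cpl U X).proj m (show 1 ≤ n by omega) τ = 0 ∧ K.d n _ zh ∈ E.kx u (n + 1) _ ∧
      clE E U u hm zh = (cpl U X).j n m τ ∧
      Ch.IsCobdy (F.φ n zh.1 - cstCh hn (Ch.b0mul (p ^ 2 - p - 2) y))

theorem TReal.cst {m : ℤ} {n n' : ℕ} {hn : 5 + 2 * (p ^ 2 - p - 2) = n} (h : n = n')
    {hm : m + (n : ℤ) = 2 * (((p : ℤ) - 1) * (Ch.N p 4 + p : ℕ))} (H : TReal U F E u m n hn hm) :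
    TReal U F E u m n' (hn.trans h) (by rw [← h]; exact hm) := by
  subst h
  exact H

/-- The input `hT` of `exists_lift_v4`. -/
theorem exists_t {q : ℤ} (hX : E.XM q u) (hC : CmpX E u F (Ch.N p 4)) (h6 : OutF6 p)
    {m : ℤ} {s : ℕ} (hn : 5 + 2 * (p ^ 2 - p - 2) = s + 2)
    (hp2 : p < s + 2)
    {hm : m + ((s + 2 : ℕ) : ℤ) = 2 * (((p : ℤ) - 1) * (Ch.N p 4 + p : ℕ))}
    (H : TReal U F E u m (s + 2) hn hm) (y : (cpl U X).D (s + 2) m) :
    ∃ t : (cpl U X).D (s + 2) m, (cpl U X).proj m (show 1 ≤ s + 2 by omega) t = 0 ∧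
      (cpl U X).IsCobdy ((cpl U X).j (s + 2) m (y - t)) := by
  obtain ⟨zo, hzo, hzo'⟩ := exists_clE E U hX hm _ ((cpl U X).isCocycle_j y)
  obtain ⟨c, hc, hdc, hb⟩ := outF6_cst h6 hn (F.φ (s + 2) zo.1) (F.φ_wt (s + 2) _ _ zo.2)
    (hC.coc hzo)
  obtain ⟨τ, zh, hτ, hzh, hzh', hb'⟩ := H c hc hdc
  refine ⟨τ, hτ, ?_⟩
  have h1 : (cpl U X).j (s + 2) m (y - τ) = clE E U u hm (zo - zh) := by
    rw [map_sub, map_sub, hzo', hzh']
  rw [h1]
  refine hC.isCobdy U (by omega) hm ?_ ?_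
  · rw [map_sub]
    exact sub_mem hzo hzh
  · have h2 : F.φ (s + 2) (zo - zh).1 =
        (F.φ (s + 2) zo.1 - cstCh hn (Ch.b0mul (p ^ 2 - p - 2) c)) -
          (F.φ (s + 2) zh.1 - cstCh hn (Ch.b0mul (p ^ 2 - p - 2) c)) := by
      rw [sub_sub_sub_cancel_right]
      exact map_sub (F.φ (s + 2)) zo.1 zh.1
    exact h2 ▸ isCobdy_sub hb hb'

end Vale.Agent.P257.V4.K
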