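import Vale.Agent.P257.V4.K.TFin
import Vale.Agent.P257.V4.K.CmpInst
import Vale.Agent.P257.V4.B.Classes
import Vale.Agent.P257.V4.T.Toda

/-!
# P257, part K: input (T) of the lift of `v_4` from the Toda data `T0D`
-/

open CategoryTheory MonoidalCategory Limits Pretriangulated MonObj

set_option linter.unusedSectionVars false

universe v u

namespace Vale.Agent.P257.V4.K

open Vale.Agent.P251.T Vale.Agent.P251.M Vale.Agent.P251.S Vale.Agent.P251.F Vale.Agent.P251.I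
  Vale.Agent.P257.V4.A Vale.Agent.P257.V4.E Vale.Agent.P257.V4.O Vale.Agent.P257.V4.T
  Vale.Agent.P257.V4.B

section algebra

variable {p : ℕ} [Fact p.Prime]

theorem toCh_t_one : toCh p 1 (NB.t 0 0) = Ch.t p 1 := by
  have h : Ch.t p 1 = ((Ch.univ p 1).g (0 : Fin 1).succ).a 1 := rfl
  rw [toCh_t, h, Ch.univ_g_succ, G.mk_a_succ]

theorem toCh_cup_aux (i : ℕ) :
    toCh p (1 + 1) (NB.cup (a := 1) (b := 1) (NB.t 0 0 ^ i) (NB.t 0 0 ^ (p - i))) =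
      Ch.cup rfl (Ch.t p 1 ^ i) (Ch.t p 1 ^ (p - i)) := by
  rw [toCh_cup, map_pow, map_pow, toCh_t_one]

/-- The image of `b_0` in `Ch p 2`. -/
theorem toCh_bN : toCh p 2 (bN p) = Ch.b0 p := by
  rw [bN, Ch.b0]
  refine (map_sum (toCh p (1 + 1)) _ _).trans ?_
  refine Finset.sum_congr rfl fun i _ => ?_
  rw [map_zsmul]
  exact congrArg _ (toCh_cup_aux i)

/-- The image of `bcls p t`. -/
theorem chM_bcls (hp2 : p ≠ 2) {t : Cob Laz 1} (ht : IsT1 p t) :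
    (chM p).φ 2 (bcls p t) = (-1 : ℤ) • Ch.b0 p := by
  rw [chM_apply, toNB_bcls hp2 ht, map_neg, toCh_bN, neg_smul, one_smul]

end algebra

section

variable {T : Type u} [Category.{v} T] [Preadditive T] [HasZeroObject T]
    [HasShift T ℤ] [∀ n : ℤ, (shiftFunctor T n).Additive] [Pretriangulated T]
    [MonoidalCategory T] [SymmetricCategory T] [TensorTriangulated T] [HasCoproducts.{0} T]
    {R : T} [MonObj R] [IsCommMonObj R] {E : RMod cobK R} {U : UnitCof R} {X : T} {u : 𝟙_ T ⟶ X}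
    {p : ℕ} [Fact p.Prime]

/-- A right unital product from a left unital one. -/
lemma ux_braid {m : X ⊗ X ⟶ X} (hm : u ▷ X ≫ m = (λ_ X).hom) :
    ux u X ≫ (β_ X X).hom ≫ m = 𝟙 X := by
  rw [ux, Category.assoc, BraidedCategory.braiding_naturality_right_assoc, hm,
    braiding_tensorUnit_right]
  simp

/-- The action of `X` on `B s X`. -/
lemma exists_act {m : X ⊗ X ⟶ X} (hm : u ▷ X ≫ m = (λ_ X).hom) (s : ℕ) :
    ∃ a : X ⊗ U.cobar.B s X ⟶ U.cobar.B s X, u ▷ U.cobar.B s X ≫ a = (λ_ _).hom := by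
  refine ⟨xo U s ((β_ X X).hom ≫ m) (𝟙 (U.cobar.B s X)), ?_⟩
  have h := u_xo U (u₂ := u) ((β_ X X).hom ≫ m) (ux_braid hm) (𝟙 (U.cobar.B s X))
  rw [Iso.inv_comp_eq] at h
  rw [h, Category.comp_id]

/-- The cochain of `β₁`. -/
lemma d_bcls_mem (hp2 : p ≠ 2) (Z : T0D E U p) :
    cobK.d 2 _ ⟨bcls p Z.t, Z.wb⟩ ∈ E.kx u 3 _ := by
  have h1 : cobK.d 2 ((p : ℤ) * ((p : ℤ) - 1)) ⟨bcls p Z.t, Z.wb⟩ = 0 := by
    obtain ⟨-, -, -, h4, -⟩ := BCocycle p hp2 Z.t Z.isT1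
    apply Subtype.ext
    rw [CosR.coe_d]
    refine Eq.trans ?_ h4
    rw [CosR.dd_apply, Cob.d_apply]
  rw [h1]
  exact zero_mem _

/-- **Input (T) of the lift of `v_4`, from the Toda data.** -/
theorem hT_toda (hp : 11 ≤ p) (hXM : E.XM ((2 * p - 2 : ℕ) : ℤ) u) (hC : Cmp U p 4 X)
    (hX : CmpX E u (chM p) (Ch.N p 4)) (hO : Out p) (hc : Conn U X) {m : X ⊗ X ⟶ X}
    (hm : u ▷ X ≫ m = (λ_ X).hom) (Z : T0D E U p)
    (hk : ∀ (Y V : T) (a : X ⊗ Y ⟶ Y), u ▷ Y ≫ a = (λ_ Y).hom → ∀ y : V ⟶ Y, Ann y Z.α →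
      mulPow y Z.β ((p - 1) ^ 2) = 0)
    {w : ℤ} (hw : 2 * w = ((2 * p - 2 : ℕ) : ℤ) * Ch.N p 4) :
    ∀ s : ℕ, s + 1 = (2 * p - 2) * p → ∀ y : (cpl U X).D (s + 2) (2 * w - 1),
      ∃ t : (cpl U X).D (s + 2) (2 * w - 1),
        (cpl U X).proj (2 * w - 1) (show 1 ≤ s + 2 by omega) t = 0 ∧
        (cpl U X).IsCobdy ((cpl U X).j (s + 2) (2 * w - 1) (y - t)) := by
  obtain ⟨a, ha⟩ := exists_act (U := U) hm 5
  exact hT_of hp hXM hC hX hO.t4a hO.t4b hO.f6 hc (ux_braid hm) rfl rfl T0D.ea Z.at_bd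
    T0D.eb Z.bt_bd (Z.bt_class u) (d_bcls_mem (by omega) Z) (ε := -1) (by norm_num)
    (chM_bcls (by omega) Z.isT1) (fun V y hy => hk _ V a ha y hy) hw

end

end Vale.Agent.P257.V4.K
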