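import Vale.Agent.P257.V4.K.V3
import Vale.Agent.P257.V4.K.TToda
import Vale.Agent.P257.V4.T.TodaB
import Vale.Agent.P257.V4.T.T3Room

/-!
# P257, part K: the input (T) of the lift of `v_4` over `b : BData D p`

`hT_b` : the input `hT` of `exists_lift_v4` for `V(3)`, from the relation `α₁ β₁ ^ p = 0` in `S/p`.
-/

open CategoryTheory MonoidalCategory Limits Pretriangulated MonObj

set_option linter.unusedSectionVars false

universe v u

namespace Vale.Agent.P257.V4.K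

open Vale.Agent.P251.T Vale.Agent.P251.M Vale.Agent.P251.S Vale.Agent.P251.F Vale.Agent.P251.I
  Vale.Agent.P257.V4.A Vale.Agent.P257.V4.E Vale.Agent.P257.V4.O Vale.Agent.P257.V4.B
  Vale.Agent.P257.V4.T

variable {T : Type u} [Category.{v} T] [Preadditive T] [HasZeroObject T]
    [HasShift T ℤ] [∀ n : ℤ, (shiftFunctor T n).Additive] [Pretriangulated T] [IsTriangulated T]
    [MonoidalCategory T] [SymmetricCategory T] [TensorTriangulated T] [MonoidalClosed T]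
    [HasCoproducts.{0} T] [HasProducts.{0} T] [StableCat T]

variable {D : MUData T} {p : ℕ} [hp : Fact p.Prime] {b : BData D p}

/-- The unit of an iterated cofibre is killed by `p`. -/
theorem Chp.smul_u {B : T} [MonObj B] {d : ℕ → ℤ} {v : ∀ k, (𝟙_ T)⟦d k⟧ ⟶ B} {n : ℕ} {X : T}
    {u : 𝟙_ T ⟶ X} (h : Chp p v n X u) : (p : ℤ) • u = 0 := by
  induction h with
  | base u δ hd =>
    have h := comp_distTriang_mor_zero₁₂ _ hd
    change ((p : ℤ) • 𝟙 (𝟙_ T)) ≫ u = 0 at h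
    rwa [Preadditive.zsmul_comp, Category.id_comp] at h
  | step _ _ f q δ hd _ ih =>
    rw [← Preadditive.zsmul_comp, ih, zero_comp]

theorem q_cast : ((2 * p - 2 : ℕ) : ℤ) = 2 * ((p : ℤ) - 1) := by
  have := hp.out.two_le
  push_cast [Nat.cast_sub (show 2 ≤ 2 * p by omega)]
  ring

/-- **The input (T)** of the lift of `v_4`. -/
theorem hT_b (U : UnitCof b.obj) (h11 : 11 ≤ p) (hO : Out p) (Z : T0D b.rmod U p)
    (h0 : ∀ {Sp : T} {ip : 𝟙_ T ⟶ Sp} {δp : Sp ⟶ (𝟙_ T)⟦(1 : ℤ)⟧},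
      Triangle.mk ((p : ℤ) • 𝟙 (𝟙_ T)) ip δp ∈ distTriang T → mulPow Z.α Z.β p ≫ ip = 0)
    {X : T} {u : 𝟙_ T ⟶ X} {m : X ⊗ X ⟶ X} (h : IVb b 4 u) (hm : (u ▷ X) ≫ m = (λ_ X).hom) :
    ∀ s : ℕ, s + 1 = (2 * p - 2) * p → ∀ y : (cpl U X).D (s + 2) (2 * wv p 4 - 1),
      ∃ t : (cpl U X).D (s + 2) (2 * wv p 4 - 1),
        (cpl U X).proj (2 * wv p 4 - 1) (show 1 ≤ s + 2 by omega) t = 0 ∧
        (cpl U X).IsCobdy ((cpl U X).j (s + 2) (2 * wv p 4 - 1) (y - t)) := by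
  obtain ⟨Sp, ip, δp, hSp, hS⟩ := exists_start_chp b (by omega : p ≠ 2)
  obtain ⟨C, i, δ, hC⟩ := distinguished_cocone_triangle Z.α
  refine hT_toda h11 h.iv.xm (h.cmp U hO.low (by norm_num)) (h.cmpX hO.low (by norm_num)) hO
    (h.conn U) hm Z ?_ (two_wv 4)
  intro Y V a ha y hy
  refine Z.kill hSp hC (h0 hSp) (fun y => ?_) u h.chp.smul_u a ha y hy
  have h6 := T3.hvan_room U (p := p) (X := Sp) (by omega) (fun s k hk => ?_) (fun s k hk => ?_)
    hC (p - 1) y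
  · rw [h6, map_zero]
  · exact b.spj_iv U hS.iv.xm 0 s k (by rw [q_cast]; exact hk)
  · exact b.conn_iv U wv_nonneg hS.iv.xm hS.chp s k (by rw [q_cast]; exact hk)

end Vale.Agent.P257.V4.K
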