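import Vale.Agent.P257.V4.T.T4b
import Vale.Agent.P257.V4.K.Steps
import Vale.Agent.P257.V4.K.Kx
import Vale.Agent.P257.V4.K.Lift

/-!
# P257, part K: the elements `b_0 ^ k y` are realised and die (input (T) of the lift of `v_4`)
-/

open CategoryTheory MonoidalCategory Limits Pretriangulated MonObj

set_option linter.unusedSectionVars false

universe v u

namespace Vale.Agent.P257.V4.K

open Vale.Agent.P251.T Vale.Agent.P251.M Vale.Agent.P251.S Vale.Agent.P257.V4.A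
  Vale.Agent.P257.V4.E Vale.Agent.P257.V4.O Vale.Agent.P257.V4.T

variable {T : Type u} [Category.{v} T] [Preadditive T] [HasZeroObject T]
    [HasShift T ℤ] [∀ n : ℤ, (shiftFunctor T n).Additive] [Pretriangulated T]
    [MonoidalCategory T] [SymmetricCategory T] [TensorTriangulated T] [HasCoproducts.{0} T]
    {K : CosR} {R : T} [MonObj R] [IsCommMonObj R] (E : RMod K R) (U : UnitCof R) {X : T}
    (u : 𝟙_ T ⟶ X)

/-! ### The cochains -/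

/-- Transport of the index. -/
def castw {a b : ℕ} (h : a = b) {w : ℤ} (z : K.wt a w) : K.wt b w := h ▸ z

lemma castw_rfl {a : ℕ} {w : ℤ} (z : K.wt a w) : castw (rfl : a = a) z = z := rfl

lemma qX_castw {a b : ℕ} (h : a = b) {w : ℤ} (z : K.wt a w) :
    E.qX U u b w (castw h z) = E.qX U u a w z ≫ R ◁ cB U h X := by
  subst h
  rw [castw_rfl, cB_rfl, MonoidalCategory.whiskerLeft_id, Category.comp_id]

lemma d_castw_mem {a b : ℕ} (h : a = b) {w : ℤ} {z : K.wt a w}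
    (hz : K.d a w z ∈ E.kx u (a + 1) w) : K.d b w (castw h z) ∈ E.kx u (b + 1) w := by
  subst h
  exact hz

/-- The weights. -/
def wk (wb w : ℤ) : ℕ → ℤ
  | 0 => w
  | k + 1 => wb + wk wb w k

lemma wk_eq (wb w : ℤ) (k : ℕ) : wk wb w k = w + k * wb := by
  induction k with
  | zero => simp [wk]
  | succ k ih => rw [wk, ih]; push_cast; ring

/-- The cup product of the `k`-th power of `zb` and `y`. -/
noncomputable def zc {wb w : ℤ} (zb : K.wt 2 wb) {b : ℕ} (y : K.wt b w) :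
    ∀ k : ℕ, K.wt (b + 2 * k) (wk wb w k)
  | 0 => y
  | k + 1 => castw (show 2 + (b + 2 * k) = b + 2 * (k + 1) by omega) (K.cupw rfl zb (zc zb y k))

lemma d_zc_mem {wb w : ℤ} {zb : K.wt 2 wb} (hb : K.d 2 wb zb ∈ E.kx u 3 wb) {b : ℕ}
    {y : K.wt b w} (hy : K.d b w y ∈ E.kx u (b + 1) w) (k : ℕ) :
    K.d (b + 2 * k) (wk wb w k) (zc zb y k) ∈ E.kx u (b + 2 * k + 1) (wk wb w k) := by
  induction k with
  | zero => exact hy
  | succ k ih => exact d_castw_mem E u _ (d_cupw_mem rfl hb ih)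

lemma φ_castw_cupw {a b n : ℕ} (h : a + b = n) {w v w' : ℤ} (hw : w + v = w') (x : K.wt a w)
    (y : K.wt b v) {p : ℕ} [Fact p.Prime] (F : ChMap K p) :
    F.φ n (castw h (K.cupw hw x y)).1 = Ch.cup h (F.φ a x.1) (F.φ b y.1) := by
  subst h
  exact F.φ_cupw hw x y

lemma φ_zc {p : ℕ} [Fact p.Prime] (F : ChMap K p) {wb w : ℤ} {zb : K.wt 2 wb} {ε : ℤ}
    (hb : F.φ 2 zb.1 = ε • Ch.b0 p) {b : ℕ} (y : K.wt b w) (k : ℕ) :
    F.φ (b + 2 * k) (zc zb y k).1 = ε ^ k • Ch.b0mul k (F.φ b y.1) := by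
  induction k with
  | zero => simp [zc, Ch.b0mul]
  | succ k ih =>
    refine (φ_castw_cupw _ _ _ _ F).trans ?_
    rw [hb, ih, Ch.b0mul, Ch.cup_zsmul_left, Ch.cup_zsmul_right, smul_smul, pow_succ']

/-! ### The elements -/

variable {wb w : ℤ} (bt : (stdEven T).S wb ⟶ U.cobar.B 2 (𝟙_ T))

/-- The product of the `k`-th power of `bt` and `f`. -/
noncomputable def zS {b : ℕ} (f : (stdEven T).S w ⟶ U.cobar.B b X) :
    ∀ k : ℕ, (stdEven T).S (wk wb w k) ⟶ U.cobar.B (b + 2 * k) X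
  | 0 => f
  | k + 1 => ((stdEven T).mu wb (wk wb w k) (wk wb w (k + 1)) rfl).inv ≫ lm U 2 bt (zS f k)

lemma exists_zS {b : ℕ} (f : (stdEven T).S w ⟶ U.cobar.B b X) (k : ℕ) :
    ∃ g : (stdEven T).S (wk wb w k) ⟶ Vk ((stdEven T).S wb) ((stdEven T).S w) k,
      zS U bt f k = g ≫ zP U bt f k := by
  induction k with
  | zero => exact ⟨𝟙 _, (Category.id_comp _).symm⟩
  | succ k ih =>
    obtain ⟨g, hg⟩ := ih
    refine ⟨((stdEven T).mu wb (wk wb w k) (wk wb w (k + 1)) rfl).inv ≫ (stdEven T).S wb ◁ g, ?_⟩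
    rw [zS, hg, Category.assoc]
    change _ ≫ lm U 2 bt (g ≫ zP U bt f k) = _ ≫ _ ≫ lm U 2 bt (zP U bt f k)
    rw [lm, lm, tensorHom_def', tensorHom_def', MonoidalCategory.whiskerLeft_comp]
    simp only [Category.assoc]

/-- The class of the product with `bt`. -/
theorem lm2_unitMap {m : X ⊗ X ⟶ X} (hm : ux u X ≫ m = 𝟙 X) {zb : K.wt 2 wb}
    (hb : (bt ≫ U.cobar.Bm 2 u) ≫ unitMap R _ = E.qX U u 2 wb zb) {n : ℕ} {w w' : ℤ}
    (h : wb + w = w') {f : (stdEven T).S w ⟶ U.cobar.B n X} {y : K.wt n w}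
    (hf : f ≫ unitMap R _ = E.qX U u n w y) :
    (((stdEven T).mu wb w w' h).inv ≫ lm U 2 bt f) ≫ unitMap R (U.cobar.B (n + 2) X) =
      E.qX U u (n + 2) w' (castw (Nat.add_comm 2 n) (K.cupw h zb y)) := by
  have h1 := RMod.pE_xo E U (u₁ := u) (u₂ := u) (u₃ := u) m
    (by rw [hm, Category.comp_id]) h zb y hf.symm
  have h2 := u_xo U (u₂ := u) m hm f
  have h3 : u ▷ (stdEven T).S w ≫ xo U n m f = (λ_ _).hom ≫ f := by
    have h4 := congrArg (fun g => (λ_ _).hom ≫ g) h2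
    simp only [Iso.hom_inv_id_assoc] at h4
    exact h4
  have h5 : lm U 2 bt f = bt ▷ (stdEven T).S w ≫ tB U 2 (𝟙_ T) ((stdEven T).S w) ≫
      U.cobar.Bm 2 ((λ_ _).hom ≫ f) ≫ (BB U.cobar 2 n X).hom ≫ cB U (Nat.add_comm 2 n) X := by
    rw [lm, FF, tensorHom_def, Category.assoc, tB_nat'_assoc, ← CobarData.Bm_comp_assoc,
      leftUnitor_naturality]
  have h6 : ((stdEven T).mu wb w w' h).inv ≫ lm U 2 bt f =
      pD U h (bt ≫ U.cobar.Bm 2 u) (xo U n m f) ≫ cB U (Nat.add_comm 2 n) X := by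
    rw [pD_nat, h3, pD, h5]
    simp only [Category.assoc]
  rw [h6, Category.assoc, unitMap_nat, ← Category.assoc, ← pE_unit, hb, h1, qX_castw]

/-- The class of the product. -/
theorem zS_unitMap {m : X ⊗ X ⟶ X} (hm : ux u X ≫ m = 𝟙 X) {zb : K.wt 2 wb}
    (hb : (bt ≫ U.cobar.Bm 2 u) ≫ unitMap R _ = E.qX U u 2 wb zb) {b : ℕ}
    {f : (stdEven T).S w ⟶ U.cobar.B b X} {y : K.wt b w}
    (hf : f ≫ unitMap R _ = E.qX U u b w y) (k : ℕ) :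
    zS U bt f k ≫ unitMap R _ = E.qX U u (b + 2 * k) (wk wb w k) (zc zb y k) := by
  induction k with
  | zero => exact hf
  | succ k ih => exact lm2_unitMap E U u bt hm hb rfl ih

/-! ### The element of the couple -/

variable {E U u}

/-- The element of `D^s_n` of a homotopy class of `B s X`. -/
noncomputable def dS {s : ℕ} {n w : ℤ} (h : n + (s : ℤ) = 2 * w)
    (f : (stdEven T).S w ⟶ U.cobar.B s X) : (cpl U X).D s n :=
  (dT U X (𝟙_ T) h).symm ((sphE T w).inv ≫ f)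

lemma dT_dS {s : ℕ} {n w : ℤ} (h : n + (s : ℤ) = 2 * w) (f : (stdEven T).S w ⟶ U.cobar.B s X) :
    dT U X (𝟙_ T) h (dS h f) = (sphE T w).inv ≫ f := AddEquiv.apply_symm_apply _ _

lemma exists_dS {s : ℕ} {n w : ℤ} (h : n + (s : ℤ) = 2 * w) (x : (cpl U X).D s n) :
    ∃ f : (stdEven T).S w ⟶ U.cobar.B s X, dS h f = x := by
  refine ⟨(sphE T w).hom ≫ dT U X (𝟙_ T) h x, ?_⟩
  apply (dT U X (𝟙_ T) h).injective
  rw [dT_dS, Iso.inv_hom_id_assoc]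

lemma j_dS {s : ℕ} {n w : ℤ} (h : n + (s : ℤ) = 2 * w) (f : (stdEven T).S w ⟶ U.cobar.B s X)
    (z : K.wt s w) : (cpl U X).j s n (dS h f) = clE E U u h z ↔
      f ≫ unitMap R _ = E.qX U u s w z := by
  have h1 := eT_j U X (𝟙_ T) h (dS h f)
  rw [dT_dS] at h1
  have h2 := eT_clE E U u h z
  constructor
  · intro h3
    have h4 := congrArg (eT U X (𝟙_ T) h) h3
    rw [h2] at h4
    have h5 := h1.symm.trans h4
    rw [Category.assoc] at h5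
    exact (cancel_epi _).1 h5
  · intro h3
    apply (eT U X (𝟙_ T) h).injective
    rw [h2]
    refine h1.trans ?_
    rw [Category.assoc]
    exact congrArg _ h3

/-! ### The groups -/

section main

variable {p : ℕ} [Fact p.Prime]

lemma van_aux (hp : 2 ≤ p) (hC : Cmp U p 4 X) {D l₀ : ℕ} (hD : D < Ch.N p 4 + 6) (hl₀ : l₀ ≤ 1)
    (hV : ∀ l, l₀ ≤ l → Ch.Van p (6 + (2 * p - 2) * l) (D + l)) {m : ℤ}
    (hm : m + 6 = ((2 * p - 2 : ℕ) : ℤ) * D) {s : ℕ} (hs : 5 + l₀ ≤ s) : (cpl U X).Van s m := by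
  by_cases hdvd : ((2 * p - 2 : ℕ) : ℤ) ∣ m + ((s + 1 : ℕ) : ℤ)
  · obtain ⟨r, rfl⟩ : ∃ r, s = 5 + r := ⟨s - 5, by omega⟩
    have h1 : (2 * p - 2) ∣ r := by
      have h3 := dvd_sub hdvd (Dvd.intro (D : ℤ) rfl)
      have e : m + ((5 + r + 1 : ℕ) : ℤ) - ((2 * p - 2 : ℕ) : ℤ) * D = (r : ℤ) := by
        rw [← hm]; push_cast; ring
      rw [e] at h3
      exact_mod_cast h3
    obtain ⟨l, rfl⟩ := h1
    have hl : l₀ ≤ l := by
      rcases Nat.eq_zero_or_pos l with rfl | hl'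
      · simp at hs; omega
      · omega
    have h2 := hV l hl
    have h3 : 6 + (2 * p - 2) * l = 5 + (2 * p - 2) * l + 1 := by omega
    rw [h3] at h2
    have h4 : 1 * l ≤ (2 * p - 2) * l := Nat.mul_le_mul_right l (by omega)
    have h5 := hC.van (5 + (2 * p - 2) * l) (D + l) (by omega) h2
    have e : ((2 * p - 2 : ℕ) : ℤ) * ((D + l : ℕ) : ℤ) - ((5 + (2 * p - 2) * l + 1 : ℕ) : ℤ) =
        m := by
      rw [eq_sub_iff_add_eq.2 hm]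
      push_cast
      ring
    rwa [e] at h5
  · exact hC.spa s m hdvd

lemma D0_lt (hp : 3 ≤ p) : 2 * p ^ 2 + 4 * p + 2 ≤ Ch.N p 4 + 1 := by
  obtain ⟨c, rfl⟩ : ∃ c, p = c + 3 := ⟨p - 3, by omega⟩
  simp only [Ch.N, Finset.sum_range_succ, Finset.sum_range_zero, pow_zero, pow_one]
  nlinarith [Nat.zero_le c, Nat.zero_le (c ^ 2), Nat.zero_le (c ^ 3)]

variable {F : ChMap K p}

/-- **The elements `b_0^k y` are realised, and the realisations die in `D^1`.** -/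
theorem exists_tau (hp : 11 ≤ p) (hC : Cmp U p 4 X) (hX : CmpX E u F (Ch.N p 4)) (hA : OutT4a p)
    (hB : OutT4b p) (hc : Conn U X) {m : X ⊗ X ⟶ X} (hm : ux u X ≫ m = 𝟙 X)
    {Oa Ob : T} {α : Oa ⟶ 𝟙_ T} {β : Ob ⟶ 𝟙_ T} {wa wb : ℤ} (hwa : wa = (p : ℤ) - 1)
    {at' : (stdEven T).S wa ⟶ U.cobar.B 1 (𝟙_ T)} (ea : (stdEven T).S wa ≅ Oa⟦(1 : ℤ)⟧)
    (hat : at' ≫ U.bd 0 (𝟙_ T) = ea.hom ≫ α⟦(1 : ℤ)⟧')
    {bt : (stdEven T).S wb ⟶ U.cobar.B 2 (𝟙_ T)}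
    (eb : (stdEven T).S wb ≅ (Ob⟦(1 : ℤ)⟧)⟦(1 : ℤ)⟧)
    (hbt : bt ≫ bd2 U 0 (𝟙_ T) = eb.hom ≫ (β⟦(1 : ℤ)⟧')⟦(1 : ℤ)⟧')
    {zb : K.wt 2 wb} (hzb : (bt ≫ U.cobar.Bm 2 u) ≫ unitMap R _ = E.qX U u 2 wb zb)
    (hdb : K.d 2 wb zb ∈ E.kx u 3 wb) {ε : ℤ} (hφ : F.φ 2 zb.1 = ε • Ch.b0 p)
    (hkill : ∀ (V : T) (y : V ⟶ U.cobar.B 5 X), Ann y α → mulPow y β ((p - 1) ^ 2) = 0)
    {y : Ch p 5} (hy : Ch.IsWt (2 * p ^ 2 + 4 * p + 1) y) (hdy : Ch.d 5 y = 0)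
    {k : ℕ} (hk : (p - 1) ^ 2 ≤ k) {n w : ℤ}
    (hw : w = wk wb (((p : ℤ) - 1) * ((2 * p ^ 2 + 4 * p + 1 : ℕ) : ℤ)) k)
    (h : n + ((5 + 2 * k : ℕ) : ℤ) = 2 * w) :
    ∃ (t : (cpl U X).D (5 + 2 * k) n) (z : K.wt (5 + 2 * k) w),
      K.d (5 + 2 * k) w z ∈ E.kx u (5 + 2 * k + 1) w ∧
      (cpl U X).proj n (show 1 ≤ 5 + 2 * k by omega) t = 0 ∧
      (cpl U X).j (5 + 2 * k) n t = clE E U u h z ∧
      F.φ (5 + 2 * k) z.1 = ε ^ k • Ch.b0mul k y := by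
  have hD := D0_lt (p := p) (by omega)
  obtain ⟨D, hDdef⟩ : ∃ D : ℕ, D = 2 * p ^ 2 + 4 * p + 1 := ⟨_, rfl⟩
  rw [← hDdef] at hy hw
  obtain ⟨wy, hwy⟩ : ∃ wy : ℤ, wy = ((p : ℤ) - 1) * (D : ℤ) := ⟨_, rfl⟩
  -- the cochain of `y`
  have h0 := hX.lift 5 D y hy hdy (by omega)
  rw [← hwy] at h0 hw
  obtain ⟨zy, hzy, hφy⟩ := h0
  have h5 : (2 * wy - 5) + ((5 : ℕ) : ℤ) = 2 * wy := by push_cast; ring
  have h2wy : 2 * wy = ((2 * p - 2 : ℕ) : ℤ) * D := by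
    rw [hwy]
    exact two_mul_wt (by omega) D
  -- the lift of `y`
  obtain ⟨x, hx⟩ := exists_lift_of hc (s := 5) (n := 2 * wy - 5) (m := 2 * wy - 6) (by ring)
    (fun s' hs' => van_aux (by omega) hC (D := D) (l₀ := 1) (by omega) le_rfl
      (fun l hl => by rw [hDdef]; exact hA l hl) (by rw [← h2wy]; ring) hs') (clE E U u h5 zy)
    (isCocycle_clE E U u h5 hzy)
  obtain ⟨f, rfl⟩ := exists_dS h5 x
  have hf : f ≫ unitMap R _ = E.qX U u 5 wy zy := (j_dS h5 f zy).1 hx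
  -- `α f = 0`
  have h6 : (2 * (wa + wy) - 6) + ((5 + 1 : ℕ) : ℤ) = 2 * (wa + wy) := by push_cast; ring
  have h7 : (2 * (wa + wy) - 6) + 6 = ((2 * p - 2 : ℕ) : ℤ) * ((D + 1 : ℕ) : ℤ) := by
    have h9 := two_mul_wt (p := p) (by omega) 1
    rw [Nat.cast_one] at h9
    rw [Nat.cast_add, Nat.cast_one]
    linear_combination 2 * hwa + h2wy + h9
  have h8 := i_eq_zero_of hc (s := 5) (m := 2 * (wa + wy) - 6)
    (fun s' hs' => van_aux (by omega) hC (D := D + 1) (l₀ := 0) (by omega) (by omega)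
      (fun l _ => by
        rw [hDdef]
        exact hB l) h7 hs')
    (dS h6 (((stdEven T).mu wa wy (wa + wy) rfl).inv ≫ lm U 1 at' f))
  have h9 : (2 * (wa + wy) - 6) + ((5 : ℕ) : ℤ) = 2 * (wa + wy) - 1 := by push_cast; ring
  have h10 := dT_i U X (𝟙_ T) h9 h6 (by ring)
    (dS h6 (((stdEven T).mu wa wy (wa + wy) rfl).inv ≫ lm U 1 at' f))
  rw [h8, map_zero, map_zero, dT_dS, Category.assoc] at h10
  have h11 : lm U 1 at' f ≫ U.bd 5 X = 0 := by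
    rw [← cancel_epi ((stdEven T).mu wa wy (wa + wy) rfl).inv, ← cancel_epi (sphE T (wa + wy)).inv,
      comp_zero, comp_zero]
    refine Eq.trans ?_ h10.symm
    simp only [Category.assoc]
  have h12 : Ann f α := by
    have h := l0_of_lm U ea hat f h11
    rw [Ann, mulE_swap]
    change (β_ _ _).hom ≫ l0 α f = 0
    rw [h, comp_zero]
  have h13 : mulPow f β k = 0 := mulPow_mono hk (hkill _ f h12)
  -- the products with the powers of `bt`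
  subst hw
  refine ⟨dS h (zS U bt f k), zc zb zy k, d_zc_mem E u hdb hzy k, ?_,
    (j_dS h _ _).2 (zS_unitMap E U u bt hm hzb hf k), ?_⟩
  · obtain ⟨g, hg⟩ := exists_zS U bt f k
    have h14 : dT U X (𝟙_ T) h (dS h (zS U bt f k)) ≫ bdN U 5 X k = 0 := by
      rw [dT_dS, hg, Category.assoc, Category.assoc, zP_bdN U eb hbt k f h13, comp_zero,
        comp_zero]
    have h15 := proj_of_bdN U k h _ h14
    have h16 := proj_proj (cpl U X) n (show 1 ≤ 5 by omega) (show 5 ≤ 5 + 2 * k by omega)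
      (dS h (zS U bt f k))
    rw [← h16]
    have h17 : (cpl U X).proj n (show 5 ≤ 5 + 2 * k by omega) (dS h (zS U bt f k)) = 0 := h15
    rw [h17]
    exact (cpl U X).proj_zero' n _
  · rw [φ_zc F hφ, hφy]

lemma five_add (hp : 11 ≤ p) : 5 + 2 * (p ^ 2 - p - 2) = (2 * p - 2) * p + 1 := by
  obtain ⟨c, rfl⟩ : ∃ c, p = c + 2 := ⟨p - 2, by omega⟩
  have h1 : (c + 2) ^ 2 - (c + 2) - 2 = c ^ 2 + 3 * c := by
    have : (c + 2) ^ 2 = (c ^ 2 + 3 * c) + 2 + (c + 2) := by ring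
    omega
  have h2 : 2 * (c + 2) - 2 = 2 * c + 2 := by omega
  rw [h1, h2]
  ring

lemma sq_le_k (hp : 11 ≤ p) : (p - 1) ^ 2 ≤ p ^ 2 - p - 2 := by
  obtain ⟨c, rfl⟩ : ∃ c, p = c + 3 := ⟨p - 3, by omega⟩
  have h1 : (c + 3) ^ 2 - (c + 3) - 2 = c ^ 2 + 5 * c + 4 := by
    have : (c + 3) ^ 2 = (c ^ 2 + 5 * c + 4) + 2 + (c + 3) := by ring
    omega
  rw [h1, show c + 3 - 1 = c + 2 by omega]
  nlinarith

lemma even_k (hp : 11 ≤ p) : Even (p ^ 2 - p - 2) := by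
  obtain ⟨c, rfl⟩ : ∃ c, p = c + 2 := ⟨p - 2, by omega⟩
  have h1 : (c + 2) ^ 2 - (c + 2) - 2 = c * (c + 1) + 2 * c := by
    have : (c + 2) ^ 2 = (c * (c + 1) + 2 * c) + 2 + (c + 2) := by ring
    omega
  rw [h1]
  exact (Nat.even_mul_succ_self c).add (even_two_mul c)

lemma f6_cast (hF : OutF6 p) {N : ℕ} (hN : 5 + 2 * (p ^ 2 - p - 2) = N) (z : Ch p N)
    (hz : Ch.IsWt (Ch.N p 4 + p) z) (hdz : Ch.d N z = 0) :
    ∃ y : Ch p 5, Ch.IsWt (2 * p ^ 2 + 4 * p + 1) y ∧ Ch.d 5 y = 0 ∧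
      Ch.IsCobdy (z - hN ▸ Ch.b0mul (p ^ 2 - p - 2) y) := by
  subst hN
  exact hF z hz hdz

/-- **Input (T) of the lift of `v_4`.** -/
theorem hT_of (hp : 11 ≤ p) (hXM : E.XM ((2 * p - 2 : ℕ) : ℤ) u) (hC : Cmp U p 4 X)
    (hX : CmpX E u F (Ch.N p 4)) (hA : OutT4a p)
    (hB : OutT4b p) (hF : OutF6 p) (hc : Conn U X) {m : X ⊗ X ⟶ X} (hm : ux u X ≫ m = 𝟙 X)
    {Oa Ob : T} {α : Oa ⟶ 𝟙_ T} {β : Ob ⟶ 𝟙_ T} {wa wb : ℤ} (hwa : wa = (p : ℤ) - 1)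
    (hwb : wb = (p : ℤ) * ((p : ℤ) - 1))
    {at' : (stdEven T).S wa ⟶ U.cobar.B 1 (𝟙_ T)} (ea : (stdEven T).S wa ≅ Oa⟦(1 : ℤ)⟧)
    (hat : at' ≫ U.bd 0 (𝟙_ T) = ea.hom ≫ α⟦(1 : ℤ)⟧')
    {bt : (stdEven T).S wb ⟶ U.cobar.B 2 (𝟙_ T)}
    (eb : (stdEven T).S wb ≅ (Ob⟦(1 : ℤ)⟧)⟦(1 : ℤ)⟧)
    (hbt : bt ≫ U.bd 1 (𝟙_ T) ≫ (U.bd 0 (𝟙_ T))⟦(1 : ℤ)⟧' =
      eb.hom ≫ (β⟦(1 : ℤ)⟧')⟦(1 : ℤ)⟧')
    {zb : K.wt 2 wb} (hzb : (bt ≫ U.cobar.Bm 2 u) ≫ unitMap R _ = E.qX U u 2 wb zb)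
    (hdb : K.d 2 wb zb ∈ E.kx u 3 wb) {ε : ℤ} (hε : ε * ε = 1) (hφ : F.φ 2 zb.1 = ε • Ch.b0 p)
    (hkill : ∀ (V : T) (y : V ⟶ U.cobar.B 5 X), Ann y α → mulPow y β ((p - 1) ^ 2) = 0)
    {w : ℤ} (hw : 2 * w = ((2 * p - 2 : ℕ) : ℤ) * Ch.N p 4) :
    ∀ s : ℕ, s + 1 = (2 * p - 2) * p → ∀ y : (cpl U X).D (s + 2) (2 * w - 1),
      ∃ t : (cpl U X).D (s + 2) (2 * w - 1),
        (cpl U X).proj (2 * w - 1) (show 1 ≤ s + 2 by omega) t = 0 ∧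
        (cpl U X).IsCobdy ((cpl U X).j (s + 2) (2 * w - 1) (y - t)) := by
  intro s hs y
  have hN : 5 + 2 * (p ^ 2 - p - 2) = s + 2 := by
    have := five_add hp
    omega
  have h2w : 2 * (((p : ℤ) - 1) * ((Ch.N p 4 + p : ℕ) : ℤ)) =
      ((2 * p - 2 : ℕ) : ℤ) * ((Ch.N p 4 + p : ℕ) : ℤ) := two_mul_wt (by omega) _
  have h : (2 * w - 1) + ((s + 2 : ℕ) : ℤ) =
      2 * (((p : ℤ) - 1) * ((Ch.N p 4 + p : ℕ) : ℤ)) := by
    have hs' : (((s + 1 : ℕ) : ℤ)) = ((2 * p - 2 : ℕ) : ℤ) * p := by exact_mod_cast hs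
    rw [h2w, hw, Nat.cast_add (Ch.N p 4) p, mul_add, ← hs']
    push_cast
    ring
  obtain ⟨z, hz, hzy⟩ := exists_clE E U hXM h ((cpl U X).j (s + 2) (2 * w - 1) y)
    ((cpl U X).isCocycle_j y)
  obtain ⟨y', hy', hdy', hcob⟩ := f6_cast hF hN (F.φ (s + 2) z.1)
    (F.φ_wt _ _ _ z.2) (hX.coc hz)
  have hwk : ((p : ℤ) - 1) * ((Ch.N p 4 + p : ℕ) : ℤ) =
      wk wb (((p : ℤ) - 1) * ((2 * p ^ 2 + 4 * p + 1 : ℕ) : ℤ)) (p ^ 2 - p - 2) := by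
    have h1 : ((p ^ 2 - p - 2 : ℕ) : ℤ) = (p : ℤ) ^ 2 - p - 2 := by
      have : p + 2 ≤ p ^ 2 := by nlinarith
      rw [Nat.cast_sub (by omega), Nat.cast_sub (by omega)]
      push_cast
      ring
    rw [wk_eq, h1, hwb]
    simp only [Ch.N, Finset.sum_range_succ, Finset.sum_range_zero]
    push_cast
    ring
  have key : ∀ N (hN : 5 + 2 * (p ^ 2 - p - 2) = N) (h1 : 1 ≤ N)
      (h : (2 * w - 1) + (N : ℤ) = 2 * (((p : ℤ) - 1) * ((Ch.N p 4 + p : ℕ) : ℤ))),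
      ∃ (t : (cpl U X).D N (2 * w - 1)) (z : K.wt N (((p : ℤ) - 1) * ((Ch.N p 4 + p : ℕ) : ℤ))),
        K.d N _ z ∈ E.kx u (N + 1) _ ∧ (cpl U X).proj (2 * w - 1) h1 t = 0 ∧
        (cpl U X).j N (2 * w - 1) t = clE E U u h z ∧
        F.φ N z.1 = hN ▸ Ch.b0mul (p ^ 2 - p - 2) y' := by
    rintro N rfl h1 h
    obtain ⟨t, z, a, b, c, d⟩ := exists_tau hp hC hX hA hB hc hm hwa ea hat eb hbt hzb hdb hφ
      hkill hy' hdy' (sq_le_k hp) hwk h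
    refine ⟨t, z, a, b, c, ?_⟩
    rw [d]
    have : ε ^ (p ^ 2 - p - 2) = 1 := by
      obtain ⟨r, hr⟩ := even_k hp
      rw [hr, pow_add, ← mul_pow, hε, one_pow]
    rw [this, one_smul]
  obtain ⟨t, z', hz', ht, hj, hφ'⟩ := key (s + 2) hN (by omega) h
  refine ⟨t, ht, ?_⟩
  rw [map_sub, hj, ← hzy, ← map_sub]
  refine hX.isCobdy U (s := s + 1) (D := Ch.N p 4 + p) ?_ h ?_ ?_
  · have h1 : 1 * p ≤ (2 * p - 2) * p := Nat.mul_le_mul_right p (by omega)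
    omega
  · rw [map_sub]
    exact sub_mem hz hz'
  · have : F.φ (s + 2) (z - z').1 = F.φ (s + 2) z.1 - hN ▸ Ch.b0mul (p ^ 2 - p - 2) y' := by
      rw [← hφ']
      exact map_sub _ _ _
    exact this ▸ hcob

end main

end Vale.Agent.P257.V4.K
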