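import Vale.Agent.P257.V4.K.Chp
import Vale.Agent.P257.V4.K.LAlg
import Vale.Agent.P257.V4.B.Start
import Vale.Agent.P257.V4.B.ConnB

/-!
# P257, part K: `V(0), …, V(3)` over `b : BData D p`

* `exists_start_chp` : `V(0)`;
* `cmpX_iv`, `cmp_iv` : the comparison with `Ch p`;
* `exists_V3` : `V(3)` with a left unital pairing.
-/

open CategoryTheory MonoidalCategory Limits Pretriangulated MonObj

set_option linter.unusedSectionVars false

universe v u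

namespace Vale.Agent.P257.V4.K

open Vale.Agent.P251.T Vale.Agent.P251.M Vale.Agent.P251.S Vale.Agent.P251.F Vale.Agent.P251.I
  Vale.Agent.P257.V4.A Vale.Agent.P257.V4.E Vale.Agent.P257.V4.O Vale.Agent.P257.V4.B

variable {T : Type u} [Category.{v} T] [Preadditive T] [HasZeroObject T]
    [HasShift T ℤ] [∀ n : ℤ, (shiftFunctor T n).Additive] [Pretriangulated T] [IsTriangulated T]
    [MonoidalCategory T] [SymmetricCategory T] [TensorTriangulated T] [MonoidalClosed T]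
    [HasCoproducts.{0} T] [HasProducts.{0} T] [StableCat T]

variable {D : MUData T} {p : ℕ} [hp : Fact p.Prime]

/-- `X` (with `u : 𝟙 ⟶ X`) is `V(n-1)`, relative to `b : BData D p`. -/
structure IVb (b : BData D p) (n : ℕ) {X : T} (u : 𝟙_ T ⟶ X) : Prop where
  iv : IV b.rmod ((2 * p - 2 : ℕ) : ℤ) (In p) (zv p) n u
  chp : Chp p (fun k => cls b.rmod (zv p k)) n X u

theorem two_wv (k : ℕ) : 2 * wv p k = ((2 * p - 2 : ℕ) : ℤ) * Ch.N p k := by
  rw [wv]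
  exact two_mul_wt hp.out.one_lt.le _

theorem wv_nonneg (k : ℕ) : 0 ≤ wv p k := by
  rw [wv_eq]
  exact Int.natCast_nonneg _

/-- The start of the tower. -/
theorem exists_start_chp (b : BData D p) (hp2 : p ≠ 2) :
    ∃ (X : T) (u : 𝟙_ T ⟶ X) (δ : X ⟶ (𝟙_ T)⟦(1 : ℤ)⟧),
      Triangle.mk ((p : ℤ) • 𝟙 (𝟙_ T)) u δ ∈ distTriang T ∧ IVb b 1 u := by
  obtain ⟨C, iC, δC, hC⟩ := distinguished_cocone_triangle ((p : ℤ) • 𝟙 (𝟙_ T))
  refine ⟨C, iC, δC, hC, ⟨ch_one b.rmod p ?_ (zv p) ?_ hC, ?_, fun s a => ?_⟩,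
    Chp.base iC δC hC⟩
  · rw [wv, Ch.N_zero]
    simp
  · change (MvPolynomial.C (Laz.v p 0) : Cob Laz 0) = _
    rw [show Laz.v p 0 = (p : Laz) from vv_zero p _]
    exact map_natCast _ p
  · have h1 : ((2 * p - 2 : ℕ) : ℤ) = 2 * ((p : ℤ) - 1) := by
      have := hp.out.two_le
      push_cast [Nat.cast_sub (show 2 ≤ 2 * p by omega)]
      ring
    rw [h1]
    exact b.xM hC hp2
  · ext y
    rw [b.mem_kx hC hp2]
    change _ ↔ toNB p s y.1 ∈ NB.I p 0 s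
    rw [NB.I_zero]
    exact Ideal.mem_bot.symm

variable {b : BData D p}

/-- The comparison with `Ch p`. -/
theorem IVb.cmpX (hlow : OutLow p) {n : ℕ} (hn : 1 ≤ n) {X : T} {u : 𝟙_ T ⟶ X}
    (h : IVb b n u) : CmpX b.rmod u (chM p) (Ch.N p n) :=
  cmpX_of hlow hn h.iv.ker

theorem IVb.cmp (U : UnitCof b.obj) (hlow : OutLow p) {n : ℕ} (hn : 1 ≤ n) {X : T}
    {u : 𝟙_ T ⟶ X} (h : IVb b n u) : Cmp U p n X :=
  CmpX.cmp U hp.out.two_le h.iv.xm (h.cmpX hlow hn)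

theorem IVb.conn (U : UnitCof b.obj) {n : ℕ} {X : T} {u : 𝟙_ T ⟶ X} (h : IVb b n u) :
    O.Conn U X := b.conn_O_iv U wv_nonneg h.iv.xm h.chp

/-- The step. -/
theorem IVb.step {n : ℕ} (hn : 1 ≤ n) {X : T} {u : 𝟙_ T ⟶ X} (h : IVb b n u)
    {f : X⟦2 * wv p n⟧ ⟶ X} {X' : T} {r : X ⟶ X'} {δ : X' ⟶ X⟦2 * wv p n⟧⟦(1 : ℤ)⟧}
    (hd : Triangle.mk f r δ ∈ distTriang T)
    (hf : u⟦2 * wv p n⟧' ≫ f ≫ unitMap b.obj X = hur (cls b.rmod (zv p n)) u) :
    IVb b (n + 1) (u ≫ r) where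
  iv := h.iv.step b.rmod (ktowLaz p (n + 1))
    (Int.natCast_dvd_natCast.2 ⟨p - 1, by rw [Nat.mul_sub]⟩)
    (fun k => by rw [two_wv k]; exact Dvd.intro _ rfl) hn (Nat.lt_succ_self n) hd hf
  chp := Chp.step hn h.chp f r δ hd hf

/-- **`V(3)` with a left unital pairing.** -/
theorem exists_V3 (b : BData D p) (U : UnitCof b.obj) (h11 : 11 ≤ p) (hlow : OutLow p)
    (hV : OutV p) (hM : OutMu p) :
    ∃ (X : T) (u : 𝟙_ T ⟶ X) (m : X ⊗ X ⟶ X), IVb b 4 u ∧ (u ▷ X) ≫ m = (λ_ X).hom := by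
  obtain ⟨X, u, m, -, h, hm⟩ := exists_tower' (v := fun k => cls b.rmod (zv p k)) (N := 4) U
    (q := ((2 * p - 2 : ℕ) : ℤ)) (fun k => by rw [two_wv k]; exact Dvd.intro _ rfl)
    (by push_cast; omega) (fun n X u => IVb b n u)
    (by obtain ⟨X, u, δ, -, h⟩ := exists_start_chp b (by omega); exact ⟨X, u, h.iv.ch, h⟩)
    (fun n X u _ _ h t ht => XM.zr b.rmod h.iv.xm ht) (fun n X u hn hn' h => h.conn U)
    (fun n X u hn hn' h k hk => hur_cls_eq_zero b.rmod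
      (by rw [h.iv.ker]; exact (ktowLaz p 5).zero n k hn (by omega) hk))
    (fun n X u hn hn' h => exists_lift_cls b.rmod U
      (by rw [h.iv.ker]; exact (ktowLaz p 5).coc n hn (by omega)) (h.conn U)
      fun s hs => (h.cmp U hlow hn).vanL h11 hV hn (by omega) (by rw [two_wv]) s hs)
    (fun n X u hn hn' h k hk a ha b' hb =>
      (h.cmp U hlow hn).vanP h11 hM hn' two_wv hk ha hb)
    (fun n X u hn hn' _ h f X' r δ hd hf => h.step hn hd hf) 4 (by norm_num) le_rfl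
  exact ⟨X, u, m, h, hm⟩

end Vale.Agent.P257.V4.K
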