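import Vale.Agent.P257.V4.K.TB

/-!
# P257, part K: `V(4)` over `b : BData D p`

`exists_V4` : the iterated cofibre `V(4)`, from the outputs of part A, the input (L) (Leibniz rule)
and the relation `α₁ β₁ ^ p = 0` in `S/p`.
-/

open CategoryTheory MonoidalCategory Limits Pretriangulated MonObj

set_option linter.unusedSectionVars false

universe v u

namespace Vale.Agent.P257.V4.K

open Vale.Agent.P251.T Vale.Agent.P251.M Vale.Agent.P251.S Vale.Agent.P251.F Vale.Agent.P251.I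
  Vale.Agent.P257.V4.A Vale.Agent.P257.V4.E Vale.Agent.P257.V4.O Vale.Agent.P257.V4.B
  Vale.Agent.P257.V4.T

variable {T : Type u} [Category.{v} T] [Preadditive T] [HasZeroObject T]
    [HasShift T ℤ] [∀ n : ℤ, (shiftFunctor T n).Additive] [Pretriangulated T] [IsTriangulated T]
    [MonoidalCategory T] [SymmetricCategory T] [TensorTriangulated T] [MonoidalClosed T]
    [HasCoproducts.{0} T] [HasProducts.{0} T] [StableCat T]

variable {D : MUData T} {p : ℕ} [hp : Fact p.Prime] {b : BData D p}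

theorem e0_v4 : 2 * wv p 4 + ((0 : ℕ) : ℤ) = 2 * wv p 4 := by simp

theorem em_v4 : 2 * wv p 4 = (2 * wv p 4 - 1) + 1 := by ring

/-- The input (L) of the lift of `v_4`. -/
def InL (b : BData D p) (U : UnitCof b.obj) {X : T} (u : 𝟙_ T ⟶ X) : Prop :=
  ∀ s : ℕ, s + 1 = 2 * p - 2 → ∀ y : (cpl U X).D (s + 2) (2 * wv p 4 - 1),
    (cpl U X).proj (2 * wv p 4 - 1) (show 1 ≤ s + 2 by omega) y =
      (cpl U X).k 0 (2 * wv p 4) (2 * wv p 4 - 1) em_v4 (clE b.rmod U u e0_v4 (zv p 4)) →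
    (cpl U X).IsCobdy ((cpl U X).j (s + 2) (2 * wv p 4 - 1) y)

/-- **`V(4)` exists.** -/
theorem exists_V4 (U : UnitCof b.obj) (h11 : 11 ≤ p) (hO : Out p) (Z : T0D b.rmod U p)
    (h0 : ∀ {Sp : T} {ip : 𝟙_ T ⟶ Sp} {δp : Sp ⟶ (𝟙_ T)⟦(1 : ℤ)⟧},
      Triangle.mk ((p : ℤ) • 𝟙 (𝟙_ T)) ip δp ∈ distTriang T → mulPow Z.α Z.β p ≫ ip = 0)
    (hL : ∀ {X : T} {u : 𝟙_ T ⟶ X} {m : X ⊗ X ⟶ X}, IVb b 4 u →
      (u ▷ X) ≫ m = (λ_ X).hom → InL b U u) :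
    ∃ (X : T) (u : 𝟙_ T ⟶ X), IVb b 5 u := by
  obtain ⟨X, u, m, h, hm⟩ := exists_V3 b U h11 hO.low hO.v hO.mu
  have hz : cobK.d 0 (wv p 4) (zv p 4) ∈ b.rmod.kx u 1 (wv p 4) := by
    rw [h.iv.ker]
    exact d_zv_mem p
  obtain ⟨x, hx⟩ := exists_lift_v4 U h11 (h.cmp U hO.low (by norm_num)) hO.v4 (h.conn U)
    (two_wv 4) hz e0_v4 em_v4 (hL h hm) (hT_b U h11 hO Z h0 h hm)
  obtain ⟨f, X', r, δ, -, hδ, hf, -⟩ := h.iv.ch.next hm hx
  exact ⟨X', u ≫ r, h.step (by norm_num) hδ hf⟩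

end Vale.Agent.P257.V4.K
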